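import Claimed.Agent.R156.B3Kernel

/-! Row 156 / S0327: the bottleneck property of `B3`. -/

set_option autoImplicit false

namespace Claimed.Agent.R156

/-- off-diagonal entry of `g gᵀ`. -/
def offD (g : SL2) : ℤ := g 0 0 * g 1 0 + g 0 1 * g 1 1

theorem offD_s0 (n : ℕ) : offD (piB (B3.s 0 ^ n)) = n := by
  have h := piB_s0_zpow (n : ℤ)
  rw [zpow_natCast] at h
  unfold offD
  rw [h]
  simp

theorem offD_s1 (n : ℕ) : offD (piB (B3.s 1 ^ n)) = -n := by
  have h := piB_s1_zpow (n : ℤ)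
  rw [zpow_natCast] at h
  unfold offD
  rw [h]
  simp

/-- Key arithmetic lemma: with `v1=(p,q)`, `v2=(r,s)`, `ps-qr=1`, `Q=[[A,B],[B,C]]` positive
definite of determinant one: if `v1·v2 ≥ 0` and `v1 Q v2 ≤ 0` then `v1·v2 ≤ (A+C)^2`. -/
theorem offD_bound (p q r s A B C : ℤ) (hdet : p * s - q * r = 1) (hQ : A * C - B * B = 1)
    (hA : 0 < A) (h1 : 0 ≤ p * r + q * s)
    (h2 : p * (A * r + B * s) + q * (B * r + C * s) ≤ 0) : p * r + q * s ≤ (A + C) ^ 2 := by
  have hC : 0 < C := by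
    by_contra hC
    rw [not_lt] at hC
    have : A * C ≤ 0 := mul_nonpos_of_nonneg_of_nonpos hA.le hC
    nlinarith [mul_self_nonneg B]
  have hN : 0 < p * p + q * q := by
    by_contra hN
    rw [not_lt] at hN
    have hp : p = 0 := by
      have : p * p ≤ 0 := by nlinarith [mul_self_nonneg q]
      exact mul_self_eq_zero.mp (le_antisymm this (mul_self_nonneg p))
    have hq : q = 0 := by
      have : q * q ≤ 0 := by nlinarith [mul_self_nonneg p]
      exact mul_self_eq_zero.mp (le_antisymm this (mul_self_nonneg q))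
    rw [hp, hq] at hdet
    simp at hdet
  obtain ⟨N, hNdef⟩ : ∃ N, N = p * p + q * q := ⟨_, rfl⟩
  obtain ⟨T, hTdef⟩ : ∃ T, T = A + C := ⟨_, rfl⟩
  obtain ⟨E, hEdef⟩ : ∃ E, E = A * (p * p) + 2 * B * (p * q) + C * (q * q) := ⟨_, rfl⟩
  obtain ⟨K, hKdef⟩ : ∃ K, K = B * (p * p - q * q) + (C - A) * (p * q) := ⟨_, rfl⟩
  obtain ⟨u, hudef⟩ : ∃ u, u = p * r + q * s := ⟨_, rfl⟩
  obtain ⟨w, hwdef⟩ : ∃ w, w = p * (A * r + B * s) + q * (B * r + C * s) := ⟨_, rfl⟩
  have hT : 0 < T := by rw [hTdef]; linarith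
  have hNpos : 0 < N := by rw [hNdef]; exact hN
  -- decomposition of `v2` in the basis `v1, J v1`
  have id1 : N * w = u * E + K := by
    have : N * w = u * E + K * (p * s - q * r) := by
      rw [hNdef, hwdef, hudef, hEdef, hKdef]; ring
    rw [this, hdet, mul_one]
  -- Cayley-Hamilton
  have id2 : T * E - N = (A * p + B * q) ^ 2 + (B * p + C * q) ^ 2 := by
    have : T * E - (A * C - B * B) * N = (A * p + B * q) ^ 2 + (B * p + C * q) ^ 2 := by
      rw [hNdef, hTdef, hEdef]; ring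
    rw [hQ, one_mul] at this
    exact this
  have hTE : N ≤ T * E := by
    have : 0 ≤ T * E - N := by rw [id2]; positivity
    linarith
  -- bound of the cross term
  have hTB : 0 < T + B := by
    have h3 : 0 < (T + B) * (T - B) := by
      have : (T + B) * (T - B) = A * A + A * C + C * C + (A * C - B * B) := by
        rw [hTdef]; ring
      rw [this, hQ]
      positivity
    by_contra hcon
    rw [not_lt] at hcon
    have h4 : T - B > 0 := by linarith
    have : (T + B) * (T - B) ≤ 0 := mul_nonpos_of_nonpos_of_nonneg hcon h4.le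
    linarith
  have hK : 0 ≤ T * N + K := by
    have h5 : 4 * (T + B) * (T * N + K)
        = (2 * (T + B) * p + (C - A) * q) ^ 2
          + (3 * A * A + 6 * (A * C) + 3 * C * C + 4 * (A * C - B * B)) * (q * q) := by
      rw [hNdef, hTdef, hKdef]; ring
    have h6 : 0 ≤ 4 * (T + B) * (T * N + K) := by
      rw [h5, hQ]
      have : 0 ≤ A * C := (mul_pos hA hC).le
      have h7 : 0 ≤ (3 * A * A + 6 * (A * C) + 3 * C * C + 4 * 1) * (q * q) := by
        apply mul_nonneg _ (mul_self_nonneg q)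
        nlinarith [mul_self_nonneg A, mul_self_nonneg C]
      have h8 : 0 ≤ (2 * (T + B) * p + (C - A) * q) ^ 2 := sq_nonneg _
      linarith
    have h9 : 0 < 4 * (T + B) := by linarith
    exact nonneg_of_mul_nonneg_right h6 h9
  have hu : 0 ≤ u := by rw [hudef]; exact h1
  have hw : w ≤ 0 := by rw [hwdef]; exact h2
  have hNw : N * w ≤ 0 := mul_nonpos_of_nonneg_of_nonpos hNpos.le hw
  have huE : u * E ≤ T * N := by linarith
  have h10 : u * N ≤ u * (T * E) := mul_le_mul_of_nonneg_left hTE hu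
  have h11 : T * (u * E) ≤ T * (T * N) := mul_le_mul_of_nonneg_left huE hT.le
  have h12 : u * N ≤ T ^ 2 * N := by
    calc u * N ≤ u * (T * E) := h10
      _ = T * (u * E) := by ring
      _ ≤ T * (T * N) := h11
      _ = T ^ 2 * N := by ring
  have := le_of_mul_le_mul_right h12 hNpos
  rw [hudef, hTdef] at this
  exact this

/-- a nonzero row has positive square norm. -/
theorem offD_row_pos (a b c d : ℤ) (h : a * d - b * c = 1) : 0 < a * a + b * b := by
  by_contra hN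
  rw [not_lt] at hN
  have hp : a = 0 := by
    have : a * a ≤ 0 := by nlinarith [mul_self_nonneg b]
    exact mul_self_eq_zero.mp (le_antisymm this (mul_self_nonneg a))
  have hq : b = 0 := by
    have : b * b ≤ 0 := by nlinarith [mul_self_nonneg a]
    exact mul_self_eq_zero.mp (le_antisymm this (mul_self_nonneg b))
  rw [hp, hq] at h
  simp at h

theorem offD_det (g : SL2) : g 0 0 * g 1 1 - g 0 1 * g 1 0 = 1 := by
  have h := g.det_coe
  rw [Matrix.det_fin_two] at h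
  exact h

theorem offD_abs_le_of_sq (x y M : ℤ) (h : x * x + y * y ≤ M) : |x| ≤ M := by
  have h1 : |x| ≤ |x| * |x| := by
    rcases eq_or_ne x 0 with rfl | hx
    · simp
    · have : 1 ≤ |x| := Int.one_le_abs hx
      nlinarith
  have h2 : |x| * |x| = x * x := abs_mul_abs_self x
  nlinarith [mul_self_nonneg y]

/-- if `offD g ≥ 0 ≥ offD (g * σ)` then the entries of `g` are bounded in terms of `σ`. -/
theorem offD_sign_change (σ : SL2) : ∃ M : ℤ, ∀ g : SL2, 0 ≤ offD g → offD (g * σ) ≤ 0 →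
    ∀ i j, |g i j| ≤ M := by
  obtain ⟨a, ha⟩ : ∃ a, a = σ 0 0 := ⟨_, rfl⟩
  obtain ⟨b, hb⟩ : ∃ b, b = σ 0 1 := ⟨_, rfl⟩
  obtain ⟨c, hc⟩ : ∃ c, c = σ 1 0 := ⟨_, rfl⟩
  obtain ⟨d, hd⟩ : ∃ d, d = σ 1 1 := ⟨_, rfl⟩
  have hσ : a * d - b * c = 1 := by rw [ha, hb, hc, hd]; exact offD_det σ
  refine ⟨((a * a + b * b + (c * c + d * d)) ^ 2) ^ 2 + 1, ?_⟩
  intro g h1 h2
  obtain ⟨p, hp⟩ : ∃ p, p = g 0 0 := ⟨_, rfl⟩
  obtain ⟨q, hq⟩ : ∃ q, q = g 0 1 := ⟨_, rfl⟩
  obtain ⟨r, hr⟩ : ∃ r, r = g 1 0 := ⟨_, rfl⟩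
  obtain ⟨s, hs⟩ : ∃ s, s = g 1 1 := ⟨_, rfl⟩
  have hg : p * s - q * r = 1 := by rw [hp, hq, hr, hs]; exact offD_det g
  have h1' : 0 ≤ p * r + q * s := by
    unfold offD at h1
    rw [← hp, ← hq, ← hr, ← hs] at h1
    exact h1
  have h2' : p * ((a * a + b * b) * r + (a * c + b * d) * s)
      + q * ((a * c + b * d) * r + (c * c + d * d) * s) ≤ 0 := by
    unfold offD at h2
    simp only [Matrix.SpecialLinearGroup.coe_mul, Matrix.mul_apply, Fin.sum_univ_two] at h2
    rw [← hp, ← hq, ← hr, ← hs, ← ha, ← hb, ← hc, ← hd] at h2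
    have e : p * ((a * a + b * b) * r + (a * c + b * d) * s)
      + q * ((a * c + b * d) * r + (c * c + d * d) * s)
      = (p * a + q * c) * (r * a + s * c) + (p * b + q * d) * (r * b + s * d) := by ring
    rw [e]
    exact h2
  have hQ : (a * a + b * b) * (c * c + d * d) - (a * c + b * d) * (a * c + b * d) = 1 := by
    have : (a * a + b * b) * (c * c + d * d) - (a * c + b * d) * (a * c + b * d)
        = (a * d - b * c) ^ 2 := by ring
    rw [this, hσ]; norm_num
  have hA : 0 < a * a + b * b := offD_row_pos a b c d hσ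
  have hu := offD_bound p q r s _ _ _ hg hQ hA h1' h2'
  obtain ⟨T2, hT2⟩ : ∃ T2, T2 = (a * a + b * b + (c * c + d * d)) ^ 2 := ⟨_, rfl⟩
  rw [← hT2] at hu ⊢
  obtain ⟨u, hudef⟩ : ∃ u, u = p * r + q * s := ⟨_, rfl⟩
  rw [← hudef] at hu h1'
  have hlag : (p * p + q * q) * (r * r + s * s) = u ^ 2 + 1 := by
    have : (p * p + q * q) * (r * r + s * s) = (p * r + q * s) ^ 2 + (p * s - q * r) ^ 2 := by ring
    rw [this, hg, hudef]; norm_num
  have hu2 : u ^ 2 ≤ T2 ^ 2 := by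
    apply pow_le_pow_left₀ h1' hu
  have hN1 : 0 < p * p + q * q := offD_row_pos p q r s hg
  have hN2 : 0 < r * r + s * s := by
    have : r * (-q) - s * (-p) = 1 := by linarith
    exact offD_row_pos r s (-p) (-q) this
  have hb1 : p * p + q * q ≤ T2 ^ 2 + 1 := by nlinarith
  have hb2 : r * r + s * s ≤ T2 ^ 2 + 1 := by nlinarith
  intro i j
  fin_cases i <;> fin_cases j
  · show |g 0 0| ≤ _
    rw [← hp]; exact offD_abs_le_of_sq p q _ hb1
  · show |g 0 1| ≤ _
    rw [← hq]; exact offD_abs_le_of_sq q p _ (by linarith)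
  · show |g 1 0| ≤ _
    rw [← hr]; exact offD_abs_le_of_sq r s _ hb2
  · show |g 1 1| ≤ _
    rw [← hs]; exact offD_abs_le_of_sq s r _ (by linarith)

theorem finite_bounded_SL2 (M : ℤ) : {g : SL2 | ∀ i j, |g i j| ≤ M}.Finite := by
  have h1 : {m : Fin 2 → Fin 2 → ℤ | ∀ i j, m i j ∈ Set.Icc (-M) M}.Finite := by
    exact Set.Finite.pi' (fun _ => Set.Finite.pi' (fun _ => Set.finite_Icc (-M) M))
  have h3 : Set.InjOn (fun g : SL2 => (fun i j => g i j : Fin 2 → Fin 2 → ℤ))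
      ((fun g : SL2 => (fun i j => g i j : Fin 2 → Fin 2 → ℤ)) ⁻¹'
        {m : Fin 2 → Fin 2 → ℤ | ∀ i j, m i j ∈ Set.Icc (-M) M}) := by
    intro g _ g' _ h
    apply Matrix.SpecialLinearGroup.ext
    intro i j
    exact congrFun (congrFun h i) j
  refine (h1.preimage h3).subset ?_
  intro g hg
  show ∀ i j, g i j ∈ Set.Icc (-M) M
  intro i j
  exact abs_le.mp (hg i j)

/-- BOTTLENECK in `B3`. -/
theorem bottleneck_B3 : Bottleneck (⊤ : Subgroup B3) (B3.s 0) (B3.s 1) B3.z := by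
  classical
  intro Sg hSg
  choose M hM using offD_sign_change
  have hF : (⋃ σ ∈ piB '' Sg, {g : SL2 | ∀ i j, |g i j| ≤ M σ}).Finite :=
    Set.Finite.biUnion (hSg.image _) (fun σ _ => finite_bounded_SL2 (M σ))
  refine ⟨Function.invFun piB '' (⋃ σ ∈ piB '' Sg, {g : SL2 | ∀ i j, |g i j| ≤ M σ}) ∪ {1},
    (hF.image _).union (Set.finite_singleton _), ?_⟩
  intro n N p h0 hN _ hstep
  rcases Nat.eq_zero_or_pos n with rfl | hn
  · exact ⟨0, Nat.zero_le _, 0, 1, Or.inr rfl, by rw [h0]; simp⟩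
  have hex : ∃ j, offD (piB (p j)) ≤ 0 := ⟨N, by rw [hN, offD_s1]; omega⟩
  obtain ⟨j0, hj0⟩ : ∃ j0, j0 = Nat.find hex := ⟨_, rfl⟩
  have hj0le : j0 ≤ N := by
    rw [hj0]
    exact Nat.find_min' hex (by rw [hN, offD_s1]; omega)
  have hj0spec : offD (piB (p j0)) ≤ 0 := by rw [hj0]; exact Nat.find_spec hex
  have hj0pos : j0 ≠ 0 := by
    rintro rfl
    rw [h0, offD_s0] at hj0spec
    omega
  obtain ⟨j, rfl⟩ := Nat.exists_eq_succ_of_ne_zero hj0pos
  have hjlt : j < N := hj0le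
  have hjpos : 0 ≤ offD (piB (p j)) := by
    have := Nat.find_min hex (m := j) (by rw [← hj0]; exact Nat.lt_succ_self j)
    rw [not_le] at this
    exact this.le
  have hσ := hstep j hjlt
  have hmul : piB (p j) * piB ((p j)⁻¹ * p (j + 1)) = piB (p (j + 1)) := by
    rw [← map_mul, mul_inv_cancel_left]
  have hbd := hM (piB ((p j)⁻¹ * p (j + 1))) (piB (p j)) hjpos (by rw [hmul]; exact hj0spec)
  have hmem : piB (p j) ∈ ⋃ σ ∈ piB '' Sg, {g : SL2 | ∀ i j, |g i j| ≤ M σ} := by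
    simp only [Set.mem_iUnion]
    exact ⟨_, Set.mem_image_of_mem _ hσ, hbd⟩
  have hinv : piB (Function.invFun piB (piB (p j))) = piB (p j) :=
    Function.invFun_eq ⟨p j, rfl⟩
  obtain ⟨k, hk⟩ := piB_fibre (p j) (Function.invFun piB (piB (p j))) hinv.symm
  exact ⟨j, hjlt.le, k, _, Or.inl (Set.mem_image_of_mem _ hmem), hk⟩

end Claimed.Agent.R156
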