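import Claimed.Agent.R156.Groups

/-! Row 156 / S0327: `B3 → SL(2,ℤ)`, exponent sum, basic identities in `B3`. -/

set_option autoImplicit false

namespace Claimed.Agent.R156

/-- `SL(2,ℤ)`. -/
abbrev SL2 : Type := Matrix.SpecialLinearGroup (Fin 2) ℤ

def matL : SL2 := ⟨!![1, 1; 0, 1], by simp [Matrix.det_fin_two_of]⟩
def matR : SL2 := ⟨!![1, 0; -1, 1], by simp [Matrix.det_fin_two_of]⟩

theorem br_mat : Br matL matR := by
  unfold Br
  decide

/-- `s 0 ↦ [[1,1],[0,1]]`, `s 1 ↦ [[1,0],[-1,1]]`. -/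
def piB : B3 →* SL2 := B3.lift matL matR br_mat

/-- exponent sum. -/
def eB : B3 →* Multiplicative ℤ :=
  B3.lift (Multiplicative.ofAdd 1) (Multiplicative.ofAdd 1) rfl

@[simp] theorem piB_s0 : piB (B3.s 0) = matL := by simp [piB]
@[simp] theorem piB_s1 : piB (B3.s 1) = matR := by simp [piB]
@[simp] theorem eB_s0 : eB (B3.s 0) = Multiplicative.ofAdd 1 := B3.lift_s0 _ _ _
@[simp] theorem eB_s1 : eB (B3.s 1) = Multiplicative.ofAdd 1 := B3.lift_s1 _ _ _

namespace B3

/-- Garside element. -/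
def Dl : B3 := s 0 * s 1 * s 0

theorem Dl_sq : Dl ^ 2 = z := by
  have h : s 0 * s 1 * s 0 = s 1 * s 0 * s 1 := br
  unfold Dl z
  rw [pow_two]
  nth_rewrite 2 [h]
  simp only [pow_succ, pow_zero, one_mul, mul_assoc]

theorem Dl_mul_s0 : Dl * s 0 = s 1 * Dl := by
  have h : s 0 * s 1 * s 0 = s 1 * s 0 * s 1 := br
  unfold Dl
  nth_rewrite 1 [h]
  simp only [mul_assoc]

theorem Dl_mul_s1 : Dl * s 1 = s 0 * Dl := by
  have h : s 0 * s 1 * s 0 = s 1 * s 0 * s 1 := br
  unfold Dl
  nth_rewrite 2 [h]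
  simp only [mul_assoc]

theorem z_comm_s0 : Commute z (s 0) := by
  show z * s 0 = s 0 * z
  rw [← Dl_sq, pow_two, mul_assoc, Dl_mul_s0, ← mul_assoc, Dl_mul_s1, mul_assoc]

theorem z_comm_s1 : Commute z (s 1) := by
  show z * s 1 = s 1 * z
  rw [← Dl_sq, pow_two, mul_assoc, Dl_mul_s1, ← mul_assoc, Dl_mul_s0, mul_assoc]

theorem z_central (β : B3) : Commute z β := by
  have h : Subgroup.closure ({s 0, s 1} : Set B3) ≤ Subgroup.centralizer {z} := by
    rw [Subgroup.closure_le]
    rintro g (rfl | rfl)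
    · rw [SetLike.mem_coe, Subgroup.mem_centralizer_iff]
      rintro h rfl
      exact z_comm_s0.eq
    · rw [SetLike.mem_coe, Subgroup.mem_centralizer_iff]
      rintro h rfl
      exact z_comm_s1.eq
  rw [closure_s] at h
  have := h (Subgroup.mem_top β)
  rw [Subgroup.mem_centralizer_iff] at this
  exact this z rfl

end B3

theorem piB_z : piB B3.z = -1 := by
  unfold B3.z
  rw [map_pow, map_mul, piB_s0, piB_s1]
  decide

theorem eB_z : eB B3.z = Multiplicative.ofAdd 6 := by
  unfold B3.z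
  rw [map_pow, map_mul, eB_s0, eB_s1]
  rfl

theorem piB_s0_zpow (i : ℤ) : (piB (B3.s 0 ^ i) : Matrix (Fin 2) (Fin 2) ℤ) = !![1, i; 0, 1] := by
  rw [map_zpow, piB_s0]
  induction i using Int.induction_on with
  | zero =>
    simp only [zpow_zero, Matrix.SpecialLinearGroup.coe_one]
    ext a b; fin_cases a <;> fin_cases b <;> simp
  | succ n ih =>
    rw [zpow_add_one, Matrix.SpecialLinearGroup.coe_mul, ih]
    simp only [matL]
    ext a b; fin_cases a <;> fin_cases b <;> simp [Matrix.mul_apply, Fin.sum_univ_two] <;> ring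
  | pred n ih =>
    rw [zpow_sub_one, Matrix.SpecialLinearGroup.coe_mul, ih, Matrix.SpecialLinearGroup.coe_inv]
    simp only [matL, Matrix.adjugate_fin_two_of]
    ext a b; fin_cases a <;> fin_cases b <;> simp [Matrix.mul_apply, Fin.sum_univ_two] <;> ring

theorem piB_s1_zpow (i : ℤ) : (piB (B3.s 1 ^ i) : Matrix (Fin 2) (Fin 2) ℤ) = !![1, 0; -i, 1] := by
  rw [map_zpow, piB_s1]
  induction i using Int.induction_on with
  | zero =>
    simp only [zpow_zero, Matrix.SpecialLinearGroup.coe_one]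
    ext a b; fin_cases a <;> fin_cases b <;> simp
  | succ n ih =>
    rw [zpow_add_one, Matrix.SpecialLinearGroup.coe_mul, ih]
    simp only [matR]
    ext a b; fin_cases a <;> fin_cases b <;> simp [Matrix.mul_apply, Fin.sum_univ_two] <;> ring
  | pred n ih =>
    rw [zpow_sub_one, Matrix.SpecialLinearGroup.coe_mul, ih, Matrix.SpecialLinearGroup.coe_inv]
    simp only [matR, Matrix.adjugate_fin_two_of]
    ext a b; fin_cases a <;> fin_cases b <;> simp [Matrix.mul_apply, Fin.sum_univ_two] <;> ring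

end Claimed.Agent.R156
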