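import Claimed.Agent.R156.B3Psi

/-! Row 156 / S0327: ping-pong; the kernel of `B3 → PSL(2,ℤ)` is `⟨z⟩`; corollaries. -/

set_option autoImplicit false

namespace Claimed.Agent.R156

/-- action of a matrix on the coefficients of a symmetric matrix. -/
def k3SyFun (g : SL2) (t : ℤ × ℤ × ℤ) : ℤ × ℤ × ℤ :=
  (g 0 0 ^ 2 * t.1 + 2 * g 0 0 * g 0 1 * t.2.1 + g 0 1 ^ 2 * t.2.2,
   g 0 0 * g 1 0 * t.1 + (g 0 0 * g 1 1 + g 0 1 * g 1 0) * t.2.1 + g 0 1 * g 1 1 * t.2.2,
   g 1 0 ^ 2 * t.1 + 2 * g 1 0 * g 1 1 * t.2.1 + g 1 1 ^ 2 * t.2.2)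

def k3SyEnd : SL2 →* Function.End (ℤ × ℤ × ℤ) where
  toFun g := k3SyFun g
  map_one' := by
    funext t
    show k3SyFun 1 t = t
    simp [k3SyFun]
  map_mul' g h := by
    funext t
    show k3SyFun (g * h) t = k3SyFun g (k3SyFun h t)
    simp only [k3SyFun, Matrix.SpecialLinearGroup.coe_mul, Matrix.mul_apply, Fin.sum_univ_two]
    ext <;> simp only [] <;> ring

def k3Sy : SL2 →* Equiv.Perm (ℤ × ℤ × ℤ) := k3SyEnd.toHomPerm

theorem k3Sy_apply (g : SL2) (t : ℤ × ℤ × ℤ) : k3Sy g t = k3SyFun g t := rfl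

theorem k3Sy_neg_one : k3Sy (-1) = 1 := by
  ext t : 1
  rw [k3Sy_apply]
  simp [k3SyFun]

def k3matD : SL2 := matL * matR * matL
def k3matU : SL2 := matL * matR

theorem k3matD_sq : k3matD ^ 2 = -1 := by decide
theorem k3matU_cube : k3matU ^ 3 = -1 := by decide

theorem k3Sy_matD (t : ℤ × ℤ × ℤ) : k3Sy k3matD t = (t.2.2, -t.2.1, t.1) := by
  have e00 : k3matD 0 0 = 0 := by decide
  have e01 : k3matD 0 1 = 1 := by decide
  have e10 : k3matD 1 0 = -1 := by decide
  have e11 : k3matD 1 1 = 0 := by decide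
  rw [k3Sy_apply]
  simp only [k3SyFun, e00, e01, e10, e11]
  ext <;> simp only [] <;> ring

theorem k3Sy_matU (t : ℤ × ℤ × ℤ) :
    k3Sy k3matU t = (t.2.2, t.2.2 - t.2.1, t.1 - 2 * t.2.1 + t.2.2) := by
  have e00 : k3matU 0 0 = 0 := by decide
  have e01 : k3matU 0 1 = 1 := by decide
  have e10 : k3matU 1 0 = -1 := by decide
  have e11 : k3matU 1 1 = 1 := by decide
  rw [k3Sy_apply]
  simp only [k3SyFun, e00, e01, e10, e11]
  ext <;> simp only [] <;> ring

/-- ping-pong sets. -/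
def k3ppX (b : Bool) : Set (ℤ × ℤ × ℤ) :=
  if b then {t | 0 ≤ t.1 ∧ 0 < t.2.1 ∧ 0 ≤ t.2.2} else {t | 0 ≤ t.1 ∧ t.2.1 < 0 ∧ 0 ≤ t.2.2}

/-- Ping-pong.  `Sy g` is the action of `g` on symmetric matrices `[[A,B],[B,C]] ↦ g M gᵀ`
written on triples `(A,B,C)`. -/
theorem WW_faithful : ∃ (F : WW →* Equiv.Perm (ℤ × ℤ × ℤ)) (Sy : SL2 →* Equiv.Perm (ℤ × ℤ × ℤ)),
    Function.Injective F ∧ Sy (-1) = 1 ∧ ∀ β : B3, Sy (piB β) = F (psiB β) := by
  obtain ⟨F, hFs, hFu, hF0, hF1⟩ := WW_exists_hom (k3Sy k3matD) (k3Sy k3matU)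
    (by rw [← map_pow, k3matD_sq, k3Sy_neg_one]) (by rw [← map_pow, k3matU_cube, k3Sy_neg_one])
  refine ⟨F, k3Sy, ?_, k3Sy_neg_one, ?_⟩
  · have hlift : F = Monoid.CoprodI.lift (fun i => F.comp (Monoid.CoprodI.of (i := i))) :=
      (Monoid.CoprodI.lift.apply_symm_apply F).symm
    rw [hlift]
    refine Monoid.CoprodI.lift_injective_of_ping_pong _ ?_ k3ppX ?_ ?_ ?_
    · right
      refine ⟨true, ?_⟩
      show (3 : Cardinal) ≤ Cardinal.mk (Multiplicative (ZMod 3))
      rw [Cardinal.mk_fintype, Fintype.card_multiplicative, ZMod.card]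
      norm_num
    · intro i
      cases i
      · exact ⟨(0, -1, 0), by simp [k3ppX]⟩
      · exact ⟨(0, 1, 0), by simp [k3ppX]⟩
    · intro i j hij
      rw [Function.onFun, Set.disjoint_left]
      intro t h1 h2
      cases i <;> cases j <;> simp [k3ppX] at h1 h2 hij <;> omega
    · intro i j hij h hne
      rintro _ ⟨t, ht, rfl⟩
      show F (Monoid.CoprodI.of h) t ∈ k3ppX i
      cases i <;> cases j
      · exact absurd rfl hij
      · rw [hF0 h]
        have hv : (Multiplicative.toAdd h : ZMod 2).val = 1 := by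
          have h1 : (Multiplicative.toAdd h : ZMod 2).val < 2 := ZMod.val_lt _
          have h2 : (Multiplicative.toAdd h : ZMod 2).val ≠ 0 := by
            intro h0
            apply hne
            have := (ZMod.val_eq_zero (Multiplicative.toAdd h : ZMod 2)).mp h0
            exact this
          omega
        have hv' : (Multiplicative.toAdd h).val = 1 := hv
        rw [hv', pow_one, k3Sy_matD]
        simp only [k3ppX, if_true, Bool.false_eq_true, if_false, Set.mem_ofPred_eq] at ht ⊢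
        omega
      · rw [hF1 h]
        have hv : (Multiplicative.toAdd h : ZMod 3).val = 1 ∨
            (Multiplicative.toAdd h : ZMod 3).val = 2 := by
          have h1 : (Multiplicative.toAdd h : ZMod 3).val < 3 := ZMod.val_lt _
          have h2 : (Multiplicative.toAdd h : ZMod 3).val ≠ 0 := by
            intro h0
            apply hne
            have := (ZMod.val_eq_zero (Multiplicative.toAdd h : ZMod 3)).mp h0
            exact this
          omega
        have hv' : (Multiplicative.toAdd h).val = 1 ∨ (Multiplicative.toAdd h).val = 2 := hv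
        simp only [k3ppX, if_true, Bool.false_eq_true, if_false, Set.mem_ofPred_eq] at ht ⊢
        rcases hv' with hv' | hv'
        · rw [hv', pow_one, k3Sy_matU]
          simp only []
          omega
        · rw [hv', pow_two, Equiv.Perm.mul_apply, k3Sy_matU, k3Sy_matU]
          simp only []
          omega
      · exact absurd rfl hij
  · intro β
    have hcomp : k3Sy.comp piB = F.comp psiB := by
      apply B3.hom_ext
      · simp only [MonoidHom.comp_apply, piB_s0, psiB, B3.lift_s0, map_mul, map_inv, hFs, hFu]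
        rw [← map_inv, ← map_mul]
        congr 1
        simp only [k3matU, k3matD]
        group
      · simp only [MonoidHom.comp_apply, piB_s1, psiB, B3.lift_s1, map_mul, map_inv, hFs, hFu]
        rw [← map_inv, ← map_mul]
        congr 1
        have := br_mat
        unfold Br at this
        simp only [k3matU, k3matD]
        rw [this]
        group
    exact DFunLike.congr_fun hcomp β

/-- KERNEL THEOREM. -/
theorem ker_pi (β : B3) (h : piB β = 1 ∨ piB β = -1) : β ∈ Subgroup.zpowers B3.z := by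
  obtain ⟨F, S, hF, hS, hc⟩ := WW_faithful
  apply psiB_ker
  apply hF
  rw [← hc, map_one]
  rcases h with h | h <;> rw [h]
  · exact map_one _
  · exact hS

theorem eB_z_zpow (k : ℤ) : eB (B3.z ^ k) = Multiplicative.ofAdd (6 * k) := by
  rw [map_zpow, eB_z, ← ofAdd_zsmul, smul_eq_mul, mul_comm]

theorem eB_s0_zpow (k : ℤ) : eB (B3.s 0 ^ k) = Multiplicative.ofAdd k := by
  rw [map_zpow, eB_s0, ← ofAdd_zsmul, smul_eq_mul, mul_one]

/-- `(piB, eB)` is injective. -/
theorem inj_pi_e (β : B3) (h1 : piB β = 1) (h2 : eB β = 1) : β = 1 := by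
  obtain ⟨k, rfl⟩ := Subgroup.mem_zpowers_iff.mp (ker_pi β (Or.inl h1))
  rw [eB_z_zpow] at h2
  have h3 : 6 * k = 0 := Multiplicative.ofAdd.injective h2
  have h4 : k = 0 := by omega
  rw [h4, zpow_zero]

/-- fibres of `piB`. -/
theorem piB_fibre (β β' : B3) (h : piB β = piB β') : ∃ k : ℤ, β = B3.z ^ k * β' := by
  have h1 : piB (β * β'⁻¹) = 1 := by rw [map_mul, map_inv, h, mul_inv_cancel]
  obtain ⟨k, hk⟩ := Subgroup.mem_zpowers_iff.mp (ker_pi _ (Or.inl h1))
  exact ⟨k, by rw [hk]; group⟩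

theorem s0_z_commute (a b : ℤ) : Commute (B3.s 0 ^ a) (B3.z ^ b) :=
  ((B3.z_central (B3.s 0)).symm).zpow_zpow a b

/-- centraliser of `s 0`. -/
theorem centralizer_s0 (β : B3) (h : Commute (B3.s 0) β) :
    ∃ i k : ℤ, β = B3.s 0 ^ i * B3.z ^ k := by
  have hc : matL * piB β = piB β * matL := by
    have := congrArg piB h.eq
    simpa using this
  set g := piB β with hg
  have e := congrArg (fun m : SL2 => (m : Matrix (Fin 2) (Fin 2) ℤ)) hc
  simp only [Matrix.SpecialLinearGroup.coe_mul] at e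
  have e00 := congrFun (congrFun e 0) 0
  have e01 := congrFun (congrFun e 0) 1
  simp [matL, Matrix.mul_apply, Fin.sum_univ_two] at e00 e01
  have hdet : g 0 0 * g 1 1 - g 0 1 * g 1 0 = 1 := by
    have := g.det_coe
    rwa [Matrix.det_fin_two] at this
  have e11 : g 1 1 = g 0 0 := by omega
  rw [e11, e00, mul_zero, sub_zero] at hdet
  have hsq : g 0 0 = 1 ∨ g 0 0 = -1 := by
    have : (g 0 0 - 1) * (g 0 0 + 1) = 0 := by ring_nf; ring_nf at hdet; omega
    rcases mul_eq_zero.mp this with h1 | h1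
    · left; omega
    · right; omega
  rcases hsq with h1 | h1
  · have h2 : piB β = piB (B3.s 0 ^ (g 0 1)) := by
      apply Matrix.SpecialLinearGroup.ext
      intro a b
      rw [piB_s0_zpow, ← hg]
      fin_cases a <;> fin_cases b <;> simp [h1, e00, e11]
    obtain ⟨k, hk⟩ := piB_fibre _ _ h2
    exact ⟨g 0 1, k, by rw [hk, (s0_z_commute _ _).eq]⟩
  · have h2 : piB (β * B3.z) = piB (B3.s 0 ^ (- g 0 1)) := by
      apply Matrix.SpecialLinearGroup.ext
      intro a b
      rw [piB_s0_zpow, map_mul, piB_z, ← hg, mul_neg, mul_one, Matrix.SpecialLinearGroup.coe_neg]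
      fin_cases a <;> fin_cases b <;> simp [h1, e00, e11]
    obtain ⟨k, hk⟩ := piB_fibre _ _ h2
    refine ⟨- g 0 1, k - 1, ?_⟩
    rw [zpow_sub, zpow_one, ← mul_assoc, (s0_z_commute _ _).eq, ← hk]
    group

/-- uniqueness of the exponents. -/
theorem s0_z_unique (i k i' k' : ℤ) (h : B3.s 0 ^ i * B3.z ^ k = B3.s 0 ^ i' * B3.z ^ k') :
    i = i' ∧ k = k' := by
  have hsq : ∀ a b : ℤ, piB ((B3.s 0 ^ a * B3.z ^ b) ^ 2) = piB (B3.s 0 ^ (a * 2)) := by
    intro a b
    rw [(s0_z_commute a b).mul_pow, map_mul]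
    have h1 : piB ((B3.z ^ b) ^ 2) = 1 := by
      rw [← zpow_natCast, ← zpow_mul, mul_comm, zpow_mul, map_zpow, zpow_natCast, map_pow, piB_z]
      have : (-1 : SL2) ^ 2 = 1 := by decide
      rw [this, one_zpow]
    rw [h1, mul_one, ← zpow_natCast, ← zpow_mul]
    rfl
  have h1 : piB (B3.s 0 ^ (i * 2)) = piB (B3.s 0 ^ (i' * 2)) := by
    rw [← hsq i k, ← hsq i' k', h]
  have h2 := congrArg (fun m : SL2 => (m : Matrix (Fin 2) (Fin 2) ℤ) 0 1) h1
  simp only [piB_s0_zpow] at h2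
  have h3 : i * 2 = i' * 2 := by simpa using h2
  have h4 : i = i' := by omega
  have h5 := congrArg eB h
  rw [map_mul, map_mul, eB_s0_zpow, eB_s0_zpow, eB_z_zpow, eB_z_zpow, ← ofAdd_add,
    ← ofAdd_add] at h5
  have h6 : i + 6 * k = i' + 6 * k' := Multiplicative.ofAdd.injective h5
  exact ⟨h4, by omega⟩

theorem s0_6_z_infinite : ¬ IsOfFinOrder (B3.s 0 ^ 6 * B3.z⁻¹) := by
  intro hfin
  obtain ⟨n, hn, hpow⟩ := isOfFinOrder_iff_pow_eq_one.mp hfin
  have h1 : B3.s 0 ^ 6 * B3.z⁻¹ = B3.s 0 ^ (6 : ℤ) * B3.z ^ (-1 : ℤ) := by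
    rw [zpow_neg_one]
    rfl
  rw [h1, (s0_z_commute 6 (-1)).mul_pow, ← zpow_natCast, ← zpow_natCast, ← zpow_mul,
    ← zpow_mul] at hpow
  have h2 := s0_z_unique (6 * n) (-1 * n) 0 0 (by rw [hpow]; simp)
  omega

end Claimed.Agent.R156
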