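import Claimed.Agent.R156.B3Defs

/-! Row 156 / S0327: `B3 / ⟨z⟩ ≅ ℤ/2 * ℤ/3`. -/

set_option autoImplicit false

namespace Claimed.Agent.R156

/-- the family `ℤ/2, ℤ/3`. -/
abbrev HW (b : Bool) : Type := Multiplicative (ZMod (if b then 3 else 2))

/-- `ℤ/2 * ℤ/3`. -/
abbrev WW : Type := Monoid.CoprodI HW

def sW : WW := Monoid.CoprodI.of (i := false) (Multiplicative.ofAdd (1 : ZMod 2))
def uW : WW := Monoid.CoprodI.of (i := true) (Multiplicative.ofAdd (1 : ZMod 3))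

theorem sW_sq : sW ^ 2 = 1 := by
  unfold sW
  rw [← map_pow]
  have : (Multiplicative.ofAdd (1 : ZMod 2)) ^ 2 = 1 := by decide
  exact (congrArg (Monoid.CoprodI.of (M := HW) (i := false)) this).trans (map_one _)

theorem uW_cube : uW ^ 3 = 1 := by
  unfold uW
  rw [← map_pow]
  have : (Multiplicative.ofAdd (1 : ZMod 3)) ^ 3 = 1 := by decide
  exact (congrArg (Monoid.CoprodI.of (M := HW) (i := true)) this).trans (map_one _)

theorem br_W : Br (uW⁻¹ * sW) (sW * uW⁻¹) := by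
  unfold Br
  have hs : sW * sW = 1 := by rw [← sq]; exact sW_sq
  have hu : uW⁻¹ * uW⁻¹ * uW⁻¹ = 1 := by
    have h := uW_cube
    rw [← inv_inj, inv_one, ← inv_pow] at h
    rw [← h]; group
  calc uW⁻¹ * sW * (sW * uW⁻¹) * (uW⁻¹ * sW)
      = uW⁻¹ * (sW * sW) * uW⁻¹ * uW⁻¹ * sW := by group
    _ = (uW⁻¹ * uW⁻¹ * uW⁻¹) * sW := by rw [hs]; group
    _ = sW * (uW⁻¹ * uW⁻¹ * uW⁻¹) := by rw [hu]; group
    _ = sW * uW⁻¹ * uW⁻¹ * (sW * sW) * uW⁻¹ := by rw [hs]; group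
    _ = sW * uW⁻¹ * (uW⁻¹ * sW) * (sW * uW⁻¹) := by group

/-- `s 0 ↦ u⁻¹ s`, `s 1 ↦ s u⁻¹` (so `s0 s1 ↦ u`, `Dl ↦ s`). -/
noncomputable def psiB : B3 →* WW := B3.lift (uW⁻¹ * sW) (sW * uW⁻¹) br_W

/-- the homomorphism `ℤ/n → Γ` given by an element of order dividing `n`. -/
def b3Psi_zmodHom {Γ : Type*} [Group Γ] (n : ℕ) [NeZero n] (a : Γ) (ha : a ^ n = 1) :
    Multiplicative (ZMod n) →* Γ :=
  MonoidHom.mk' (fun h => a ^ (ZMod.val (Multiplicative.toAdd h))) (by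
    intro x y
    rw [toAdd_mul, ZMod.val_add, ← pow_add, ← pow_eq_pow_mod _ ha])

/-- universal property of `WW`. -/
theorem WW_exists_hom {Γ : Type*} [Group Γ] (a b : Γ) (ha : a ^ 2 = 1) (hb : b ^ 3 = 1) :
    ∃ F : WW →* Γ, F sW = a ∧ F uW = b ∧
      (∀ h : HW false, F (Monoid.CoprodI.of h) = a ^ (ZMod.val (Multiplicative.toAdd h))) ∧
      (∀ h : HW true, F (Monoid.CoprodI.of h) = b ^ (ZMod.val (Multiplicative.toAdd h))) := by
  let fam : ∀ i : Bool, HW i →* Γ := fun i =>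
    match i with
    | false => b3Psi_zmodHom 2 a ha
    | true => b3Psi_zmodHom 3 b hb
  refine ⟨Monoid.CoprodI.lift fam, ?_, ?_, ?_, ?_⟩
  · unfold sW
    rw [Monoid.CoprodI.lift_of]
    show a ^ (ZMod.val (1 : ZMod 2)) = a
    have : ZMod.val (1 : ZMod 2) = 1 := by decide
    rw [this, pow_one]
  · unfold uW
    rw [Monoid.CoprodI.lift_of]
    show b ^ (ZMod.val (1 : ZMod 3)) = b
    have : ZMod.val (1 : ZMod 3) = 1 := by decide
    rw [this, pow_one]
  · intro h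
    rw [Monoid.CoprodI.lift_of]
    rfl
  · intro h
    rw [Monoid.CoprodI.lift_of]
    rfl

theorem b3Psi_normal : (Subgroup.zpowers B3.z).Normal := by
  constructor
  intro n hn g
  obtain ⟨k, rfl⟩ := Subgroup.mem_zpowers_iff.mp hn
  have hc : Commute (B3.z ^ k) g := (B3.z_central g).zpow_left k
  have : g * B3.z ^ k * g⁻¹ = B3.z ^ k := by
    rw [← hc.eq, mul_inv_cancel_right]
  rw [this]
  exact Subgroup.zpow_mem_zpowers _ _

/-- The kernel of `psiB` is generated by `z`.  (Inverse map `WW → B3 ⧸ zpowers z`,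
`s ↦ Dl`, `u ↦ s 0 * s 1`; its composite with `psiB` is the quotient map.) -/
theorem psiB_ker (β : B3) (h : psiB β = 1) : β ∈ Subgroup.zpowers B3.z := by
  have := b3Psi_normal
  have hz : (QuotientGroup.mk' (Subgroup.zpowers B3.z)) B3.z = 1 := by
    rw [QuotientGroup.mk'_apply, QuotientGroup.eq_one_iff]
    exact Subgroup.mem_zpowers _
  obtain ⟨χ, hχs, hχu, -, -⟩ := WW_exists_hom
    ((QuotientGroup.mk' (Subgroup.zpowers B3.z)) B3.Dl)
    ((QuotientGroup.mk' (Subgroup.zpowers B3.z)) (B3.s 0 * B3.s 1))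
    (by rw [← map_pow, B3.Dl_sq, hz])
    (by rw [← map_pow]; exact hz)
  have hcomp : χ.comp psiB = QuotientGroup.mk' (Subgroup.zpowers B3.z) := by
    apply B3.hom_ext
    · rw [MonoidHom.comp_apply]
      unfold psiB
      rw [B3.lift_s0, map_mul, map_inv, hχs, hχu, ← map_inv, ← map_mul]
      congr 1
      unfold B3.Dl
      group
    · rw [MonoidHom.comp_apply]
      unfold psiB
      rw [B3.lift_s1, map_mul, map_inv, hχs, hχu, ← map_inv, ← map_mul]
      congr 1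
      unfold B3.Dl
      have hbr : B3.s 0 * B3.s 1 * B3.s 0 = B3.s 1 * B3.s 0 * B3.s 1 := B3.br
      rw [hbr]
      group
  have h1 : (QuotientGroup.mk' (Subgroup.zpowers B3.z)) β = 1 := by
    rw [← hcomp, MonoidHom.comp_apply, h, map_one]
  rwa [QuotientGroup.mk'_apply, QuotientGroup.eq_one_iff] at h1

end Claimed.Agent.R156
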