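import Claimed.Agent.R156.Defs

/-! Row 156 / S0327: Jucys-Murphy elements and full twists in a group with braid relations.
`σ 0, …, σ (n-1)` satisfy the relations of type `A_n`.  Pure group theory. -/

set_option autoImplicit false

namespace Claimed.Agent.R156

variable {Γ : Type*} [Group Γ]

/-- Jucys-Murphy element: `jm σ k = σ k ⋯ σ 1 σ 0 σ 0 σ 1 ⋯ σ k`. -/
def jm (σ : ℕ → Γ) : ℕ → Γ
  | 0 => σ 0 * σ 0
  | k + 1 => σ (k + 1) * jm σ k * σ (k + 1)

/-- full twist on the strands `0..k+1`: `ft σ k = jm σ 0 * ⋯ * jm σ k`. -/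
def ft (σ : ℕ → Γ) : ℕ → Γ
  | 0 => jm σ 0
  | k + 1 => ft σ k * jm σ (k + 1)

/-- The relations of type `A_n`. -/
structure BraidRel (σ : ℕ → Γ) (n : ℕ) : Prop where
  br : ∀ j, j + 1 < n → Br (σ j) (σ (j + 1))
  comm : ∀ j k, j + 2 ≤ k → k < n → Commute (σ j) (σ k)

variable {σ : ℕ → Γ} {n : ℕ}

/-- anything commuting with `σ 0, …, σ k` commutes with `jm σ k`. -/
theorem commute_jm_of_forall {g : Γ} {k : ℕ} (h : ∀ i ≤ k, Commute g (σ i)) :
    Commute g (jm σ k) := by
  induction k with
  | zero => exact (h 0 le_rfl).mul_right (h 0 le_rfl)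
  | succ k ih =>
    exact ((h (k + 1) le_rfl).mul_right (ih fun i hi => h i (by omega))).mul_right
      (h (k + 1) le_rfl)

theorem commute_ft_of_forall {g : Γ} {k : ℕ} (h : ∀ i ≤ k, Commute g (σ i)) :
    Commute g (ft σ k) := by
  induction k with
  | zero => exact commute_jm_of_forall h
  | succ k ih =>
    exact (ih fun i hi => h i (by omega)).mul_right (commute_jm_of_forall h)

theorem jm_comm_far (hσ : BraidRel σ n) {k m : ℕ} (hkm : k + 2 ≤ m) (hm : m < n) :
    Commute (σ m) (jm σ k) :=
  commute_jm_of_forall fun i hi => (hσ.comm i m (by omega) hm).symm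

/-- `a` commutes with `b a J a b` when `aba = bab` and `b` commutes with `J`. -/
theorem commute_braid_conj {a b J : Γ} (h : Br a b) (hJ : Commute b J) :
    Commute a (b * (a * J * a) * b) := by
  have h1 : ∀ x : Γ, a * (b * (a * x)) = b * (a * (b * x)) := by
    intro x
    have := congrArg (· * x) h
    simpa [Br, mul_assoc] using this
  have h2 : ∀ x : Γ, b * (J * x) = J * (b * x) := by
    intro x
    have := congrArg (· * x) hJ.eq
    simpa [mul_assoc] using this
  have h0 : a * (b * a) = b * (a * b) := by simpa [Br, mul_assoc] using h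
  show a * (b * (a * J * a) * b) = b * (a * J * a) * b * a
  simp only [mul_assoc]
  rw [h1, h2, ← h0]

/-- `a` commutes with `b a a b` when `aba = bab`. -/
theorem commute_braid_conj_zero {a b : Γ} (h : Br a b) :
    Commute a (b * (a * a) * b) := by
  have := commute_braid_conj (J := 1) h (Commute.one_right b)
  simpa using this

theorem jm_comm_near (hσ : BraidRel σ n) {i k : ℕ} (hik : i < k) (hk : k < n) :
    Commute (σ i) (jm σ k) := by
  induction k with
  | zero => omega
  | succ k ih =>
    rcases Nat.lt_or_ge i k with h | h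
    · have hc : Commute (σ i) (σ (k + 1)) := hσ.comm i (k + 1) (by omega) hk
      exact (hc.mul_right (ih h (by omega))).mul_right hc
    · have hi : i = k := by omega
      subst hi
      cases i with
      | zero => exact commute_braid_conj_zero (hσ.br 0 hk)
      | succ j =>
        exact commute_braid_conj (hσ.br (j + 1) hk) (jm_comm_far hσ (by omega) hk)

theorem jm_comm_jm (hσ : BraidRel σ n) {j k : ℕ} (hj : j < n) (hk : k < n) :
    Commute (jm σ j) (jm σ k) := by
  rcases lt_trichotomy j k with h | h | h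
  · exact (commute_jm_of_forall fun i hi => (jm_comm_near hσ (by omega) hk).symm).symm
  · subst h; exact Commute.refl _
  · exact commute_jm_of_forall fun i hi => (jm_comm_near hσ (by omega) hj).symm

theorem ft_comm_far (hσ : BraidRel σ n) {k m : ℕ} (hkm : k + 2 ≤ m) (hm : m < n) :
    Commute (σ m) (ft σ k) :=
  commute_ft_of_forall fun i hi => (hσ.comm i m (by omega) hm).symm

/-- if `J` commutes with `s J s` then `s` commutes with `J * (s J s)`. -/
theorem commute_mul_conj {s J : Γ} (h : Commute J (s * J * s)) :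
    Commute s (J * (s * J * s)) := by
  show s * (J * (s * J * s)) = J * (s * J * s) * s
  calc s * (J * (s * J * s)) = (s * J * s) * J * s := by simp only [mul_assoc]
    _ = J * (s * J * s) * s := by rw [h.eq]

/-- centrality of the full twist. -/
theorem ft_comm (hσ : BraidRel σ n) {i k : ℕ} (hik : i ≤ k) (hk : k < n) :
    Commute (σ i) (ft σ k) := by
  induction k with
  | zero =>
    have hi : i = 0 := by omega
    subst hi
    exact (Commute.refl _).mul_right (Commute.refl _)
  | succ k ih =>
    rcases Nat.lt_or_ge i (k + 1) with h | h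
    · exact (ih (by omega) (by omega)).mul_right (jm_comm_near hσ h hk)
    · have hi : i = k + 1 := by omega
      subst hi
      have hJ : Commute (jm σ k) (σ (k + 1) * jm σ k * σ (k + 1)) :=
        jm_comm_jm hσ (j := k) (k := k + 1) (by omega) hk
      cases k with
      | zero => exact commute_mul_conj hJ
      | succ j =>
        show Commute (σ (j + 1 + 1)) (ft σ j * jm σ (j + 1) * jm σ (j + 1 + 1))
        rw [mul_assoc]
        exact (ft_comm_far hσ (by omega) hk).mul_right (commute_mul_conj hJ)

theorem ft_comm_jm (hσ : BraidRel σ n) {j k : ℕ} (hjk : j ≤ k) (hk : k < n) :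
    Commute (ft σ k) (jm σ j) :=
  commute_jm_of_forall fun i hi => (ft_comm hσ (by omega) hk).symm

theorem ft_comm_ft (hσ : BraidRel σ n) {j k : ℕ} (hjk : j ≤ k) (hk : k < n) :
    Commute (ft σ k) (ft σ j) :=
  commute_ft_of_forall fun i hi => (ft_comm hσ (by omega) hk).symm

theorem ft_one_eq (h : Br (σ 0) (σ 1)) : ft σ 1 = (σ 0 * σ 1) ^ 3 := by
  have h1 : ∀ x : Γ, σ 0 * (σ 1 * (σ 0 * x)) = σ 1 * (σ 0 * (σ 1 * x)) := by
    intro x
    have := congrArg (· * x) h
    simpa [Br, mul_assoc] using this
  show σ 0 * σ 0 * (σ 1 * (σ 0 * σ 0) * σ 1) = (σ 0 * σ 1) ^ 3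
  simp only [pow_succ, pow_zero, one_mul, mul_assoc]
  rw [h1]

/-- general fact: `(x y)^3` is central in `⟨x, y⟩` when `x y x = y x y`. -/
theorem commute_cube_left {x y : Γ} (h : Br x y) : Commute x ((x * y) ^ 3) := by
  have h1 : ∀ z : Γ, x * (y * (x * z)) = y * (x * (y * z)) := by
    intro z
    have := congrArg (· * z) h
    simpa [Br, mul_assoc] using this
  have h0 : x * (y * x) = y * (x * y) := by simpa [Br, mul_assoc] using h
  show x * (x * y) ^ 3 = (x * y) ^ 3 * x
  simp only [pow_succ, pow_zero, one_mul, mul_assoc]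
  -- x x y x y x y = x y x y x y x
  rw [h0, h1 (y * (x * y))]

theorem commute_cube_right {x y : Γ} (h : Br x y) : Commute y ((x * y) ^ 3) := by
  have h1 : ∀ z : Γ, x * (y * (x * z)) = y * (x * (y * z)) := by
    intro z
    have := congrArg (· * z) h
    simpa [Br, mul_assoc] using this
  have h0 : x * (y * x) = y * (x * y) := by simpa [Br, mul_assoc] using h
  show y * (x * y) ^ 3 = (x * y) ^ 3 * y
  simp only [pow_succ, pow_zero, one_mul, mul_assoc]
  rw [← h1 (x * (y * (x * y))), h1 y]

theorem cube_swap {x y : Γ} (h : Br x y) : (y * x) ^ 3 = (x * y) ^ 3 := by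
  have h1 : ∀ z : Γ, x * (y * (x * z)) = y * (x * (y * z)) := by
    intro z
    have := congrArg (· * z) h
    simpa [Br, mul_assoc] using this
  have h0 : x * (y * x) = y * (x * y) := by simpa [Br, mul_assoc] using h
  simp only [pow_succ, pow_zero, one_mul, mul_assoc]
  -- y x y x y x = x y x y x y
  rw [← h1, h0]

end Claimed.Agent.R156
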