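import Claimed.Agent.R156.LenTheory
import Claimed.Agent.R156.BraidJM

/-! Row 156 / S0327: the block bound `19 c^2 ≥ 6 ℓ^2` (pure `LenData` algebra). -/

set_option autoImplicit false

namespace Claimed.Agent.R156

variable {Γ : Type*} [Group Γ] (L : LenData Γ) {σ : ℕ → Γ} {n : ℕ}

theorem tau_sigma_eq (hσ : BraidRel σ n) {i : ℕ} (hi : i < n) : L.τ (σ i) = L.τ (σ 0) := by
  induction i with
  | zero => rfl
  | succ i ih =>
    rw [← ih (by omega)]
    exact (L.tau_eq_of_br (hσ.br i hi)).symm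

/-- `ip (σ 0) (σ m) = ip (σ 0) (σ 2)` for `2 ≤ m < n`. -/
theorem ip_sigma_far (hσ : BraidRel σ n) {m : ℕ} (hm : 2 ≤ m) (hmn : m < n) :
    L.ip (σ 0) (σ m) = L.ip (σ 0) (σ 2) := by
  induction m, hm using Nat.le_induction with
  | base => rfl
  | succ m hm ih =>
    rw [← ih (by omega)]
    exact (L.ip_eq_of_br (hσ.br m hmn) (hσ.comm 0 m (by omega) (by omega))
      (hσ.comm 0 (m + 1) (by omega) hmn)).symm

/-- `ip (σ 0) (jm σ (k+1)) = q + 2 k p`. -/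
theorem ip_sigma_jm (hσ : BraidRel σ n) {k : ℕ} (hk : k + 1 < n) :
    L.ip (σ 0) (jm σ (k + 1)) = L.ip (σ 0) (jm σ 1) + 2 * k * L.ip (σ 0) (σ 2) := by
  induction k with
  | zero => simp
  | succ k ih =>
    have h1 : Commute (σ 0) (σ (k + 2)) := hσ.comm 0 (k + 2) (by omega) hk
    have h2 : Commute (σ 0) (jm σ (k + 1)) := jm_comm_near hσ (by omega) (by omega)
    have e : jm σ (k + 1 + 1) = σ (k + 2) * jm σ (k + 1) * σ (k + 2) := rfl
    rw [e, L.ip_mul_right _ _ _ (h1.mul_right h2) h1, L.ip_mul_right _ _ _ h1 h2,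
      ih (by omega), ip_sigma_far L hσ (by omega) hk]
    push_cast
    ring

/-- `N_K = 2 ℓ^2 + K q + K (K-1) p`. -/
theorem ip_sigma_ft (hσ : BraidRel σ n) {K : ℕ} (hK : K < n) :
    L.ip (σ 0) (ft σ K) = 2 * L.τ (σ 0) ^ 2 + K * L.ip (σ 0) (jm σ 1)
      + K * (K - 1) * L.ip (σ 0) (σ 2) := by
  induction K with
  | zero =>
    have e : ft σ 0 = σ 0 * σ 0 := rfl
    rw [e, L.ip_mul_right _ _ _ (Commute.refl _) (Commute.refl _), L.ip_self]
    simp
    ring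
  | succ K ih =>
    have h1 : Commute (σ 0) (ft σ K) := ft_comm hσ (Nat.zero_le K) (by omega)
    have h2 : Commute (σ 0) (jm σ (K + 1)) := jm_comm_near hσ (by omega) hK
    have e : ft σ (K + 1) = ft σ K * jm σ (K + 1) := rfl
    rw [e, L.ip_mul_right _ _ _ h1 h2, ih (by omega), ip_sigma_jm L hσ hK]
    push_cast
    ring

/-- all generators below `K` have the same `ip` with the full twist. -/
theorem ip_ft_sigma (hσ : BraidRel σ n) {i K : ℕ} (hi : i ≤ K) (hK : K < n) :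
    L.ip (ft σ K) (σ i) = L.ip (σ 0) (ft σ K) := by
  induction i with
  | zero => exact L.ip_comm _ _
  | succ i ih =>
    rw [← ih (by omega)]
    exact (L.ip_eq_of_br (hσ.br i (by omega)) (ft_comm hσ (by omega) hK).symm
      (ft_comm hσ hi hK).symm).symm

theorem ip_ft_jm (hσ : BraidRel σ n) {j K : ℕ} (hj : j ≤ K) (hK : K < n) :
    L.ip (ft σ K) (jm σ j) = 2 * (j + 1) * L.ip (σ 0) (ft σ K) := by
  induction j with
  | zero =>
    have h0 : Commute (ft σ K) (σ 0) := (ft_comm hσ (Nat.zero_le K) hK).symm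
    have e : jm σ 0 = σ 0 * σ 0 := rfl
    rw [e, L.ip_mul_right _ _ _ h0 h0, ip_ft_sigma L hσ (Nat.zero_le K) hK]
    simp
    ring
  | succ j ih =>
    have h1 : Commute (ft σ K) (σ (j + 1)) := (ft_comm hσ hj hK).symm
    have h2 : Commute (ft σ K) (jm σ j) := ft_comm_jm hσ (by omega) hK
    have e : jm σ (j + 1) = σ (j + 1) * jm σ j * σ (j + 1) := rfl
    rw [e, L.ip_mul_right _ _ _ (h1.mul_right h2) h1, L.ip_mul_right _ _ _ h1 h2,
      ih (by omega), ip_ft_sigma L hσ hj hK]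
    push_cast
    ring

theorem ip_ft_ft (hσ : BraidRel σ n) {j K : ℕ} (hj : j ≤ K) (hK : K < n) :
    L.ip (ft σ K) (ft σ j) = (j + 1) * (j + 2) * L.ip (σ 0) (ft σ K) := by
  induction j with
  | zero =>
    have e : ft σ 0 = jm σ 0 := rfl
    rw [e, ip_ft_jm L hσ (Nat.zero_le K) hK]
    simp
  | succ j ih =>
    have h1 : Commute (ft σ K) (ft σ j) := ft_comm_ft hσ (by omega) hK
    have h2 : Commute (ft σ K) (jm σ (j + 1)) := ft_comm_jm hσ hj hK
    have e : ft σ (j + 1) = ft σ j * jm σ (j + 1) := rfl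
    rw [e, L.ip_mul_right _ _ _ h1 h2, ih (by omega), ip_ft_jm L hσ hj hK]
    push_cast
    ring

theorem blockBound_tau_ft_sq (hσ : BraidRel σ n) {K : ℕ} (hK : K < n) :
    L.τ (ft σ K) ^ 2 = ((K : ℝ) + 1) * (K + 2) * L.ip (σ 0) (ft σ K) := by
  rw [← L.ip_self, ip_ft_ft L hσ le_rfl hK]

/-- `N_K ≥ 0`. -/
theorem ip_sigma_ft_nonneg (hσ : BraidRel σ n) {K : ℕ} (hK : K < n) :
    0 ≤ L.ip (σ 0) (ft σ K) := by
  have h := blockBound_tau_ft_sq L hσ hK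
  have h1 : 0 ≤ L.τ (ft σ K) ^ 2 := sq_nonneg _
  rw [h] at h1
  have h2 : (0 : ℝ) < ((K : ℝ) + 1) * (K + 2) := by positivity
  exact nonneg_of_mul_nonneg_right h1 h2

/-- Cauchy-Schwarz for two consecutive full twists: `K N_{K} ≤ (K+2) N_{K-1}`
(here with `K+1` in place of `K`). -/
theorem ft_cauchy (hσ : BraidRel σ n) {K : ℕ} (hK : K + 1 < n) :
    ((K : ℝ) + 1) * L.ip (σ 0) (ft σ (K + 1)) ≤ ((K : ℝ) + 3) * L.ip (σ 0) (ft σ K) := by
  have hcs := L.ip_sq_le (ft σ (K + 1)) (ft σ K) (ft_comm_ft hσ (by omega) hK)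
  rw [ip_ft_ft L hσ (by omega) hK, blockBound_tau_ft_sq L hσ hK,
    blockBound_tau_ft_sq L hσ (by omega : K < n)] at hcs
  have hN1 := ip_sigma_ft_nonneg L hσ hK
  have hN0 := ip_sigma_ft_nonneg L hσ (by omega : K < n)
  set A := L.ip (σ 0) (ft σ (K + 1)) with hA
  set B := L.ip (σ 0) (ft σ K) with hB
  push_cast at hcs
  have hk : (0 : ℝ) ≤ K := Nat.cast_nonneg K
  rcases hN1.eq_or_lt with h0 | hpos
  · rw [← h0]
    have : 0 ≤ ((K : ℝ) + 3) * B := by positivity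
    simpa using this
  · -- divide by `(K+1)(K+2)^2 A`
    have hfac : (0 : ℝ) < ((K : ℝ) + 1) * (K + 2) ^ 2 * A := by positivity
    have : ((K : ℝ) + 1) * (K + 2) ^ 2 * A * (((K : ℝ) + 1) * A) ≤
        ((K : ℝ) + 1) * (K + 2) ^ 2 * A * (((K : ℝ) + 3) * B) := by
      nlinarith [hcs]
    exact le_of_mul_le_mul_left this hfac

/-- The block bound. -/
theorem block_bound (hσ : BraidRel σ 39) :
    6 * L.τ (σ 0) ^ 2 ≤ 19 * (L.τ ((σ 0 * σ 1) ^ 3) / 6) ^ 2 ∧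
    L.ip (σ 0) ((σ 0 * σ 1) ^ 3) = 6 * (L.τ ((σ 0 * σ 1) ^ 3) / 6) ^ 2 ∧
    L.ip (σ 1) ((σ 0 * σ 1) ^ 3) = 6 * (L.τ ((σ 0 * σ 1) ^ 3) / 6) ^ 2 := by
  have hft : ft σ 1 = (σ 0 * σ 1) ^ 3 := ft_one_eq (hσ.br 0 (by norm_num))
  rw [← hft]
  have h1 := blockBound_tau_ft_sq L hσ (by norm_num : 1 < 39)
  have hN1 := ip_sigma_ft L hσ (by norm_num : 1 < 39)
  have hN37 := ip_sigma_ft L hσ (by norm_num : 37 < 39)
  have hN38 := ip_sigma_ft L hσ (by norm_num : 38 < 39)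
  have hc := ft_cauchy L hσ (by norm_num : 37 + 1 < 39)
  have hnn := ip_sigma_ft_nonneg L hσ (by norm_num : 38 < 39)
  have h3 : L.ip (σ 1) (ft σ 1) = L.ip (σ 0) (ft σ 1) := by
    rw [L.ip_comm]
    exact ip_ft_sigma L hσ le_rfl (by norm_num)
  norm_num at h1 hN1 hN37 hN38 hc
  refine ⟨?_, ?_, ?_⟩
  · nlinarith
  · nlinarith
  · rw [h3]; nlinarith

end Claimed.Agent.R156
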