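import Claimed.Agent.R156.Cat0Bil819

/-!
# The Busemann character on a centraliser (helper819)

For `g` with a point `x` of minimal displacement we show that `bil X g ·` is additive on the whole
centraliser of `g`.
-/

set_option autoImplicit false

namespace Claimed.Agent.R156.H819

open Claims.C0279.ArtinCAT0 Filter Topology

universe u v

variable {X : Type u} [MetricSpace X] {G : Type v} [Group G] [MulAction G X]

/-- `x` is a point of minimal displacement of `g`. -/
def IsMinPt (g : G) (x : X) : Prop := dist x (g • x) = tl X g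

/-- Busemann function of the orbit `g ^ n • x`. -/
noncomputable def bus (g : G) (x y : X) : ℝ := ⨅ n : ℕ, (dist y (g ^ n • x) - n * tl X g)

theorem nonneg_of_forall_nat_mul {c s : ℝ} (h : ∀ n : ℕ, c ≤ n * s) : 0 ≤ s := by
  by_contra hs
  rw [not_le] at hs
  obtain ⟨n, hn⟩ := exists_nat_gt (c / s)
  have := h n
  rw [div_lt_iff_of_neg hs] at hn
  linarith

variable [IsIsometricSMul G X] [Nonempty X]

theorem IsMinPt.dist_pow (hX : CAT0 X) {g : G} {x : X} (hx : IsMinPt g x) (n : ℕ) :
    dist x (g ^ n • x) = n * tl X g := by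
  refine le_antisymm ?_ ?_
  · have := dist_pow_le g x n
    rwa [hx] at this
  · rw [← tl_pow hX]; exact tl_le _ _

omit [Nonempty X] in
theorem IsMinPt.smul_of_commute {g h : G} {x : X} (hx : IsMinPt g x) (hc : Commute g h) :
    IsMinPt g (h • x) := by
  unfold IsMinPt at *
  rw [← mul_smul, hc.eq, mul_smul, dist_smul, hx]

omit [Nonempty X] in
theorem bus_seq_antitone {g : G} {x : X} (hx : IsMinPt g x) (y : X) :
    Antitone (fun n : ℕ => dist y (g ^ n • x) - n * tl X g) := by
  refine antitone_nat_of_succ_le (fun n => ?_)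
  have h1 : dist (g ^ n • x) (g ^ (n + 1) • x) = tl X g := by
    rw [pow_succ, mul_smul, dist_smul, hx]
  have h2 := dist_triangle y (g ^ n • x) (g ^ (n + 1) • x)
  push_cast
  linarith

theorem bus_seq_lower (hX : CAT0 X) {g : G} {x : X} (hx : IsMinPt g x) (y : X) (n : ℕ) :
    - dist x y ≤ dist y (g ^ n • x) - n * tl X g := by
  have h1 := hx.dist_pow hX n
  have h2 := dist_triangle x y (g ^ n • x)
  linarith

theorem bus_bdd (hX : CAT0 X) {g : G} {x : X} (hx : IsMinPt g x) (y : X) :
    BddBelow (Set.range (fun n : ℕ => dist y (g ^ n • x) - n * tl X g)) :=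
  ⟨- dist x y, by rintro _ ⟨n, rfl⟩; exact bus_seq_lower hX hx y n⟩

theorem bus_le (hX : CAT0 X) {g : G} {x : X} (hx : IsMinPt g x) (y : X) (n : ℕ) :
    bus g x y ≤ dist y (g ^ n • x) - n * tl X g :=
  ciInf_le (bus_bdd hX hx y) n

theorem neg_dist_le_bus (hX : CAT0 X) {g : G} {x : X} (hx : IsMinPt g x) (y : X) :
    - dist x y ≤ bus g x y :=
  le_ciInf (bus_seq_lower hX hx y)

theorem tendsto_bus (hX : CAT0 X) {g : G} {x : X} (hx : IsMinPt g x) (y : X) :
    Tendsto (fun n : ℕ => dist y (g ^ n • x) - n * tl X g) atTop (𝓝 (bus g x y)) :=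
  tendsto_atTop_ciInf (bus_seq_antitone hx y) (bus_bdd hX hx y)

theorem bus_self (hX : CAT0 X) {g : G} {x : X} (hx : IsMinPt g x) : bus g x x = 0 := by
  unfold bus
  have : (fun n : ℕ => dist x (g ^ n • x) - n * tl X g) = fun _ => 0 := by
    funext n; rw [hx.dist_pow hX]; ring
  rw [this, ciInf_const]

theorem bus_le_dist_add (hX : CAT0 X) {g : G} {x : X} (hx : IsMinPt g x) (y y' : X) :
    bus g x y ≤ dist y y' + bus g x y' := by
  have : bus g x y - dist y y' ≤ bus g x y' := by
    refine le_ciInf (fun n => ?_)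
    have h1 := bus_le hX hx y n
    have h2 := dist_triangle y y' (g ^ n • x)
    linarith
  linarith

theorem bus_pow_smul (hX : CAT0 X) {g : G} {x : X} (hx : IsMinPt g x) (m : ℕ) (y : X) :
    bus g x (g ^ m • y) = bus g x y - m * tl X g := by
  have h1 := (tendsto_add_atTop_iff_nat m).2 (tendsto_bus hX hx (g ^ m • y))
  have h2 := (tendsto_bus hX hx y).sub_const (m * tl X g)
  refine tendsto_nhds_unique h1 (h2.congr (fun k => ?_))
  rw [add_comm k m, pow_add, mul_smul, dist_smul]
  push_cast; ring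

theorem bus_le_add (hX : CAT0 X) {g : G} {x : X} (hx : IsMinPt g x) (x' : X)
    (y : X) : bus g x y ≤ bus g x' y + bus g x x' := by
  have : bus g x y - bus g x x' ≤ bus g x' y := by
    refine le_ciInf (fun m => ?_)
    have h1 := bus_le_dist_add hX hx y (g ^ m • x')
    rw [bus_pow_smul hX hx] at h1
    linarith
  linarith

theorem bus_add_bus_le (hX : CAT0 X) {g : G} {x x' : X} (hx : IsMinPt g x)
    (hx' : IsMinPt g x') (hτ : 0 < tl X g) : bus g x x' + bus g x' x ≤ 0 := by
  have key : ∀ n : ℕ, - dist x x' ^ 2 ≤ n * (- (tl X g * (bus g x x' + bus g x' x))) := by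
    intro n
    have q := quad_ineq hX x (g ^ n • x) (g ^ n • x') x'
    rw [hx.dist_pow hX, dist_smul, dist_comm (g ^ n • x') x', hx'.dist_pow hX,
      dist_comm (g ^ n • x) x', dist_comm x' x] at q
    have h1 := bus_le hX hx x' n
    have h2 := bus_le hX hx' x n
    set p := dist x (g ^ n • x') - n * tl X g with hp
    set r := dist x' (g ^ n • x) - n * tl X g with hr
    have e1 : dist x (g ^ n • x') = n * tl X g + p := by rw [hp]; ring
    have e2 : dist x' (g ^ n • x) = n * tl X g + r := by rw [hr]; ring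
    rw [e1, e2] at q
    have hn : (0 : ℝ) ≤ n * tl X g := mul_nonneg (Nat.cast_nonneg n) hτ.le
    have h3 : (n * tl X g) * (bus g x x' + bus g x' x) ≤ (n * tl X g) * (r + p) :=
      mul_le_mul_of_nonneg_left (by linarith) hn
    nlinarith [sq_nonneg p, sq_nonneg r]
  have := nonneg_of_forall_nat_mul key
  by_contra hcon
  rw [not_le] at hcon
  have := mul_pos hτ hcon
  linarith

theorem bus_eq_add (hX : CAT0 X) {g : G} {x x' : X} (hx : IsMinPt g x)
    (hx' : IsMinPt g x') (hτ : 0 < tl X g) (y : X) :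
    bus g x y = bus g x' y + bus g x x' := by
  refine le_antisymm (bus_le_add hX hx x' y) ?_
  have h1 := bus_le_add hX hx' x y
  have h2 := bus_add_bus_le hX hx hx' hτ
  linarith

omit [Nonempty X] in
theorem bus_smul_of_commute {g h : G} (hc : Commute g h) (x y : X) :
    bus g x (h • y) = bus g (h⁻¹ • x) y := by
  unfold bus
  congr 1
  funext n
  rw [← dist_smul h y, ← mul_smul, ← mul_smul, ((hc.pow_left n).symm).eq, mul_assoc,
    mul_inv_cancel, mul_one]

theorem bus_smul (hX : CAT0 X) {g h : G} {x : X} (hx : IsMinPt g x) (hτ : 0 < tl X g)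
    (hc : Commute g h) (y : X) : bus g x (h • y) = bus g x y + bus g x (h • x) := by
  have hx' : IsMinPt g (h⁻¹ • x) := hx.smul_of_commute hc.inv_right
  have h1 := bus_eq_add hX hx hx' hτ y
  have h2 := bus_eq_add hX hx hx' hτ x
  rw [bus_self hX hx] at h2
  rw [bus_smul_of_commute hc, bus_smul_of_commute hc]
  linarith

/-- The Busemann character is additive on the centraliser. -/
theorem bus_mul_smul (hX : CAT0 X) {g h k : G} {x : X} (hx : IsMinPt g x) (hτ : 0 < tl X g)
    (hh : Commute g h) : bus g x ((h * k) • x) = bus g x (h • x) + bus g x (k • x) := by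
  rw [mul_smul, bus_smul hX hx hτ hh]; ring

theorem bus_pow_smul' (hX : CAT0 X) {g h : G} {x : X} (hx : IsMinPt g x) (hτ : 0 < tl X g)
    (hh : Commute g h) (n : ℕ) : bus g x (h ^ n • x) = n * bus g x (h • x) := by
  induction n with
  | zero => simp [bus_self hX hx]
  | succ k ih =>
    rw [pow_succ', bus_mul_smul hX hx hτ hh, ih]; push_cast; ring

theorem abs_bus_le_dist (hX : CAT0 X) {g : G} {x : X} (hx : IsMinPt g x) (y : X) :
    |bus g x y| ≤ dist x y := by
  rw [abs_le]
  refine ⟨neg_dist_le_bus hX hx y, ?_⟩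
  have := bus_le_dist_add hX hx y x
  rw [bus_self hX hx, dist_comm] at this
  linarith

theorem abs_bus_le_tl (hX : CAT0 X) {g h : G} {x : X} (hx : IsMinPt g x) (hτ : 0 < tl X g)
    (hh : Commute g h) : |bus g x (h • x)| ≤ tl X h := by
  refine ge_of_tendsto (tendsto_dist_pow_div hX h x) ?_
  filter_upwards [eventually_gt_atTop 0] with n hn
  have hn' : (0 : ℝ) < n := by exact_mod_cast hn
  rw [le_div_iff₀ hn']
  have := abs_bus_le_dist hX hx (h ^ n • x)
  rw [bus_pow_smul' hX hx hτ hh, abs_mul, Nat.abs_cast] at this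
  linarith

theorem bus_self_smul (hX : CAT0 X) {g : G} {x : X} (hx : IsMinPt g x) :
    bus g x (g • x) = - tl X g := by
  have := bus_pow_smul hX hx 1 x
  rw [pow_one, bus_self hX hx] at this
  rw [this]; simp

theorem bus_inv_smul (hX : CAT0 X) {g h : G} {x : X} (hx : IsMinPt g x) (hτ : 0 < tl X g)
    (hh : Commute g h) : bus g x (h⁻¹ • x) = - bus g x (h • x) := by
  have := bus_mul_smul (k := h⁻¹) hX hx hτ hh
  rw [mul_inv_cancel, one_smul, bus_self hX hx] at this
  linarith

/-- The bilinear form is given by the Busemann character. -/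
theorem bil_eq_bus (hX : CAT0 X) {g h : G} {x : X} (hx : IsMinPt g x) (hτ : 0 < tl X g)
    (hh : Commute g h) : bil X g h = - (tl X g * bus g x (h • x)) := by
  set χ := bus g x (h • x) with hχ
  have A : ∀ n : ℕ, χ ^ 2 - tl X h ^ 2 ≤ n * (2 * (bil X g h + tl X g * χ)) := by
    intro n
    have h1 := abs_bus_le_tl hX hx hτ (((Commute.refl g).pow_right n).mul_right hh)
    rw [bus_mul_smul hX hx hτ ((Commute.refl g).pow_right n),
      bus_pow_smul' hX hx hτ (Commute.refl g), bus_self_smul hX hx, ← hχ] at h1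
    have h2 := sq_le_sq' (abs_le.1 h1).1 (abs_le.1 h1).2
    rw [tl_mul_sq, tl_pow hX, bil_pow_left hX hh] at h2
    nlinarith [h2]
  have B : ∀ n : ℕ, χ ^ 2 - tl X h ^ 2 ≤ n * (- (2 * (bil X g h + tl X g * χ))) := by
    intro n
    have cg : Commute g g⁻¹ := (Commute.refl g).inv_right
    have h1 := abs_bus_le_tl hX hx hτ ((cg.pow_right n).mul_right hh)
    rw [bus_mul_smul hX hx hτ (cg.pow_right n),
      bus_pow_smul' hX hx hτ cg, bus_inv_smul hX hx hτ (Commute.refl g),
      bus_self_smul hX hx, ← hχ] at h1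
    have h2 := sq_le_sq' (abs_le.1 h1).1 (abs_le.1 h1).2
    rw [tl_mul_sq, tl_pow hX, tl_inv, bil_pow_left hX hh.inv_left, bil_inv_left hX hh] at h2
    nlinarith [h2]
  have a := nonneg_of_forall_nat_mul A
  have b := nonneg_of_forall_nat_mul B
  linarith

/-- **Additivity of the bilinear form on the whole centraliser** (the elements `h`, `k` need not
commute with each other). -/
theorem bil_mul_right_of_minPt (hX : CAT0 X) {g h k : G} {x : X} (hx : IsMinPt g x)
    (hh : Commute g h) (hk : Commute g k) : bil X g (h * k) = bil X g h + bil X g k := by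
  rcases (tl_nonneg (X := X) g).eq_or_lt with h0 | hτ
  · have z : ∀ {j : G}, Commute g j → bil X g j = 0 := by
      intro j hj
      have := abs_bil_le hX hj
      rw [← h0, zero_mul] at this
      exact abs_eq_zero.1 (le_antisymm this (abs_nonneg _))
    rw [z hh, z hk, z (hh.mul_right hk)]; ring
  · rw [bil_eq_bus hX hx hτ hh, bil_eq_bus hX hx hτ hk, bil_eq_bus hX hx hτ (hh.mul_right hk),
      bus_mul_smul hX hx hτ hh]
    ring

end Claimed.Agent.R156.H819
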