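import Claimed.Agent.R156.TransLen
import Claimed.Agent.R156.Cat0Bus819

/-! Row 156 / S0327: Busemann character of a central element.
Bridge to the sorry-free development `Cat0Bus819` (helper819). -/

set_option autoImplicit false

namespace Claimed.Agent.R156

open Claims.C0279.ArtinCAT0

variable {Γ : Type*} [Group Γ] {X : Type*} [MetricSpace X] [MulAction Γ X]

/-- The Busemann function of the orbit `z ^ n • x`. -/
noncomputable def busemann (z : Γ) (x y : X) : ℝ :=
  ⨅ n : ℕ, (dist y (z ^ n • x) - n * tl X z)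

theorem busemann_tl_eq (g : Γ) : tl X g = H819.tl X g := rfl

theorem busemann_eq_bus (z : Γ) (x y : X) : busemann z x y = H819.bus z x y := rfl

theorem busemann_isMinPt {z : Γ} {x : X}
    (hx : ∀ n : ℕ, dist x (z ^ n • x) = n * tl X z) : H819.IsMinPt z x := by
  have := hx 1
  simpa [H819.IsMinPt, busemann_tl_eq] using this

theorem busemann_tendsto (hGA : GeometricAction Γ X) (z : Γ) (x : X)
    (hx : ∀ n : ℕ, dist x (z ^ n • x) = n * tl X z) (y : X) :
    Filter.Tendsto (fun n : ℕ => dist y (z ^ n • x) - n * tl X z) Filter.atTop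
      (nhds (busemann z x y)) := by
  have : IsIsometricSMul Γ X := ⟨hGA.2.1⟩
  have : Nonempty X := ⟨x⟩
  exact H819.tendsto_bus hGA.1 (busemann_isMinPt hx) y

theorem busemann_lipschitz (hGA : GeometricAction Γ X) (z : Γ) (x : X)
    (hx : ∀ n : ℕ, dist x (z ^ n • x) = n * tl X z) (y y' : X) :
    |busemann z x y - busemann z x y'| ≤ dist y y' := by
  have : IsIsometricSMul Γ X := ⟨hGA.2.1⟩
  have : Nonempty X := ⟨x⟩
  have h1 := H819.bus_le_dist_add hGA.1 (busemann_isMinPt hx) y y'
  have h2 := H819.bus_le_dist_add hGA.1 (busemann_isMinPt hx) y' y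
  rw [dist_comm y' y] at h2
  rw [busemann_eq_bus, busemann_eq_bus, abs_le]
  constructor <;> linarith

theorem busemann_smul_self (hGA : GeometricAction Γ X) (z : Γ) (x : X)
    (hx : ∀ n : ℕ, dist x (z ^ n • x) = n * tl X z) (y : X) :
    busemann z x (z • y) = busemann z x y - tl X z := by
  have : IsIsometricSMul Γ X := ⟨hGA.2.1⟩
  have : Nonempty X := ⟨x⟩
  have := H819.bus_pow_smul hGA.1 (busemann_isMinPt hx) 1 y
  simpa [busemann_eq_bus, busemann_tl_eq] using this

/-- For `h` commuting with `z`, `b (h y) - b y` does not depend on `y`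
(needs `0 < tl X z` so that the orbit goes to infinity; far point lemma). -/
theorem busemann_smul_const (hGA : GeometricAction Γ X) (z : Γ) (x : X)
    (hx : ∀ n : ℕ, dist x (z ^ n • x) = n * tl X z) (hpos : 0 < tl X z) (h : Γ)
    (hc : Commute z h) (y y' : X) :
    busemann z x (h • y) - busemann z x y = busemann z x (h • y') - busemann z x y' := by
  have : IsIsometricSMul Γ X := ⟨hGA.2.1⟩
  have : Nonempty X := ⟨x⟩
  have h1 := H819.bus_smul hGA.1 (busemann_isMinPt hx) hpos hc y
  have h2 := H819.bus_smul hGA.1 (busemann_isMinPt hx) hpos hc y'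
  simp only [busemann_eq_bus]
  linarith

/-- The Busemann character. -/
theorem exists_char [ProperSpace X] [Nonempty X] (hGA : GeometricAction Γ X) (z : Γ) :
    ∃ φ : Γ → ℝ, (∀ g h, Commute z g → Commute z h → φ (g * h) = φ g + φ h) ∧
      φ z = tl X z ∧ ∀ g, Commute z g → φ g ≤ tl X g := by
  have : IsIsometricSMul Γ X := ⟨hGA.2.1⟩
  rcases (tl_nonneg (X := X) z).eq_or_lt with h0 | hpos
  · exact ⟨fun _ => 0, fun _ _ _ _ => by simp, h0, fun g _ => tl_nonneg g⟩
  · obtain ⟨x, hx⟩ := exists_axis hGA z
    have hm := busemann_isMinPt hx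
    refine ⟨fun g => - H819.bus z x (g • x), fun g h hg _ => ?_, ?_, fun g hg => ?_⟩
    · show - H819.bus z x ((g * h) • x) = - H819.bus z x (g • x) + - H819.bus z x (h • x)
      rw [H819.bus_mul_smul hGA.1 hm hpos hg]; ring
    · show - H819.bus z x (z • x) = tl X z
      rw [H819.bus_self_smul hGA.1 hm, neg_neg]; rfl
    · have := H819.abs_bus_le_tl hGA.1 hm hpos hg
      have h2 := (abs_le.1 this).1
      show - H819.bus z x (g • x) ≤ tl X g
      rw [busemann_tl_eq]
      linarith

/-- The translation length of a geometric action is a `LenData`. -/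
noncomputable def lenDataOfAction [ProperSpace X] [Nonempty X] (hGA : GeometricAction Γ X) :
    LenData Γ where
  τ := tl X
  nonneg := tl_nonneg
  inv := tl_inv hGA
  conj := tl_conj hGA
  pow := tl_pow hGA
  para := tl_para hGA
  char := exists_char hGA
  finOrder := fun _ h => tl_eq_zero hGA h

end Claimed.Agent.R156
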