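import Claimed.Prelude.Def_0279

/-!
# Basic CAT(0) geometry for the Prelude definitions of row 156 (helper819)

Everything is stated for `Claims.C0279.ArtinCAT0.Segment` / `CAT0`.
-/

set_option autoImplicit false

namespace Claimed.Agent.R156.H819

open Claims.C0279.ArtinCAT0

universe u v

variable {X : Type u} [MetricSpace X]

theorem segment_dist_left {x y : X} {γ : ℝ → X} (h : Segment x y γ) {t : ℝ}
    (ht : t ∈ Set.Icc (0 : ℝ) 1) : dist x (γ t) = t * dist x y := by
  have := h.2.2 0 ⟨le_refl _, zero_le_one⟩ t ht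
  rw [h.1] at this
  rw [this, zero_sub, abs_neg, abs_of_nonneg ht.1]

theorem segment_dist_right {x y : X} {γ : ℝ → X} (h : Segment x y γ) {t : ℝ}
    (ht : t ∈ Set.Icc (0 : ℝ) 1) : dist (γ t) y = (1 - t) * dist x y := by
  have := h.2.2 t ht 1 ⟨zero_le_one, le_refl _⟩
  rw [h.2.1] at this
  rw [this, abs_sub_comm, abs_of_nonneg (by linarith [ht.2])]

theorem segment_symm {x y : X} {γ : ℝ → X} (h : Segment x y γ) :
    Segment y x (fun s => γ (1 - s)) := by
  refine ⟨by simpa using h.2.1, by simpa using h.1, ?_⟩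
  intro s hs t ht
  have := h.2.2 (1 - s) ⟨by linarith [hs.2], by linarith [hs.1]⟩ (1 - t)
    ⟨by linarith [ht.2], by linarith [ht.1]⟩
  rw [this, dist_comm y x]
  congr 1
  rw [show (1 - s - (1 - t)) = -(s - t) by ring, abs_neg]

/-- The (general) CN inequality of Bruhat--Tits. -/
theorem cn (hX : CAT0 X) {x y : X} (z : X) {γ : ℝ → X} (hγ : Segment x y γ) {t : ℝ}
    (ht : t ∈ Set.Icc (0 : ℝ) 1) :
    dist z (γ t) ^ 2 ≤
      (1 - t) * dist z x ^ 2 + t * dist z y ^ 2 - t * (1 - t) * dist x y ^ 2 := by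
  obtain ⟨η, hη⟩ := hX.1 x z
  have := hX.2 x y z γ η hγ hη t ht 1 ⟨zero_le_one, le_refl _⟩
  rw [hη.2.1] at this
  rw [dist_comm z (γ t), dist_comm z x, dist_comm z y]
  nlinarith [this]

theorem segment_unique (hX : CAT0 X) {x y : X} {γ η : ℝ → X} (hγ : Segment x y γ)
    (hη : Segment x y η) {t : ℝ} (ht : t ∈ Set.Icc (0 : ℝ) 1) : γ t = η t := by
  have := hX.2 x y y γ η hγ hη t ht t ht
  have h0 : dist (γ t) (η t) ^ 2 ≤ 0 := by
    rw [dist_self] at this
    nlinarith [this]
  have h1 : dist (γ t) (η t) = 0 := by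
    have := sq_nonneg (dist (γ t) (η t))
    exact pow_eq_zero_iff (two_ne_zero) |>.1 (le_antisymm h0 this)
  exact dist_eq_zero.1 h1

/-- two segments issuing from the same point -/
theorem dist_le_of_common_start (hX : CAT0 X) {x y z : X} {γ η : ℝ → X} (hγ : Segment x y γ)
    (hη : Segment x z η) {t : ℝ} (ht : t ∈ Set.Icc (0 : ℝ) 1) :
    dist (γ t) (η t) ≤ t * dist y z := by
  have := hX.2 x y z γ η hγ hη t ht t ht
  have h2 : dist (γ t) (η t) ^ 2 ≤ (t * dist y z) ^ 2 := by nlinarith [this]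
  exact abs_le_of_sq_le_sq' h2 (mul_nonneg ht.1 dist_nonneg) |>.2

/-- Convexity of the metric. -/
theorem dist_convex (hX : CAT0 X) {x y x' y' : X} {γ η : ℝ → X} (hγ : Segment x y γ)
    (hη : Segment x' y' η) {t : ℝ} (ht : t ∈ Set.Icc (0 : ℝ) 1) :
    dist (γ t) (η t) ≤ (1 - t) * dist x x' + t * dist y y' := by
  obtain ⟨ζ, hζ⟩ := hX.1 x y'
  have h1 := dist_le_of_common_start hX hγ hζ ht
  have ht' : (1 - t) ∈ Set.Icc (0 : ℝ) 1 := ⟨by linarith [ht.2], by linarith [ht.1]⟩
  have h2 := dist_le_of_common_start hX (segment_symm hζ) (segment_symm hη) ht'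
  simp only [sub_sub_cancel] at h2
  calc dist (γ t) (η t) ≤ dist (γ t) (ζ t) + dist (ζ t) (η t) := dist_triangle _ _ _
    _ ≤ t * dist y y' + (1 - t) * dist x x' := add_le_add h1 h2
    _ = _ := by ring

/-- A chosen segment. -/
noncomputable def seg (hX : CAT0 X) (x y : X) : ℝ → X := (hX.1 x y).choose

theorem seg_spec (hX : CAT0 X) (x y : X) : Segment x y (seg hX x y) := (hX.1 x y).choose_spec

/-- The midpoint. -/
noncomputable def mid (hX : CAT0 X) (x y : X) : X := seg hX x y (1 / 2)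

theorem half_mem : (1 / 2 : ℝ) ∈ Set.Icc (0 : ℝ) 1 := ⟨by norm_num, by norm_num⟩

theorem dist_left_mid (hX : CAT0 X) (x y : X) : dist x (mid hX x y) = dist x y / 2 := by
  rw [mid, segment_dist_left (seg_spec hX x y) half_mem]; ring

theorem dist_mid_right (hX : CAT0 X) (x y : X) : dist (mid hX x y) y = dist x y / 2 := by
  rw [mid, segment_dist_right (seg_spec hX x y) half_mem]; ring

theorem cn_mid (hX : CAT0 X) (x y z : X) :
    dist z (mid hX x y) ^ 2 ≤ dist z x ^ 2 / 2 + dist z y ^ 2 / 2 - dist x y ^ 2 / 4 := by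
  have := cn hX z (seg_spec hX x y) half_mem
  rw [mid]
  nlinarith [this]

/-- midpoints of two sides of a triangle -/
theorem dist_mid_mid_le (hX : CAT0 X) (x y z : X) :
    dist (mid hX x y) (mid hX x z) ≤ dist y z / 2 := by
  have := dist_le_of_common_start hX (seg_spec hX x y) (seg_spec hX x z) half_mem
  rw [mid, mid]; linarith

theorem dist_mid_mid_le' (hX : CAT0 X) (x y x' y' : X) :
    dist (mid hX x y) (mid hX x' y') ≤ dist x x' / 2 + dist y y' / 2 := by
  have := dist_convex hX (seg_spec hX x y) (seg_spec hX x' y') half_mem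
  rw [mid, mid]; linarith

theorem mid_comm (hX : CAT0 X) (x y : X) : mid hX x y = mid hX y x := by
  have := segment_unique hX (seg_spec hX x y) (segment_symm (seg_spec hX y x)) half_mem
  rw [mid, mid, this]; norm_num

/-- The quadrilateral inequality (sum of squares of the diagonals is at most the sum of
squares of the four sides). -/
theorem quad_ineq (hX : CAT0 X) (x y z w : X) :
    dist x z ^ 2 + dist y w ^ 2 ≤
      dist x y ^ 2 + dist y z ^ 2 + dist z w ^ 2 + dist w x ^ 2 := by
  set m := mid hX x z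
  have h1 := cn_mid hX x z y
  have h2 := cn_mid hX x z w
  have h3 : dist y w ≤ dist y m + dist w m := by
    rw [dist_comm w m]; exact dist_triangle _ _ _
  have h4 : dist y w ^ 2 ≤ 2 * dist y m ^ 2 + 2 * dist w m ^ 2 := by
    have h5 : dist y w ^ 2 ≤ (dist y m + dist w m) ^ 2 :=
      pow_le_pow_left₀ dist_nonneg h3 2
    nlinarith [sq_nonneg (dist y m - dist w m)]
  rw [dist_comm x y, dist_comm z w]
  nlinarith [h1, h2, h4]

/-- An isometry maps segments to segments. -/
theorem segment_map {x y : X} {γ : ℝ → X} (h : Segment x y γ) {f : X → X} (hf : Isometry f) :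
    Segment (f x) (f y) (fun t => f (γ t)) := by
  refine ⟨by show f (γ 0) = f x; rw [h.1], by show f (γ 1) = f y; rw [h.2.1], ?_⟩
  intro s hs t ht
  rw [hf.dist_eq, hf.dist_eq, h.2.2 s hs t ht]

theorem map_mid (hX : CAT0 X) {f : X → X} (hf : Isometry f) (x y : X) :
    f (mid hX x y) = mid hX (f x) (f y) := by
  have := segment_unique hX (segment_map (seg_spec hX x y) hf) (seg_spec hX (f x) (f y)) half_mem
  rw [mid, mid, ← this]

end Claimed.Agent.R156.H819
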