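import Claimed.Agent.R156.Defs
import Claimed.Agent.R156.Cat0Basic819

/-! Row 156 / S0327: basic consequences of the Prelude `CAT0` inequality. -/

set_option autoImplicit false

namespace Claimed.Agent.R156

open Claims.C0279.ArtinCAT0

variable {X : Type*} [MetricSpace X]

theorem Segment.rev {x y : X} {γ : ℝ → X} (h : Segment x y γ) :
    Segment y x (fun t => γ (1 - t)) :=
  H819.segment_symm h

theorem Segment.dist_left {x y : X} {γ : ℝ → X} (h : Segment x y γ) {t : ℝ}
    (ht : t ∈ Set.Icc (0 : ℝ) 1) : dist x (γ t) = t * dist x y :=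
  H819.segment_dist_left h ht

theorem Segment.dist_right {x y : X} {γ : ℝ → X} (h : Segment x y γ) {t : ℝ}
    (ht : t ∈ Set.Icc (0 : ℝ) 1) : dist (γ t) y = (1 - t) * dist x y :=
  H819.segment_dist_right h ht

theorem Segment.map_isometry {x y : X} {γ : ℝ → X} (h : Segment x y γ) {f : X → X}
    (hf : Isometry f) : Segment (f x) (f y) (fun t => f (γ t)) :=
  H819.segment_map h hf

/-- Stewart / CN inequality. -/
theorem stewart (hC : CAT0 X) {x y : X} {γ : ℝ → X} (h : Segment x y γ) (p : X) {t : ℝ}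
    (ht : t ∈ Set.Icc (0 : ℝ) 1) :
    dist p (γ t) ^ 2 ≤ (1 - t) * dist p x ^ 2 + t * dist p y ^ 2 - t * (1 - t) * dist x y ^ 2 :=
  H819.cn hC p h ht

theorem midmid (hC : CAT0 X) {x y z : X} {γ η : ℝ → X} (hγ : Segment x y γ) (hη : Segment x z η)
    {t : ℝ} (ht : t ∈ Set.Icc (0 : ℝ) 1) : dist (γ t) (η t) ≤ t * dist y z :=
  H819.dist_le_of_common_start hC hγ hη ht

/-- Convexity of the distance between two segments. -/
theorem convex_dist (hC : CAT0 X) {x y x' y' : X} {γ γ' : ℝ → X} (hγ : Segment x y γ)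
    (hγ' : Segment x' y' γ') {t : ℝ} (ht : t ∈ Set.Icc (0 : ℝ) 1) :
    dist (γ t) (γ' t) ≤ (1 - t) * dist x x' + t * dist y y' :=
  H819.dist_convex hC hγ hγ' ht

/-- Midpoints with the CN inequality. -/
theorem exists_mid (hC : CAT0 X) (x y : X) : ∃ m : X, dist x m = dist x y / 2 ∧
    dist m y = dist x y / 2 ∧
    ∀ p : X, dist p m ^ 2 ≤ (dist p x ^ 2 + dist p y ^ 2) / 2 - dist x y ^ 2 / 4 := by
  refine ⟨H819.mid hC x y, H819.dist_left_mid hC x y, H819.dist_mid_right hC x y, fun p => ?_⟩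
  have := H819.cn_mid hC x y p
  linarith

/-- Two midpoints issued from the same vertex. -/
theorem exists_two_mid (hC : CAT0 X) (x y z : X) : ∃ m m' : X,
    (∀ p : X, dist p m ^ 2 ≤ (dist p x ^ 2 + dist p y ^ 2) / 2 - dist x y ^ 2 / 4) ∧
    (∀ p : X, dist p m' ^ 2 ≤ (dist p x ^ 2 + dist p z ^ 2) / 2 - dist x z ^ 2 / 4) ∧
    dist m m' ≤ dist y z / 2 := by
  refine ⟨H819.mid hC x y, H819.mid hC x z, fun p => ?_, fun p => ?_,
    H819.dist_mid_mid_le hC x y z⟩
  · have := H819.cn_mid hC x y p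
    linarith
  · have := H819.cn_mid hC x z p
    linarith

/-- Quadrilateral inequality. -/
theorem quad_ineq (hC : CAT0 X) (p q r s : X) :
    dist p r ^ 2 + dist q s ^ 2 ≤ dist p q ^ 2 + dist q r ^ 2 + dist r s ^ 2 + dist s p ^ 2 :=
  H819.quad_ineq hC p q r s

end Claimed.Agent.R156
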