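import Claimed.Agent.R156.Cat0Transl819

/-!
# The bilinear form attached to translation lengths on commuting elements (helper819)
-/

set_option autoImplicit false

namespace Claimed.Agent.R156.H819

open Claims.C0279.ArtinCAT0 Filter Topology

universe u v

/-- polarisation of `tl ^ 2` -/
noncomputable def bil (X : Type u) [MetricSpace X] {G : Type v} [Group G] [MulAction G X]
    (g h : G) : ℝ := (tl X (g * h) ^ 2 - tl X g ^ 2 - tl X h ^ 2) / 2

variable {X : Type u} [MetricSpace X] {G : Type v} [Group G] [MulAction G X]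

theorem tl_mul_sq (g h : G) :
    tl X (g * h) ^ 2 = tl X g ^ 2 + 2 * bil X g h + tl X h ^ 2 := by
  unfold bil; ring

theorem bil_comm {g h : G} (hc : Commute g h) : bil X g h = bil X h g := by
  unfold bil; rw [hc.eq]; ring

variable [IsIsometricSMul G X] [Nonempty X]

theorem bil_self (hX : CAT0 X) (g : G) : bil X g g = tl X g ^ 2 := by
  unfold bil; rw [← pow_two, tl_sq hX]; ring

theorem bil_one_left (g : G) : bil X 1 g = 0 := by
  unfold bil; rw [one_mul, tl_one]; ring

theorem bil_one_right (g : G) : bil X g 1 = 0 := by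
  unfold bil; rw [mul_one, tl_one]; ring

theorem bil_inv_left (hX : CAT0 X) {g h : G} (hc : Commute g h) :
    bil X g⁻¹ h = - bil X g h := by
  have := tl_parallelogram hX hc
  unfold bil; rw [tl_inv]; linarith

theorem bil_inv_right (hX : CAT0 X) {g h : G} (hc : Commute g h) :
    bil X g h⁻¹ = - bil X g h := by
  rw [bil_comm hc.inv_right, bil_inv_left hX hc.symm, bil_comm hc.symm]

theorem tl_mul_le (hX : CAT0 X) {g h : G} (hc : Commute g h) :
    tl X (g * h) ≤ tl X g + tl X h := by
  obtain ⟨x⟩ := ‹Nonempty X›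
  have : Nonempty X := ⟨x⟩
  have l1 := tendsto_dist_pow_div hX (g * h) x
  have l3 := tendsto_dist_pow_div hX g x
  have l4 := tendsto_dist_pow_div hX h x
  refine le_of_tendsto_of_tendsto' l1 (l3.add l4) (fun n => ?_)
  rw [← add_div]
  refine div_le_div_of_nonneg_right ?_ (by positivity)
  rw [hc.mul_pow n, mul_smul]
  calc dist x (g ^ n • h ^ n • x) ≤ dist x (g ^ n • x) + dist (g ^ n • x) (g ^ n • h ^ n • x) :=
        dist_triangle _ _ _
    _ = _ := by rw [dist_smul]

theorem bil_le (hX : CAT0 X) {g h : G} (hc : Commute g h) :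
    bil X g h ≤ tl X g * tl X h := by
  have h1 := tl_mul_le hX hc
  have h2 : tl X (g * h) ^ 2 ≤ (tl X g + tl X h) ^ 2 := pow_le_pow_left₀ (tl_nonneg _) h1 2
  unfold bil; nlinarith

theorem abs_bil_le (hX : CAT0 X) {g h : G} (hc : Commute g h) :
    |bil X g h| ≤ tl X g * tl X h := by
  rw [abs_le]
  refine ⟨?_, bil_le hX hc⟩
  have := bil_le hX hc.inv_left
  rw [bil_inv_left hX hc, tl_inv] at this
  linarith

/-- Jordan--von Neumann identity. -/
theorem tl_mul_mul_sq (hX : CAT0 X) {x y z : G} (hxy : Commute x y) (hxz : Commute x z)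
    (hyz : Commute y z) :
    tl X (x * y * z) ^ 2 = tl X (x * y) ^ 2 + tl X (x * z) ^ 2 + tl X (y * z) ^ 2
      - tl X x ^ 2 - tl X y ^ 2 - tl X z ^ 2 := by
  have p1 := tl_parallelogram hX (hxy.symm.mul_right hyz)
  have p2 := tl_parallelogram hX (hxz.symm.mul_right hyz.symm)
  have p3 := tl_parallelogram hX ((hxy.symm.inv_left).mul_left hxz.symm)
  have p4 := tl_parallelogram hX hyz
  have e1 : y * (x * z) = x * y * z := by rw [← mul_assoc, hxy.symm.eq]
  have e2 : z * (x * y) = x * y * z := (hxz.symm.mul_right hyz.symm).eq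
  have e3 : y⁻¹ * (x * z) = y⁻¹ * z * x := by rw [hxz.eq, mul_assoc]
  have e4 : z⁻¹ * (x * y) = (y⁻¹ * z)⁻¹ * x := by
    rw [mul_inv_rev, inv_inv, hxy.eq, mul_assoc]
  rw [e1, e3] at p1
  rw [e2, e4] at p2
  linarith

theorem bil_mul_left (hX : CAT0 X) {g h k : G} (hgh : Commute g h) (hgk : Commute g k)
    (hhk : Commute h k) : bil X (g * h) k = bil X g k + bil X h k := by
  have := tl_mul_mul_sq hX hgh hgk hhk
  unfold bil; linarith

theorem bil_mul_right (hX : CAT0 X) {g h k : G} (hgh : Commute g h) (hgk : Commute g k)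
    (hhk : Commute h k) : bil X g (h * k) = bil X g h + bil X g k := by
  rw [bil_comm (hgh.mul_right hgk), bil_mul_left hX hhk hgh.symm hgk.symm, bil_comm hgh.symm,
    bil_comm hgk.symm]

theorem bil_pow_left (hX : CAT0 X) {g h : G} (hc : Commute g h) (n : ℕ) :
    bil X (g ^ n) h = n * bil X g h := by
  induction n with
  | zero => simp [bil_one_left]
  | succ k ih =>
    rw [pow_succ, bil_mul_left hX ((Commute.refl g).pow_left k) (hc.pow_left k) hc, ih]
    push_cast; ring

theorem bil_zpow_left (hX : CAT0 X) {g h : G} (hc : Commute g h) (n : ℤ) :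
    bil X (g ^ n) h = n * bil X g h := by
  rcases Int.eq_nat_or_neg n with ⟨k, rfl | rfl⟩
  · simp [bil_pow_left hX hc]
  · rw [zpow_neg, zpow_natCast, bil_inv_left hX (hc.pow_left k), bil_pow_left hX hc]
    push_cast; ring

theorem bil_pow_right (hX : CAT0 X) {g h : G} (hc : Commute g h) (n : ℕ) :
    bil X g (h ^ n) = n * bil X g h := by
  rw [bil_comm (hc.pow_right n), bil_pow_left hX hc.symm, bil_comm hc.symm]

theorem bil_zpow_right (hX : CAT0 X) {g h : G} (hc : Commute g h) (n : ℤ) :
    bil X g (h ^ n) = n * bil X g h := by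
  rw [bil_comm (hc.zpow_right n), bil_zpow_left hX hc.symm, bil_comm hc.symm]

/-- `tl ^ 2` is a quadratic form on the group generated by two commuting elements. -/
theorem tl_zpow_mul_zpow_sq (hX : CAT0 X) {g h : G} (hc : Commute g h) (a b : ℤ) :
    tl X (g ^ a * h ^ b) ^ 2 =
      a ^ 2 * tl X g ^ 2 + 2 * a * b * bil X g h + b ^ 2 * tl X h ^ 2 := by
  rw [tl_mul_sq, tl_zpow hX, tl_zpow hX, bil_zpow_left hX (hc.zpow_right b),
    bil_zpow_right hX hc, mul_pow, mul_pow, sq_abs, sq_abs]
  ring

end Claimed.Agent.R156.H819
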