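import Claimed.Agent.R156.Cat0Bus819

/-!
# Consequences of a geometric action (helper819)

semisimplicity, positivity of translation lengths, "Tool P" (coarse centraliser cocompactness).
-/

set_option autoImplicit false

namespace Claimed.Agent.R156.H819

open Claims.C0279.ArtinCAT0 Filter Topology

universe u v w

variable {X : Type u} [MetricSpace X] {G : Type v} [Group G] [MulAction G X]

theorem isIsometricSMul_of_geometric (hG : GeometricAction G X) : IsIsometricSMul G X :=
  ⟨hG.2.1⟩

variable [ProperSpace X] [Nonempty X]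

/-- Only finitely many group elements move some point of a compact set by at most `R`. -/
theorem finite_displacement (hG : GeometricAction G X) {K : Set X} (hK : IsCompact K) (R : ℝ) :
    {g : G | ∃ k ∈ K, dist k (g • k) ≤ R}.Finite := by
  obtain ⟨y0⟩ := ‹Nonempty X›
  obtain ⟨r, hr⟩ := hK.isBounded.subset_closedBall y0
  have hfin := hG.2.2.1 (Metric.closedBall y0 (r + |R|)) (isCompact_closedBall _ _)
  refine hfin.subset ?_
  rintro g ⟨k, hk, hkR⟩
  have h1 : dist k y0 ≤ r := hr hk
  refine ⟨g • k, ⟨k, ?_, rfl⟩, ?_⟩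
  · rw [Metric.mem_closedBall]; linarith [abs_nonneg R]
  · rw [Metric.mem_closedBall]
    have h2 := dist_triangle (g • k) k y0
    rw [dist_comm (g • k) k] at h2
    linarith [le_abs_self R]

theorem finite_displacement_pt (hG : GeometricAction G X) (y0 : X) (R : ℝ) :
    {g : G | dist y0 (g • y0) ≤ R}.Finite := by
  refine (finite_displacement hG (isCompact_singleton (x := y0)) R).subset ?_
  intro g hg
  exact ⟨y0, rfl, hg⟩

/-- **Tool P**: points moved a bounded amount by all `s i` are uniformly close to the orbit of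
the common centraliser. -/
theorem toolP (hG : GeometricAction G X) {ι : Type w} [Finite ι] (s : ι → G) (R : ℝ) (y0 : X) :
    ∃ D : ℝ, ∀ y : X, (∀ i, dist y (s i • y) ≤ R) →
      ∃ g : G, (∀ i, Commute g (s i)) ∧ dist y (g • y0) ≤ D := by
  have := isIsometricSMul_of_geometric hG
  obtain ⟨K, hK, hcov⟩ := hG.2.2.2
  have hF := finite_displacement hG hK R
  set F : Set G := {g : G | ∃ k ∈ K, dist k (g • k) ≤ R} with hFdef
  have hΘ : {θ : ι → G | ∀ i, θ i ∈ F}.Finite := Set.Finite.pi' (fun _ => hF)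
  let H : (ι → G) → G := fun θ => Classical.epsilon (fun h => ∀ i, h⁻¹ * s i * h = θ i)
  obtain ⟨M, hM⟩ := (hΘ.image (fun θ => dist y0 ((H θ)⁻¹ • y0))).bddAbove
  obtain ⟨r, hr⟩ := hK.isBounded.subset_closedBall y0
  refine ⟨r + M, ?_⟩
  intro y hy
  obtain ⟨h, k, hk, rfl⟩ := hcov y
  set θ : ι → G := fun i => h⁻¹ * s i * h with hθ
  have hθF : θ ∈ {θ : ι → G | ∀ i, θ i ∈ F} := by
    intro i
    refine ⟨k, hk, ?_⟩
    have := hy i
    rw [← dist_smul h⁻¹, inv_smul_smul, ← mul_smul, ← mul_smul] at this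
    exact this
  have hH : ∀ i, (H θ)⁻¹ * s i * H θ = θ i :=
    Classical.epsilon_spec (p := fun h' => ∀ i, h'⁻¹ * s i * h' = θ i) ⟨h, fun _ => rfl⟩
  refine ⟨h * (H θ)⁻¹, ?_, ?_⟩
  · intro i
    have e1 : (H θ)⁻¹ * s i = θ i * (H θ)⁻¹ := by
      rw [← hH i]; group
    show h * (H θ)⁻¹ * s i = s i * (h * (H θ)⁻¹)
    rw [mul_assoc, e1, hθ]
    group
  · rw [mul_smul, dist_smul]
    have h1 : dist k y0 ≤ r := hr hk
    have h2 : dist y0 ((H θ)⁻¹ • y0) ≤ M := hM ⟨θ, hθF, rfl⟩
    have h3 := dist_triangle k y0 ((H θ)⁻¹ • y0)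
    linarith

/-- Every element of a group acting geometrically is semisimple. -/
theorem exists_isMinPt (hG : GeometricAction G X) (g : G) : ∃ x : X, IsMinPt g x := by
  have := isIsometricSMul_of_geometric hG
  obtain ⟨K, hK, hcov⟩ := hG.2.2.2
  set R := tl X g + 1 with hR
  have hF := finite_displacement hG hK R
  set F' : Set G := {c : G | (∃ k ∈ K, dist k (c • k) ≤ R) ∧ ∃ h : G, c = h⁻¹ * g * h} with hF'
  have hF'fin : F'.Finite := hF.subset (fun c hc => hc.1)
  set V : Set ℝ := ⋃ c ∈ F', (fun k => dist k (c • k)) '' K with hV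
  have hVc : IsCompact V :=
    hF'fin.isCompact_biUnion
      (fun c _ => hK.image (continuous_id.dist ((isometry_smul X c).continuous)))
  -- every small displacement value lies in `V`
  have hmem : ∀ y : X, dist y (g • y) ≤ R → dist y (g • y) ∈ V := by
    intro y hy
    obtain ⟨h, k, hk, rfl⟩ := hcov y
    have e : dist (h • k) (g • h • k) = dist k ((h⁻¹ * g * h) • k) := by
      rw [← dist_smul h⁻¹, inv_smul_smul, ← mul_smul, ← mul_smul]
    rw [e] at hy ⊢
    exact Set.mem_biUnion (⟨⟨k, hk, hy⟩, h, rfl⟩ : h⁻¹ * g * h ∈ F') ⟨k, hk, rfl⟩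
  have hex : ∃ y : X, dist y (g • y) < R := by
    have : tl X g < R := by rw [hR]; linarith
    exact exists_lt_of_ciInf_lt this
  obtain ⟨y1, hy1⟩ := hex
  obtain ⟨m, hmV, hmin⟩ := hVc.exists_isLeast ⟨_, hmem y1 hy1.le⟩
  obtain ⟨c, hc, k, hk, rfl⟩ := Set.mem_iUnion₂.1 hmV
  obtain ⟨h, rfl⟩ := hc.2
  refine ⟨h • k, ?_⟩
  have e : dist (h • k) (g • h • k) = dist k ((h⁻¹ * g * h) • k) := by
    rw [← dist_smul h⁻¹, inv_smul_smul, ← mul_smul, ← mul_smul]
  unfold IsMinPt
  refine le_antisymm ?_ (tl_le _ _)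
  rw [e]
  refine le_tl (fun y => ?_)
  by_cases hy : dist y (g • y) ≤ R
  · exact hmin (hmem y hy)
  · rw [not_le] at hy
    exact (hmin (hmem y1 hy1.le)).trans (hy1.le.trans hy.le)

/-- An element of infinite order has positive translation length. -/
theorem tl_pos_of_not_isOfFinOrder (hG : GeometricAction G X) {g : G} (hg : ¬ IsOfFinOrder g) :
    0 < tl X g := by
  have := isIsometricSMul_of_geometric hG
  refine lt_of_le_of_ne (tl_nonneg g) (fun h0 => hg ?_)
  obtain ⟨x, hx⟩ := exists_isMinPt hG g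
  have hfix : g • x = x := by
    unfold IsMinPt at hx
    rw [← h0] at hx
    exact (dist_eq_zero.1 hx).symm
  have hpow : ∀ n : ℕ, g ^ n • x = x := by
    intro n
    induction n with
    | zero => simp
    | succ k ih => rw [pow_succ, mul_smul, hfix, ih]
  rw [← finite_powers]
  refine (finite_displacement_pt hG x 0).subset ?_
  rintro _ ⟨n, rfl⟩
  show dist x (g ^ n • x) ≤ 0
  rw [hpow n, dist_self]

/-- Orbits of powers grow linearly with slope the translation length, with a uniform error. -/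
theorem exists_abs_dist_pow_sub_le (hG : GeometricAction G X) (g : G) (y : X) :
    ∃ C : ℝ, ∀ n : ℕ, |dist y (g ^ n • y) - n * tl X g| ≤ C := by
  have := isIsometricSMul_of_geometric hG
  obtain ⟨x, hx⟩ := exists_isMinPt hG g
  refine ⟨2 * dist x y, fun n => ?_⟩
  have h1 := dist_smul_smul_le (g ^ n) x y
  have h2 := dist_smul_smul_le (g ^ n) y x
  rw [hx.dist_pow hG.1] at h1 h2
  rw [dist_comm y x] at h2
  rw [abs_le]
  constructor <;> linarith

/-- additivity of `bil X g ·` on the centraliser, for geometric actions -/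
theorem bil_mul_right_of_geometric (hG : GeometricAction G X) {g h k : G}
    (hh : Commute g h) (hk : Commute g k) : bil X g (h * k) = bil X g h + bil X g k := by
  have := isIsometricSMul_of_geometric hG
  obtain ⟨x, hx⟩ := exists_isMinPt hG g
  exact bil_mul_right_of_minPt hG.1 hx hh hk

end Claimed.Agent.R156.H819
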