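import Claimed.Agent.R156.Cat0Basic819

/-!
# Translation lengths in CAT(0) spaces (helper819)
-/

set_option autoImplicit false

namespace Claimed.Agent.R156.H819

open Claims.C0279.ArtinCAT0 Filter Topology

universe u v

/-- translation length = infimum of the displacement function -/
noncomputable def tl (X : Type u) [MetricSpace X] {G : Type v} [Group G] [MulAction G X]
    (g : G) : ℝ := ⨅ x : X, dist x (g • x)

variable {X : Type u} [MetricSpace X] {G : Type v} [Group G] [MulAction G X]

theorem tl_nonneg (g : G) : 0 ≤ tl X g := Real.iInf_nonneg (fun _ => dist_nonneg)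

theorem tl_le (g : G) (x : X) : tl X g ≤ dist x (g • x) :=
  ciInf_le ⟨0, by rintro _ ⟨y, rfl⟩; exact dist_nonneg⟩ x

theorem le_tl [Nonempty X] {g : G} {c : ℝ} (h : ∀ x : X, c ≤ dist x (g • x)) : c ≤ tl X g :=
  le_ciInf h

theorem tl_one [Nonempty X] : tl X (1 : G) = 0 := by
  obtain ⟨x⟩ := ‹Nonempty X›
  refine le_antisymm ?_ (tl_nonneg _)
  simpa using tl_le (1 : G) x

variable [IsIsometricSMul G X]

theorem dist_smul_inv (g : G) (x : X) : dist x (g⁻¹ • x) = dist x (g • x) := by
  have := dist_smul g x (g⁻¹ • x)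
  rw [smul_inv_smul] at this
  rw [← this, dist_comm]

theorem tl_inv (g : G) : tl X g⁻¹ = tl X g := by
  unfold tl
  congr 1
  funext x
  exact dist_smul_inv g x

theorem tl_conj_le [Nonempty X] (g h : G) : tl X (h * g * h⁻¹) ≤ tl X g := by
  refine le_tl (fun x => ?_)
  have := tl_le (X := X) (h * g * h⁻¹) (h • x)
  rwa [mul_smul, inv_smul_smul, mul_smul, dist_smul] at this

theorem tl_conj [Nonempty X] (g h : G) : tl X (h * g * h⁻¹) = tl X g := by
  refine le_antisymm (tl_conj_le g h) ?_
  have := tl_conj_le (X := X) (h * g * h⁻¹) h⁻¹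
  simpa [mul_assoc] using this

theorem dist_pow_add_le (g : G) (x : X) (m n : ℕ) :
    dist x (g ^ (m + n) • x) ≤ dist x (g ^ m • x) + dist x (g ^ n • x) := by
  calc dist x (g ^ (m + n) • x) ≤ dist x (g ^ m • x) + dist (g ^ m • x) (g ^ (m + n) • x) :=
        dist_triangle _ _ _
    _ = _ := by rw [pow_add, mul_smul, dist_smul]

theorem dist_pow_le (g : G) (x : X) (n : ℕ) :
    dist x (g ^ n • x) ≤ n * dist x (g • x) := by
  induction n with
  | zero => simp
  | succ k ih =>
    have := dist_pow_add_le g x k 1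
    rw [pow_one] at this
    push_cast
    linarith

theorem dist_smul_smul_le (g : G) (x y : X) :
    dist x (g • x) ≤ dist y (g • y) + 2 * dist x y := by
  calc dist x (g • x) ≤ dist x y + dist y (g • y) + dist (g • y) (g • x) :=
        dist_triangle4 _ _ _ _
    _ = _ := by rw [dist_smul, dist_comm y x]; ring

theorem two_mul_tl_le (hX : CAT0 X) (g : G) (x : X) : 2 * tl X g ≤ dist x (g ^ 2 • x) := by
  have h1 := tl_le g (mid hX x (g • x))
  have h2 : g • mid hX x (g • x) = mid hX (g • x) (g ^ 2 • x) := by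
    have := map_mid hX (isometry_smul X g) x (g • x)
    rw [pow_two, mul_smul]
    exact this
  rw [h2, mid_comm hX x (g • x)] at h1
  have h3 := dist_mid_mid_le hX (g • x) x (g ^ 2 • x)
  linarith

theorem tl_sq [Nonempty X] (hX : CAT0 X) (g : G) : tl X (g ^ 2) = 2 * tl X g := by
  refine le_antisymm ?_ (le_tl (two_mul_tl_le hX g))
  have : ∀ x : X, tl X (g ^ 2) / 2 ≤ dist x (g • x) := by
    intro x
    have h1 := tl_le (g ^ 2) x
    have h2 := dist_pow_le g x 2
    push_cast at h2
    linarith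
  have := le_tl this
  linarith

theorem tl_two_pow [Nonempty X] (hX : CAT0 X) (g : G) (k : ℕ) :
    tl X (g ^ (2 ^ k)) = 2 ^ k * tl X g := by
  induction k with
  | zero => simp
  | succ k ih => rw [pow_succ, pow_mul, tl_sq hX, ih]; ring

theorem subadditive_dist_pow (g : G) (x : X) : Subadditive (fun n : ℕ => dist x (g ^ n • x)) :=
  fun m n => dist_pow_add_le g x m n

/-- The translation length is the asymptotic translation length. -/
theorem tendsto_dist_pow_div [Nonempty X] (hX : CAT0 X) (g : G) (x : X) :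
    Tendsto (fun n : ℕ => dist x (g ^ n • x) / n) atTop (𝓝 (tl X g)) := by
  have hsub := subadditive_dist_pow g x
  have hbdd : BddBelow (Set.range fun n : ℕ => dist x (g ^ n • x) / n) :=
    ⟨0, by rintro _ ⟨n, rfl⟩; positivity⟩
  have hlim := hsub.tendsto_lim hbdd
  suffices h : hsub.lim = tl X g by rwa [h] at hlim
  apply le_antisymm
  · refine le_tl (fun y => ?_)
    have h1 : Tendsto (fun n : ℕ => dist y (g • y) + 2 * dist x y / n) atTop
        (𝓝 (dist y (g • y) + 0)) :=
      tendsto_const_nhds.add (tendsto_const_div_atTop_nhds_zero_nat _)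
    rw [add_zero] at h1
    refine le_of_tendsto_of_tendsto hlim h1 ?_
    filter_upwards [eventually_gt_atTop 0] with n hn
    have hn' : (0 : ℝ) < n := by exact_mod_cast hn
    have h2 := dist_smul_smul_le (g ^ n) x y
    have h3 := dist_pow_le g y n
    rw [div_le_iff₀ hn']
    have : (dist y (g • y) + 2 * dist x y / n) * n = n * dist y (g • y) + 2 * dist x y := by
      field_simp
    rw [this]
    linarith
  · have h2 : Tendsto (fun k : ℕ => 2 ^ k) atTop atTop :=
      tendsto_pow_atTop_atTop_of_one_lt (by norm_num)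
    have h3 := hlim.comp h2
    refine ge_of_tendsto' h3 (fun k => ?_)
    simp only [Function.comp]
    have h4 := tl_le (g ^ (2 ^ k)) x
    rw [tl_two_pow hX] at h4
    rw [le_div_iff₀ (by positivity)]
    push_cast
    linarith

theorem tl_pow [Nonempty X] (hX : CAT0 X) (g : G) (n : ℕ) : tl X (g ^ n) = n * tl X g := by
  obtain ⟨x⟩ := ‹Nonempty X›
  have : Nonempty X := ⟨x⟩
  rcases Nat.eq_zero_or_pos n with rfl | hn
  · simp [tl_one]
  have h1 := tendsto_dist_pow_div hX (g ^ n) x
  have h2 : Tendsto (fun k : ℕ => n * k) atTop atTop :=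
    tendsto_id.const_mul_atTop' hn
  have h3 := ((tendsto_dist_pow_div hX g x).comp h2).const_mul (n : ℝ)
  refine tendsto_nhds_unique h1 (h3.congr' ?_)
  filter_upwards [eventually_gt_atTop 0] with k hk
  have hk' : (0 : ℝ) < k := by exact_mod_cast hk
  have hn' : (0 : ℝ) < n := by exact_mod_cast hn
  simp only [Function.comp]
  rw [← pow_mul]
  push_cast
  field_simp

theorem tl_zpow [Nonempty X] (hX : CAT0 X) (g : G) (n : ℤ) : tl X (g ^ n) = |(n : ℝ)| * tl X g := by
  rcases Int.eq_nat_or_neg n with ⟨k, rfl | rfl⟩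
  · simp [tl_pow hX]
  · simp [tl_pow hX, tl_inv]


/-! ### The parallelogram law for commuting elements -/

theorem tl_parallelogram_le [Nonempty X] (hX : CAT0 X) {g h : G} (hc : Commute g h) :
    tl X (g * h) ^ 2 + tl X (g⁻¹ * h) ^ 2 ≤ 2 * tl X g ^ 2 + 2 * tl X h ^ 2 := by
  obtain ⟨x⟩ := ‹Nonempty X›
  have : Nonempty X := ⟨x⟩
  have l1 := tendsto_dist_pow_div hX (g * h) x
  have l2 := tendsto_dist_pow_div hX (g⁻¹ * h) x
  have l3 := tendsto_dist_pow_div hX g x
  have l4 := tendsto_dist_pow_div hX h x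
  have L := (l1.pow 2).add (l2.pow 2)
  have R := ((l3.pow 2).const_mul 2).add ((l4.pow 2).const_mul 2)
  refine le_of_tendsto_of_tendsto' L R (fun n => ?_)
  have q := quad_ineq hX x (g ^ n • x) ((g ^ n * h ^ n) • x) (h ^ n • x)
  have e1 : (g * h) ^ n = g ^ n * h ^ n := hc.mul_pow n
  have e2 : dist (g ^ n • x) (h ^ n • x) = dist x ((g⁻¹ * h) ^ n • x) := by
    rw [(hc.inv_left).mul_pow n, mul_smul, inv_pow, ← dist_smul (g ^ n) x, smul_inv_smul]
  have e3 : dist (g ^ n • x) ((g ^ n * h ^ n) • x) = dist x (h ^ n • x) := by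
    rw [mul_smul, dist_smul]
  have e4 : dist ((g ^ n * h ^ n) • x) (h ^ n • x) = dist x (g ^ n • x) := by
    rw [(hc.pow_pow n n).eq, mul_smul, dist_smul, dist_comm]
  rw [e2, e3, e4, ← e1, dist_comm (h ^ n • x) x] at q
  simp only [div_pow]
  rw [← add_div, ← mul_div_assoc, ← mul_div_assoc, ← add_div]
  refine div_le_div_of_nonneg_right ?_ (by positivity)
  linarith

/-- The parallelogram law for translation lengths of commuting isometries. -/
theorem tl_parallelogram [Nonempty X] (hX : CAT0 X) {g h : G} (hc : Commute g h) :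
    tl X (g * h) ^ 2 + tl X (g⁻¹ * h) ^ 2 = 2 * tl X g ^ 2 + 2 * tl X h ^ 2 := by
  refine le_antisymm (tl_parallelogram_le hX hc) ?_
  have hc' : Commute (g * h) (g⁻¹ * h) :=
    (((Commute.refl g).inv_right).mul_left (hc.symm.inv_right)).mul_right
      (hc.mul_left (Commute.refl h))
  have := tl_parallelogram_le hX hc'
  have e1 : g * h * (g⁻¹ * h) = h ^ 2 := by
    rw [hc.eq, mul_assoc, mul_inv_cancel_left, pow_two]
  have e2 : (g * h)⁻¹ * (g⁻¹ * h) = (g ^ 2)⁻¹ := by
    rw [hc.eq, mul_inv_rev, mul_assoc, ← mul_assoc h⁻¹, (hc.symm.inv_inv).eq, mul_assoc,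
      inv_mul_cancel, mul_one, pow_two, mul_inv_rev]
  rw [e1, e2, tl_inv, tl_sq hX, tl_sq hX] at this
  nlinarith [this]

end Claimed.Agent.R156.H819
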