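import Claimed.Agent.R156.Defs

/-! Row 156 / S0327: three lemmas on free groups (reduced words). -/

set_option autoImplicit false
set_option linter.unusedSectionVars false

namespace Claimed.Agent.R156

variable {α : Type*} [DecidableEq α]

namespace FreeAux

/-- left multiplication by one letter: last letter and length. -/
theorem letter_mul (a : α × Bool) (h : FreeGroup α) (hh : 2 ≤ h.toWord.length) :
    (FreeGroup.mk [a] * h).toWord.getLast? = h.toWord.getLast? ∧
      h.toWord.length ≤ (FreeGroup.mk [a] * h).toWord.length + 1 := by
  have e : (FreeGroup.mk [a] * h).toWord = FreeGroup.reduce (a :: h.toWord) := by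
    conv_lhs => rw [← FreeGroup.mk_toWord (x := h)]
    rw [FreeGroup.mul_mk, FreeGroup.toWord_mk]
    rfl
  rw [e, FreeGroup.reduce.cons, FreeGroup.reduce_toWord]
  rcases hw : h.toWord with _ | ⟨b, _ | ⟨c, t⟩⟩
  · rw [hw] at hh; simp at hh
  · rw [hw] at hh; simp at hh
  · dsimp only
    split_ifs
    · constructor
      · simp [List.getLast?_cons_cons]
      · simp
    · constructor
      · simp [List.getLast?_cons_cons]
      · simp

theorem word_mul (l : List (α × Bool)) (g : FreeGroup α) (hl : l.length < g.toWord.length) :
    (FreeGroup.mk l * g).toWord.getLast? = g.toWord.getLast? ∧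
      g.toWord.length ≤ (FreeGroup.mk l * g).toWord.length + l.length := by
  induction l with
  | nil =>
    have : (FreeGroup.mk ([] : List (α × Bool))) = 1 := rfl
    simp [this]
  | cons a l ih =>
    have hl' : l.length + 1 < g.toWord.length := by simpa using hl
    obtain ⟨h1, h2⟩ := ih (by omega)
    have e : FreeGroup.mk (a :: l) * g = FreeGroup.mk [a] * (FreeGroup.mk l * g) := by
      rw [← mul_assoc, FreeGroup.mul_mk]; rfl
    obtain ⟨h3, h4⟩ := letter_mul a (FreeGroup.mk l * g) (by omega)
    rw [e]
    refine ⟨h3.trans h1, ?_⟩
    simp only [List.length_cons]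
    omega

theorem last_mul (s g : FreeGroup α) (h : s.toWord.length < g.toWord.length) :
    (s * g).toWord.getLast? = g.toWord.getLast? := by
  have := (word_mul s.toWord g h).1
  rwa [FreeGroup.mk_toWord] at this

theorem head_invRev (w : List (α × Bool)) :
    (FreeGroup.invRev w).getLast? = w.head?.map (fun p => (p.1, !p.2)) := by
  simp [FreeGroup.invRev, List.getLast?_reverse]

theorem flip_inj : Function.Injective (fun p : α × Bool => (p.1, !p.2)) := by
  rintro ⟨a, b⟩ ⟨c, d⟩ h
  simp only [Prod.mk.injEq] at h
  obtain ⟨h1, h2⟩ := h
  have : b = d := by simpa using h2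
  rw [h1, this]

theorem pos_reduce (l : List α) :
    FreeGroup.reduce (l.map fun a => (a, true)) = l.map fun a => (a, true) := by
  induction l with
  | nil => rfl
  | cons a l ih =>
    rw [List.map_cons, FreeGroup.reduce.cons, ih]
    cases l with
    | nil => rfl
    | cons b l => simp

theorem pos_prod (l : List α) :
    (l.map FreeGroup.of).prod = FreeGroup.mk (l.map fun a => (a, true)) := by
  induction l with
  | nil => rfl
  | cons a l ih =>
    rw [List.map_cons, List.prod_cons, ih, FreeGroup.of, FreeGroup.mul_mk]
    rfl

theorem pos_toWord (l : List α) :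
    ((l.map FreeGroup.of).prod).toWord = l.map fun a => (a, true) := by
  rw [pos_prod, FreeGroup.toWord_mk, pos_reduce]

theorem pos_pow (l : List α) (n : ℕ) :
    ∃ m : List α, ((l.map FreeGroup.of).prod) ^ n = (m.map FreeGroup.of).prod := by
  induction n with
  | zero => exact ⟨[], by simp⟩
  | succ n ih =>
    obtain ⟨m, hm⟩ := ih
    exact ⟨m ++ l, by rw [pow_succ, hm, List.map_append, List.prod_append]⟩

end FreeAux

/-- right multiplication by a shorter element keeps the first letter. -/
theorem free_head_mul (g s : FreeGroup α) (h : s.toWord.length < g.toWord.length) :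
    (g * s).toWord.head? = g.toWord.head? := by
  have h1 : (s⁻¹ * g⁻¹).toWord.getLast? = (g⁻¹).toWord.getLast? := by
    apply FreeAux.last_mul
    rw [FreeGroup.toWord_inv, FreeGroup.toWord_inv, FreeGroup.invRev_length,
      FreeGroup.invRev_length]
    exact h
  rw [← mul_inv_rev, FreeGroup.toWord_inv, FreeGroup.toWord_inv, FreeAux.head_invRev,
    FreeAux.head_invRev] at h1
  exact Option.map_injective FreeAux.flip_inj h1

/-- The centraliser of a free generator is cyclic. -/
theorem free_commute_of (x : α) (g : FreeGroup α) (h : Commute (FreeGroup.of x) g) :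
    g ∈ Subgroup.zpowers (FreeGroup.of x) := by
  induction hn : g.toWord.length using Nat.strong_induction_on generalizing g with
  | _ n ih =>
    rcases hw : g.toWord with _ | ⟨b, t⟩
    · rw [FreeGroup.toWord_eq_nil_iff] at hw
      rw [hw]; exact one_mem _
    · have hred : FreeGroup.IsReduced (b :: t) := hw ▸ FreeGroup.isReduced_toWord
      have htred : FreeGroup.IsReduced t := hred.infix ⟨[b], [], by simp⟩
      have hg : g = FreeGroup.mk [b] * FreeGroup.mk t := by
        rw [FreeGroup.mul_mk, ← FreeGroup.mk_toWord (x := g), hw]; rfl
      have htw : (FreeGroup.mk t).toWord = t := by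
        rw [FreeGroup.toWord_mk, htred.reduce_eq]
      by_cases hb : b.1 = x
      · -- first letter is a power of x: strip it
        have hbz : FreeGroup.mk [b] ∈ Subgroup.zpowers (FreeGroup.of x) := by
          obtain ⟨b1, b2⟩ := b
          simp only at hb
          subst hb
          cases b2
          · have : FreeGroup.mk [(b1, false)] = (FreeGroup.of b1)⁻¹ := by
              rw [FreeGroup.of, FreeGroup.inv_mk]; rfl
            rw [this]
            exact inv_mem (Subgroup.mem_zpowers _)
          · exact Subgroup.mem_zpowers _
        have hbc : Commute (FreeGroup.of x) (FreeGroup.mk [b]) := by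
          obtain ⟨k, hk⟩ := Subgroup.mem_zpowers_iff.1 hbz
          rw [← hk]
          exact (Commute.refl _).zpow_right k
        have htc : Commute (FreeGroup.of x) (FreeGroup.mk t) := by
          have : FreeGroup.mk t = (FreeGroup.mk [b])⁻¹ * g := by rw [hg]; group
          rw [this]
          exact hbc.inv_right.mul_right h
        have := ih t.length (by rw [← hn, hw]; simp) (FreeGroup.mk t) htc (by rw [htw])
        rw [hg]
        exact mul_mem hbz this
      · -- otherwise x * g starts with x while g * x starts with b
        exfalso
        have h1 : (FreeGroup.of x * g).toWord = (x, true) :: b :: t := by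
          rw [FreeGroup.toWord_mul, FreeGroup.toWord_of, hw]
          apply FreeGroup.IsReduced.reduce_eq
          show FreeGroup.IsReduced ((x, true) :: b :: t)
          rw [FreeGroup.isReduced_cons_cons]
          exact ⟨fun hx => absurd hx.symm hb, hred⟩
        rcases t with _ | ⟨c, t⟩
        · have h2 : (g * FreeGroup.of x).toWord = [b, (x, true)] := by
            rw [FreeGroup.toWord_mul, FreeGroup.toWord_of, hw]
            apply FreeGroup.IsReduced.reduce_eq
            show FreeGroup.IsReduced (b :: (x, true) :: [])
            rw [FreeGroup.isReduced_cons_cons]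
            exact ⟨fun hx => absurd hx hb, FreeGroup.IsReduced.singleton⟩
          rw [h.eq, h2] at h1
          simp only [List.cons.injEq, and_true] at h1
          exact hb (by rw [h1.1])
        · have h2 := free_head_mul g (FreeGroup.of x) (by rw [FreeGroup.toWord_of, hw]; simp)
          rw [← h.eq, h1, hw] at h2
          simp only [List.head?_cons, Option.some.injEq] at h2
          exact hb (by rw [← h2])

theorem free_ball_finite [Finite α] (L : ℕ) : {g : FreeGroup α | g.toWord.length ≤ L}.Finite := by
  have hf : {l : List (α × Bool) | l.length ≤ L}.Finite := List.finite_length_le _ L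
  exact (hf.preimage (FreeGroup.toWord_injective.injOn)).subset (fun g hg => hg)

/-- Branch lemma: a coarse path between two words with different first letters meets a
finite set depending only on the step set. -/
theorem free_branch [Finite α] (Sg : Set (FreeGroup α)) (hSg : Sg.Finite) :
    ∃ Φ : Set (FreeGroup α), Φ.Finite ∧ ∀ (N : ℕ) (p : ℕ → FreeGroup α),
      (∀ j < N, (p j)⁻¹ * p (j + 1) ∈ Sg) → (p 0).toWord.head? ≠ (p N).toWord.head? →
      ∃ j ≤ N, p j ∈ Φ := by
  obtain ⟨L, hL⟩ : ∃ L : ℕ, ∀ s ∈ Sg, s.toWord.length ≤ L := by
    obtain ⟨L, hL⟩ := (hSg.image (fun s => s.toWord.length)).bddAbove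
    exact ⟨L, fun s hs => hL ⟨s, hs, rfl⟩⟩
  refine ⟨{g | g.toWord.length ≤ L}, free_ball_finite L, ?_⟩
  intro N p hstep hne
  by_contra hcon
  push Not at hcon
  apply hne
  have key : ∀ j ≤ N, (p 0).toWord.head? = (p j).toWord.head? := by
    intro j
    induction j with
    | zero => intro _; rfl
    | succ j ih =>
      intro hj
      rw [ih (by omega)]
      have h1 : p (j + 1) = p j * ((p j)⁻¹ * p (j + 1)) := by group
      rw [h1]
      symm
      apply free_head_mul
      have h2 := hL _ (hstep j (by omega))
      have h3 : ¬ (p j).toWord.length ≤ L := hcon j (by omega)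
      omega
  exact key N le_rfl

/-- positive words are reduced: first letter of a power of a positive word. -/
theorem free_head_pow_pos (x : α) (l : List α) (n : ℕ) :
    ((((x :: l).map FreeGroup.of).prod) ^ (n + 1)).toWord.head? = some (x, true) := by
  obtain ⟨m, hm⟩ := FreeAux.pos_pow (x :: l) n
  rw [pow_succ', hm, ← List.prod_append, ← List.map_append, FreeAux.pos_toWord]
  rfl

end Claimed.Agent.R156
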