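import Claimed.Agent.R156.Defs

/-! Row 156 / S0327: transport of bottlenecks along injective homomorphisms. -/

set_option autoImplicit false

namespace Claimed.Agent.R156

variable {Γ Γ' : Type*} [Group Γ] [Group Γ']

/-- push forward: `H'` is contained in the image of `H`. -/
theorem Bottleneck.map (ι : Γ →* Γ') (hι : Function.Injective ι) {H : Subgroup Γ}
    {H' : Subgroup Γ'} (hH : ∀ g' ∈ H', ∃ g ∈ H, ι g = g') {u v w : Γ}
    (hB : Bottleneck H u v w) : Bottleneck H' (ι u) (ι v) (ι w) := by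
  classical
  intro Sg' hSg'
  obtain ⟨Φ, hΦ, hP⟩ := hB (ι ⁻¹' Sg') (hSg'.preimage hι.injOn)
  refine ⟨ι '' Φ, hΦ.image _, ?_⟩
  intro n N p' h0 hN hmem hstep
  have hex : ∀ j, ∃ g : Γ, j ≤ N → (g ∈ H ∧ ι g = p' j) := by
    intro j
    by_cases hj : j ≤ N
    · obtain ⟨g, hg, hg'⟩ := hH _ (hmem j hj)
      exact ⟨g, fun _ => ⟨hg, hg'⟩⟩
    · exact ⟨1, fun h => absurd h hj⟩
  choose p hp using hex
  have h0' : p 0 = u ^ n := by
    apply hι
    rw [(hp 0 (Nat.zero_le _)).2, h0, map_pow]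
  have hN' : p N = v ^ n := by
    apply hι
    rw [(hp N le_rfl).2, hN, map_pow]
  obtain ⟨j, hj, k, φ, hφ, hjk⟩ := hP n N p h0' hN' (fun j hj => (hp j hj).1) (by
    intro j hj
    show ι ((p j)⁻¹ * p (j + 1)) ∈ Sg'
    rw [map_mul, map_inv, (hp j hj.le).2, (hp (j + 1) hj).2]
    exact hstep j hj)
  refine ⟨j, hj, k, ι φ, ⟨φ, hφ, rfl⟩, ?_⟩
  rw [← (hp j hj).2, hjk, map_mul, map_zpow]

/-- pull back: `ι` maps `H` into `H'`. -/
theorem Bottleneck.comap (ι : Γ →* Γ') (hι : Function.Injective ι) {H : Subgroup Γ}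
    {H' : Subgroup Γ'} (hH : ∀ g ∈ H, ι g ∈ H') {u v w : Γ}
    (hB : Bottleneck H' (ι u) (ι v) (ι w)) : Bottleneck H u v w := by
  intro Sg hSg
  obtain ⟨Φ', hΦ', hP⟩ := hB (ι '' Sg) (hSg.image _)
  refine ⟨ι ⁻¹' Φ', hΦ'.preimage hι.injOn, ?_⟩
  intro n N p h0 hN hmem hstep
  obtain ⟨j, hj, k, φ', hφ', hjk⟩ := hP n N (fun j => ι (p j))
    (by simp only [h0, map_pow]) (by simp only [hN, map_pow])
    (fun j hj => hH _ (hmem j hj)) (by
      intro j hj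
      refine ⟨(p j)⁻¹ * p (j + 1), hstep j hj, ?_⟩
      simp only [map_mul, map_inv])
  refine ⟨j, hj, k, (w ^ k)⁻¹ * p j, ?_, by group⟩
  show ι ((w ^ k)⁻¹ * p j) ∈ Φ'
  have : ι ((w ^ k)⁻¹ * p j) = φ' := by
    have hjk' : ι (p j) = ι w ^ k * φ' := hjk
    rw [map_mul, map_inv, map_zpow, hjk']; group
  rw [this]; exact hφ'

/-- pull back along a homomorphism which is only injective on `H`. -/
theorem Bottleneck.comap_injOn (ι : Γ →* Γ') {H : Subgroup Γ} {H' : Subgroup Γ'}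
    (hι : ∀ g ∈ H, ι g = 1 → g = 1) (hH : ∀ g ∈ H, ι g ∈ H') {u v w : Γ} (hw : w ∈ H)
    (hB : Bottleneck H' (ι u) (ι v) (ι w)) : Bottleneck H u v w := by
  intro Sg hSg
  obtain ⟨Φ', hΦ', hP⟩ := hB (ι '' Sg) (hSg.image _)
  have hinj : Set.InjOn ι (H : Set Γ) := by
    intro a ha b hb hab
    have h1 : a⁻¹ * b = 1 := by
      apply hι _ (H.mul_mem (H.inv_mem ha) hb)
      rw [map_mul, map_inv, hab]; group
    have : b = a := by
      calc b = a * (a⁻¹ * b) := by group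
        _ = a := by rw [h1, mul_one]
    exact this.symm
  refine ⟨(H : Set Γ) ∩ ι ⁻¹' Φ', ?_, ?_⟩
  · apply Set.Finite.of_finite_image (f := ι)
    · apply hΦ'.subset
      rintro _ ⟨x, hx, rfl⟩
      exact hx.2
    · exact hinj.mono (fun x hx => hx.1)
  intro n N p h0 hN hmem hstep
  obtain ⟨j, hj, k, φ', hφ', hjk⟩ := hP n N (fun j => ι (p j))
    (by simp only [h0, map_pow]) (by simp only [hN, map_pow])
    (fun j hj => hH _ (hmem j hj)) (by
      intro j hj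
      refine ⟨(p j)⁻¹ * p (j + 1), hstep j hj, ?_⟩
      simp only [map_mul, map_inv])
  refine ⟨j, hj, k, (w ^ k)⁻¹ * p j, ⟨?_, ?_⟩, by group⟩
  · exact H.mul_mem (H.inv_mem (H.zpow_mem hw k)) (hmem j hj)
  show ι ((w ^ k)⁻¹ * p j) ∈ Φ'
  have : ι ((w ^ k)⁻¹ * p j) = φ' := by
    have hjk' : ι (p j) = ι w ^ k * φ' := hjk
    rw [map_mul, map_inv, map_zpow, hjk']; group
  rw [this]; exact hφ'

theorem Bottleneck.mono {H H' : Subgroup Γ} (h : H' ≤ H) {u v w : Γ}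
    (hB : Bottleneck H u v w) : Bottleneck H' u v w := by
  intro Sg hSg
  obtain ⟨Φ, hΦ, hP⟩ := hB Sg hSg
  exact ⟨Φ, hΦ, fun n N p h0 hN hmem hstep =>
    hP n N p h0 hN (fun j hj => h (hmem j hj)) hstep⟩

end Claimed.Agent.R156
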