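import Claimed.Agent.R156.ModelInj
import Claimed.Agent.R156.B3Bottleneck
import Claimed.Agent.R156.FreeLemmas
import Claimed.Agent.R156.Transport

/-! Row 156 / S0327: first bottleneck in `TG` (centraliser of `z 0`). -/

set_option autoImplicit false

namespace Claimed.Agent.R156

/-- auxiliary endomorphism `u0 ↦ u0 u2⁻¹ u1⁻¹`. -/
def thetaC3 : F3 →* F3 := FreeGroup.lift ![uF 0 * (uF 2)⁻¹ * (uF 1)⁻¹, uF 1, uF 2]

/-- its inverse `u0 ↦ u0 u1 u2`. -/
def thetaC3Inv : F3 →* F3 := FreeGroup.lift ![uF 0 * uF 1 * uF 2, uF 1, uF 2]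

theorem thetaC3Inv_thetaC3 (f : F3) : thetaC3Inv (thetaC3 f) = f := by
  have : thetaC3Inv.comp thetaC3 = MonoidHom.id F3 := by
    apply F3_hom_ext
    intro i
    fin_cases i <;> simp [thetaC3, thetaC3Inv, uF, mul_assoc]
  exact DFunLike.congr_fun this f

theorem thetaC3_c3 : thetaC3 c3 = uF 0 := by
  simp [thetaC3, c3, uF, mul_assoc]

theorem thetaC3Inv_u0 : thetaC3Inv (uF 0) = c3 := by
  simp [thetaC3Inv, c3, uF]

/-- the centraliser of `c3 = u0 u1 u2` in `F3` is cyclic (`c3` is a basis element: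
apply the automorphism `u0 ↦ u0 u2⁻¹ u1⁻¹` and `free_commute_of`). -/
theorem commute_c3 (f : F3) (h : Commute c3 f) : f ∈ Subgroup.zpowers c3 := by
  have h1 : Commute (uF 0) (thetaC3 f) := by
    have := h.map thetaC3
    rwa [thetaC3_c3] at this
  obtain ⟨k, hk⟩ := Subgroup.mem_zpowers_iff.mp (free_commute_of (0 : Fin 3) _ h1)
  refine Subgroup.mem_zpowers_iff.mpr ⟨k, ?_⟩
  have h2 : thetaC3Inv (thetaC3 f) = c3 ^ k := by
    rw [← hk, map_zpow]
    exact congrArg (· ^ k) thetaC3Inv_u0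
  rw [thetaC3Inv_thetaC3] at h2
  exact h2.symm

/-- elements of `TG` commuting with `z 0` have trivial free part. -/
theorem Lam_left_of_commute_z0 (g : TG) (h : Commute (TG.z 0) g) : (Lam g).left = 1 := by
  have h1 : Commute (SemidirectProduct.inr B3.z : MM) (Lam g) := by
    have := h.map Lam
    rwa [Lam_z0] at this
  have h2 : actB B3.z (Lam g).left = (Lam g).left := by
    have := congrArg SemidirectProduct.left h1.eq
    simpa using this
  rw [actB_z] at h2
  have h3 : Commute c3 (Lam g).left := by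
    unfold Commute SemiconjBy
    exact mul_inv_eq_iff_eq_mul.mp h2
  obtain ⟨m, hm⟩ := Subgroup.mem_zpowers_iff.mp (commute_c3 _ h3)
  have hm0 := Lam_left_c3 g m hm.symm
  rw [← hm, hm0, zpow_zero]

/-- projection of `TG` to `B3`. -/
def iotaB : TG →* B3 := (SemidirectProduct.rightHom (φ := actB)).comp Lam

theorem iotaB_x0 : iotaB (TG.x 0) = B3.s 0 := by
  simp [iotaB, xM, aM]

theorem iotaB_x1 : iotaB (TG.x 1) = B3.s 1 := by
  simp [iotaB, xM, bM]

theorem iotaB_z0 : iotaB (TG.z 0) = B3.z := by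
  simp [iotaB, Lam_z0]

theorem iotaB_injOn (g : TG) (hg : g ∈ Subgroup.centralizer {TG.z 0}) (h : iotaB g = 1) :
    g = 1 := by
  have hc : Commute (TG.z 0) g := by
    have := Subgroup.mem_centralizer_iff.mp hg (TG.z 0) (Set.mem_singleton _)
    exact this
  apply Lam_injective
  rw [map_one]
  apply SemidirectProduct.ext
  · simpa using Lam_left_of_commute_z0 g hc
  · simpa [iotaB] using h

theorem TG_bn1_zero :
    Bottleneck (Subgroup.centralizer {TG.z 0}) (TG.x 0) (TG.x 1) (TG.z 0) := by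
  refine Bottleneck.comap_injOn iotaB (H' := ⊤) iotaB_injOn (fun _ _ => Subgroup.mem_top _) ?_ ?_
  · rw [Subgroup.mem_centralizer_iff]
    intro h hh
    rw [Set.mem_singleton_iff] at hh
    rw [hh]
  · rw [iotaB_x0, iotaB_x1, iotaB_z0]
    exact bottleneck_B3

theorem TG_bn1_succ (i : Fin 3)
    (h : Bottleneck (Subgroup.centralizer {TG.z i}) (TG.x i) (TG.x (i + 1)) (TG.z i)) :
    Bottleneck (Subgroup.centralizer {TG.z (i + 1)}) (TG.x (i + 1)) (TG.x (i + 1 + 1))
      (TG.z (i + 1)) := by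
  have := Bottleneck.map TG.rot TG.rot_injective (H' := Subgroup.centralizer {TG.z (i + 1)}) ?_ h
  · simpa using this
  · intro g' hg'
    obtain ⟨g, rfl⟩ := TG.rot_surjective g'
    refine ⟨g, ?_, rfl⟩
    rw [Subgroup.mem_centralizer_iff] at hg' ⊢
    intro y hy
    rw [Set.mem_singleton_iff] at hy
    subst hy
    apply TG.rot_injective
    have := hg' (TG.z (i + 1)) (Set.mem_singleton _)
    simpa using this

theorem TG_bn1 (i : Fin 3) :
    Bottleneck (Subgroup.centralizer {TG.z i}) (TG.x i) (TG.x (i + 1)) (TG.z i) := by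
  have h0 := TG_bn1_zero
  have h1 := TG_bn1_succ 0 h0
  have h2 := TG_bn1_succ (0 + 1) h1
  fin_cases i
  · exact h0
  · exact h1
  · exact h2

theorem TG_infOrder_zero : ¬ IsOfFinOrder (TG.x 0 ^ 6 * (TG.z 0)⁻¹) := by
  intro h
  have := MonoidHom.isOfFinOrder iotaB h
  rw [map_mul, map_pow, map_inv, iotaB_x0, iotaB_z0] at this
  exact s0_6_z_infinite this

theorem TG_infOrder_succ (i : Fin 3) (h : ¬ IsOfFinOrder (TG.x i ^ 6 * (TG.z i)⁻¹)) :
    ¬ IsOfFinOrder (TG.x (i + 1) ^ 6 * (TG.z (i + 1))⁻¹) := by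
  intro h'
  apply h
  have h2 : TG.rot (TG.x i ^ 6 * (TG.z i)⁻¹) = TG.x (i + 1) ^ 6 * (TG.z (i + 1))⁻¹ := by
    simp
  rw [← h2] at h'
  exact (TG.rot_injective.isOfFinOrder_iff).mp h'

theorem TG_infOrder (i : Fin 3) : ¬ IsOfFinOrder (TG.x i ^ 6 * (TG.z i)⁻¹) := by
  have h0 := TG_infOrder_zero
  have h1 := TG_infOrder_succ 0 h0
  have h2 := TG_infOrder_succ (0 + 1) h1
  fin_cases i
  · exact h0
  · exact h1
  · exact h2

end Claimed.Agent.R156
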