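import Claimed.Agent.R156.ModelInj
import Claimed.Agent.R156.B3Kernel
import Claimed.Agent.R156.FreeLemmas
import Claimed.Agent.R156.Transport

/-! Row 156 / S0327: second bottleneck in `TG` (centraliser of `x 0`). -/

set_option autoImplicit false

namespace Claimed.Agent.R156

/-- structure of the centraliser of `aM` in `MM`. -/
theorem commute_aM (g : MM) (h : Commute aM g) :
    act0 g.left = g.left ∧ ∃ i k : ℤ, g.right = B3.s 0 ^ i * B3.z ^ k := by
  have h1 : aM * g = g * aM := h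
  have hl := congrArg SemidirectProduct.left h1
  have hr := congrArg SemidirectProduct.right h1
  simp only [aM, SemidirectProduct.mul_left, SemidirectProduct.mul_right,
    SemidirectProduct.left_inr, SemidirectProduct.right_inr, one_mul, map_one, mul_one,
    actB_s0] at hl hr
  exact ⟨hl, centralizer_s0 g.right hr⟩

/-- `qM (f, s0^i z^k) = f * c3^k`; junk outside the centraliser of `aM`. -/
noncomputable def qM (g : MM) : F3 := by
  classical
  exact if h : ∃ i k : ℤ, g.right = B3.s 0 ^ i * B3.z ^ k then g.left * c3 ^ h.choose_spec.choose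
    else 1

theorem qM_eq (f : F3) (i k : ℤ) : qM ⟨f, B3.s 0 ^ i * B3.z ^ k⟩ = f * c3 ^ k := by
  classical
  have h : ∃ i' k' : ℤ, (⟨f, B3.s 0 ^ i * B3.z ^ k⟩ : MM).right = B3.s 0 ^ i' * B3.z ^ k' :=
    ⟨i, k, rfl⟩
  unfold qM
  rw [dif_pos h]
  have h2 := h.choose_spec.choose_spec
  have h3 := (s0_z_unique _ _ _ _ h2).2
  rw [← h3]

/-- powers of `act0` fix the fixed points of `act0`. -/
theorem modelBN2_act0_zpow_fix (f : F3) (hf : act0 f = f) (i : ℤ) : (act0 ^ i) f = f := by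
  have hmem : act0 ∈ MulAction.stabilizer (MulAut F3) f := by
    rw [MulAction.mem_stabilizer_iff]
    exact hf
  have := Subgroup.zpow_mem _ hmem i
  rw [MulAction.mem_stabilizer_iff] at this
  exact this

/-- multiplicativity on the centraliser. -/
theorem qM_mul (g g' : MM) (h : Commute aM g) (h' : Commute aM g') :
    qM (g * g') = qM g * qM g' := by
  obtain ⟨f, β⟩ := g
  obtain ⟨f', β'⟩ := g'
  obtain ⟨hf, i, k, hβ⟩ := commute_aM _ h
  obtain ⟨hf', i', k', hβ'⟩ := commute_aM _ h'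
  simp only at hf hf' hβ hβ'
  subst hβ hβ'
  have hz : ∀ (m : ℤ) (β : B3), Commute (B3.z ^ m) β := fun m β => (B3.z_central β).zpow_left m
  have e1 : B3.s 0 ^ i * B3.z ^ k * (B3.s 0 ^ i' * B3.z ^ k')
      = B3.s 0 ^ (i + i') * B3.z ^ (k + k') := by
    rw [zpow_add, zpow_add]
    have := (hz k (B3.s 0 ^ i')).eq
    calc B3.s 0 ^ i * B3.z ^ k * (B3.s 0 ^ i' * B3.z ^ k')
        = B3.s 0 ^ i * (B3.z ^ k * B3.s 0 ^ i') * B3.z ^ k' := by simp only [mul_assoc]
      _ = B3.s 0 ^ i * (B3.s 0 ^ i' * B3.z ^ k) * B3.z ^ k' := by rw [this]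
      _ = _ := by simp only [mul_assoc]
  have e2 : actB (B3.s 0 ^ i * B3.z ^ k) f' = c3 ^ k * f' * (c3 ^ k)⁻¹ := by
    rw [map_mul, MulAut.mul_apply, actB_z_zpow, map_zpow, actB_s0]
    apply modelBN2_act0_zpow_fix
    have hc : act0 c3 = c3 := by
      have := actB_c3 (B3.s 0)
      rwa [actB_s0] at this
    rw [map_mul, map_mul, map_inv, map_zpow, hc, hf']
  have e3 : (⟨f, B3.s 0 ^ i * B3.z ^ k⟩ * ⟨f', B3.s 0 ^ i' * B3.z ^ k'⟩ : MM)
      = ⟨f * (c3 ^ k * f' * (c3 ^ k)⁻¹), B3.s 0 ^ (i + i') * B3.z ^ (k + k')⟩ := by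
    rw [SemidirectProduct.mul_def]
    simp only [e1, e2]
  rw [e3, qM_eq, qM_eq, qM_eq, zpow_add]
  group

theorem modelBN2_qM_one : qM 1 = 1 := by
  have : (1 : MM) = ⟨1, B3.s 0 ^ (0 : ℤ) * B3.z ^ (0 : ℤ)⟩ := by
    ext <;> simp
  rw [this, qM_eq]
  simp

theorem modelBN2_qM_inv (g : MM) (h : Commute aM g) : qM g⁻¹ = (qM g)⁻¹ := by
  have := qM_mul g⁻¹ g h.inv_right h
  rw [inv_mul_cancel, modelBN2_qM_one] at this
  exact eq_inv_of_mul_eq_one_left this.symm

theorem modelBN2_Lam_x0 : Lam (TG.x 0) = aM := by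
  rw [Lam_x]
  rfl

theorem modelBN2_commute_Lam (g : TG) (h : Commute (TG.x 0) g) : Commute aM (Lam g) := by
  have := h.map Lam
  rwa [modelBN2_Lam_x0] at this

/-- kernel of `qM` on `Lam TG`. -/
theorem qM_ker (g : TG) (h : Commute (TG.x 0) g) (hq : qM (Lam g) = 1) :
    ∃ i : ℤ, g = TG.x 0 ^ i := by
  obtain ⟨-, i, k, hβ⟩ := commute_aM _ (modelBN2_commute_Lam g h)
  have e : Lam g = ⟨(Lam g).left, B3.s 0 ^ i * B3.z ^ k⟩ := by
    ext
    · rfl
    · exact hβ
  rw [e, qM_eq] at hq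
  have hl : (Lam g).left = c3 ^ (-k) := by
    rw [zpow_neg]
    exact eq_inv_of_mul_eq_one_left hq
  have hk : -k = 0 := Lam_left_c3 g (-k) hl
  have hk0 : k = 0 := by omega
  refine ⟨i, Lam_injective ?_⟩
  rw [map_zpow, modelBN2_Lam_x0, e, hl, hk0]
  ext
  · simp [aM, ← map_zpow]
  · simp [aM, ← map_zpow]

theorem qM_z0_pow (n : ℕ) : qM (Lam (TG.z 0 ^ n)) = (uF 0 * uF 1 * uF 2) ^ n := by
  have e : Lam (TG.z 0 ^ n) = ⟨1, B3.s 0 ^ (0 : ℤ) * B3.z ^ (n : ℤ)⟩ := by
    have e' : (SemidirectProduct.inr B3.z : MM) ^ n = SemidirectProduct.inr (B3.z ^ n) :=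
      (map_pow _ _ _).symm
    rw [map_pow, Lam_z0, e']
    ext
    · rfl
    · simp only [SemidirectProduct.right_inr, zpow_zero, one_mul, zpow_natCast]
  rw [e, qM_eq]
  simp [c3]

theorem modelBN2_z2_pow (n : ℕ) :
    Lam (TG.z 2 ^ n) = ⟨(uF 2 * uF 0 * uF 1) ^ n * (c3 ^ n)⁻¹, B3.z ^ n⟩ := by
  induction n with
  | zero => 
    ext <;> simp
  | succ n ih =>
    rw [pow_succ, map_mul, ih, Lam_z2, SemidirectProduct.mul_def]
    have := actB_z_zpow (n : ℤ) (uF 2 * uF 0 * uF 1 * c3⁻¹)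
    rw [zpow_natCast, zpow_natCast] at this
    simp only [this]
    ext
    · simp only [pow_succ]
      group
    · simp only [pow_succ]

theorem qM_z2_pow (n : ℕ) : qM (Lam (TG.z 2 ^ n)) = (uF 2 * uF 0 * uF 1) ^ n := by
  have e : Lam (TG.z 2 ^ n)
      = ⟨(uF 2 * uF 0 * uF 1) ^ n * (c3 ^ n)⁻¹, B3.s 0 ^ (0 : ℤ) * B3.z ^ (n : ℤ)⟩ := by
    rw [modelBN2_z2_pow]
    ext <;> simp
  rw [e, qM_eq]
  simp

theorem TG_bn2_zero :
    Bottleneck (Subgroup.centralizer {TG.x 0}) (TG.z 0) (TG.z 2) (TG.x 0) := by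
  classical
  intro Sg hSg
  obtain ⟨Φ', hΦ', hbr⟩ := free_branch ((fun g => qM (Lam g)) '' Sg) (hSg.image _)
  let pre : F3 → TG := fun φ' =>
    if h : ∃ g : TG, Commute (TG.x 0) g ∧ qM (Lam g) = φ' then h.choose else 1
  refine ⟨insert 1 (pre '' Φ'), (hΦ'.image _).insert _, ?_⟩
  intro n N p hp0 hpN hpH hstep
  have hcomm : ∀ j ≤ N, Commute (TG.x 0) (p j) := by
    intro j hj
    have := hpH j hj
    rw [Subgroup.mem_centralizer_iff] at this
    exact this (TG.x 0) (Set.mem_singleton _)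
  rcases n with _ | n
  · refine ⟨0, Nat.zero_le _, 0, 1, Set.mem_insert _ _, ?_⟩
    rw [hp0]
    simp
  · have hq : ∃ j ≤ N, qM (Lam (p j)) ∈ Φ' := by
      apply hbr N (fun j => qM (Lam (p j)))
      · intro j hj
        refine ⟨(p j)⁻¹ * p (j + 1), hstep j hj, ?_⟩
        have c1 := modelBN2_commute_Lam _ (hcomm j hj.le)
        have c2 := modelBN2_commute_Lam _ (hcomm (j + 1) hj)
        show qM (Lam ((p j)⁻¹ * p (j + 1))) = (qM (Lam (p j)))⁻¹ * qM (Lam (p (j + 1)))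
        rw [map_mul, map_inv, qM_mul _ _ c1.inv_right c2, modelBN2_qM_inv _ c1]
      · show (qM (Lam (p 0))).toWord.head? ≠ (qM (Lam (p N))).toWord.head?
        rw [hp0, hpN, qM_z0_pow, qM_z2_pow]
        have h0 := free_head_pow_pos (0 : Fin 3) [1, 2] n
        have h2 := free_head_pow_pos (2 : Fin 3) [0, 1] n
        simp only [List.map_cons, List.map_nil, List.prod_cons, List.prod_nil, mul_one] at h0 h2
        have e0 : uF 0 * uF 1 * uF 2 = FreeGroup.of 0 * (FreeGroup.of 1 * FreeGroup.of 2) := by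
          simp only [uF, mul_assoc]
        have e2 : uF 2 * uF 0 * uF 1 = FreeGroup.of 2 * (FreeGroup.of 0 * FreeGroup.of 1) := by
          simp only [uF, mul_assoc]
        rw [e0, e2, h0, h2]
        decide
    obtain ⟨j, hj, hjΦ⟩ := hq
    have hex : ∃ g : TG, Commute (TG.x 0) g ∧ qM (Lam g) = qM (Lam (p j)) :=
      ⟨p j, hcomm j hj, rfl⟩
    have hpre : pre (qM (Lam (p j))) = hex.choose := dif_pos hex
    obtain ⟨hc, hqe⟩ := hex.choose_spec
    rw [← hpre] at hc hqe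
    have hker : qM (Lam (p j * (pre (qM (Lam (p j))))⁻¹)) = 1 := by
      have c1 := modelBN2_commute_Lam _ (hcomm j hj)
      have c2 := modelBN2_commute_Lam _ hc
      rw [map_mul, map_inv, qM_mul _ _ c1 c2.inv_right, modelBN2_qM_inv _ c2, hqe]
      simp
    obtain ⟨i, hi⟩ := qM_ker _ ((hcomm j hj).mul_right hc.inv_right) hker
    refine ⟨j, hj, i, pre (qM (Lam (p j))), Set.mem_insert_of_mem _ ⟨_, hjΦ, rfl⟩, ?_⟩
    rw [← hi]
    simp

theorem modelBN2_step (i : Fin 3)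
    (h : Bottleneck (Subgroup.centralizer {TG.x i}) (TG.z i) (TG.z (i + 2)) (TG.x i)) :
    Bottleneck (Subgroup.centralizer {TG.x (i + 1)}) (TG.z (i + 1)) (TG.z (i + 1 + 2))
      (TG.x (i + 1)) := by
  have := Bottleneck.map TG.rot TG.rot_injective (H' := Subgroup.centralizer {TG.x (i + 1)})
    (by
      intro g' hg'
      refine ⟨TG.rot (TG.rot g'), ?_, TG.rot_rot_rot g'⟩
      rw [Subgroup.mem_centralizer_iff] at hg' ⊢
      intro y hy
      rw [Set.mem_singleton_iff] at hy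
      subst hy
      have h1 : TG.x (i + 1) * g' = g' * TG.x (i + 1) := hg' _ (Set.mem_singleton _)
      have h2 := congrArg (fun t => TG.rot (TG.rot t)) h1
      simp only [map_mul, TG.rot_x] at h2
      have e : i + 1 + 1 + 1 = i := by fin_cases i <;> rfl
      rw [e] at h2
      exact h2) h
  rw [TG.rot_z, TG.rot_z, TG.rot_x] at this
  have e : i + 2 + 1 = i + 1 + 2 := by fin_cases i <;> rfl
  rw [e] at this
  exact this

theorem TG_bn2 (i : Fin 3) :
    Bottleneck (Subgroup.centralizer {TG.x i}) (TG.z i) (TG.z (i + 2)) (TG.x i) := by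
  have h0 : Bottleneck (Subgroup.centralizer {TG.x 0}) (TG.z 0) (TG.z (0 + 2)) (TG.x 0) :=
    TG_bn2_zero
  have h1 := modelBN2_step 0 h0
  have h2 := modelBN2_step (0 + 1) h1
  fin_cases i
  · exact h0
  · exact h1
  · exact h2

end Claimed.Agent.R156
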