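import Mathlib

/-!
# Centraliser of the stable letter in an HNN extension `H *_{A, id}` (helper819)
-/

set_option autoImplicit false

namespace Claimed.Agent.R156.H819

open HNNExtension HNNExtension.NormalWord

universe u

variable {H : Type u} [Group H] (A : Subgroup H)

/-- The HNN extension of `H` along the identity of `A`. -/
abbrev HNNid : Type u := HNNExtension H A A (MulEquiv.refl A)

variable {A}

theorem toSubgroup_self (e : ℤˣ) : toSubgroup A A e = A := by
  rcases Int.units_eq_one_or e with rfl | rfl <;> rfl

theorem commute_t_of {a : H} (ha : a ∈ A) :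
    Commute (t : HNNid A) (of a) := by
  have := t_mul_of (φ := MulEquiv.refl A) ⟨a, ha⟩
  exact this

theorem commute_of_tpow {a : H} (ha : a ∈ A) (k : ℤ) :
    Commute (of a : HNNid A) (t ^ k) :=
  ((commute_t_of ha).symm).zpow_right k

/-- the target set is stable under left multiplication by `of a * t ^ e` -/
theorem mem_target_mul_left {a : H} (ha : a ∈ A) (e : ℤ) {x : HNNid A}
    (hx : ∃ b ∈ A, ∃ k : ℤ, x = of b * t ^ k) :
    ∃ b ∈ A, ∃ k : ℤ, of a * t ^ e * x = of b * t ^ k := by
  obtain ⟨b, hb, k, rfl⟩ := hx
  refine ⟨a * b, A.mul_mem ha hb, e + k, ?_⟩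
  rw [map_mul, zpow_add, mul_assoc, ← mul_assoc (t ^ e), ← (commute_of_tpow hb e).eq]
  simp only [mul_assoc]

theorem mem_target_mul_right {a : H} (ha : a ∈ A) (e : ℤ) {x : HNNid A}
    (hx : ∃ b ∈ A, ∃ k : ℤ, x = of b * t ^ k) :
    ∃ b ∈ A, ∃ k : ℤ, x * (t ^ e * of a) = of b * t ^ k := by
  obtain ⟨b, hb, k, rfl⟩ := hx
  refine ⟨b * a, A.mul_mem hb ha, k + e, ?_⟩
  rw [map_mul, zpow_add, ← (commute_of_tpow ha e).eq, mul_assoc, ← mul_assoc (t ^ k),
    ← (commute_of_tpow ha k).eq]
  simp only [mul_assoc]

theorem commute_cancel_left {Γ : Type*} [Group Γ] {c x y : Γ} (hc : Commute c y)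
    (h : Commute (c * x) y) : Commute x y := by
  have := hc.inv_left.mul_left h
  simpa using this

theorem commute_cancel_right {Γ : Type*} [Group Γ] {c x y : Γ} (hc : Commute c y)
    (h : Commute (x * c) y) : Commute x y := by
  have := h.mul_left hc.inv_left
  simpa using this

/-- key step: in a reduced word commuting with `t`, with at least one `t`-letter, either the head
or the last letter lies in `A`. -/
theorem head_or_last_mem (w : ReducedWord H A A) (p : ℤˣ × H) (L1 : List (ℤˣ × H))
    (hL : w.toList = p :: L1) (hc : Commute (w.prod (MulEquiv.refl A)) t) :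
    w.head ∈ A ∨ ((p :: L1).getLast (List.cons_ne_nil _ _)).2 ∈ A := by
  by_contra hcon
  rw [not_or] at hcon
  obtain ⟨h0, hq⟩ := hcon
  set e : ℤˣ := -p.1 with he
  have hchain : (p :: L1).IsChain (fun a b => a.2 ∈ toSubgroup A A a.1 → a.1 = b.1) :=
    hL ▸ w.chain
  let W1 : ReducedWord H A A :=
    { head := 1
      toList := (e, w.head) :: p :: L1
      chain := by
        rw [List.isChain_cons_cons]
        refine ⟨fun h => ?_, hchain⟩
        rw [toSubgroup_self] at h
        exact absurd h h0 }
  let W2 : ReducedWord H A A :=
    { head := w.head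
      toList := (p :: L1) ++ [(e, 1)]
      chain := by
        refine hchain.append (by simp) ?_
        intro x hx y _ h
        rw [List.getLast?_eq_some_getLast (List.cons_ne_nil _ _), Option.mem_some_iff] at hx
        rw [toSubgroup_self, ← hx] at h
        exact absurd h hq }
  have e1 : W1.prod (MulEquiv.refl A) = t ^ (e : ℤ) * w.prod (MulEquiv.refl A) := by
    simp only [ReducedWord.prod, W1, hL, List.map_cons, List.prod_cons, map_one, one_mul,
      mul_assoc]
  have e2 : W2.prod (MulEquiv.refl A) = w.prod (MulEquiv.refl A) * t ^ (e : ℤ) := by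
    simp only [ReducedWord.prod, W2, hL, List.map_cons, List.prod_cons, map_one, mul_one,
      mul_assoc, List.map_append, List.prod_append, List.map_nil, List.prod_nil, List.cons_append]
  have e3 : W1.prod (MulEquiv.refl A) = W2.prod (MulEquiv.refl A) := by
    rw [e1, e2, (hc.zpow_right (e : ℤ)).eq]
  have := (ReducedWord.map_fst_eq_and_of_prod_eq (MulEquiv.refl A) e3).1
  simp only [W1, W2, List.map_cons, List.cons_append, List.cons.injEq] at this
  exact neg_units_ne_self p.1 this.1

theorem centralizer_aux (n : ℕ) : ∀ w : ReducedWord H A A, w.toList.length = n →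
    Commute (w.prod (MulEquiv.refl A)) t →
    ∃ a ∈ A, ∃ k : ℤ, w.prod (MulEquiv.refl A) = of a * t ^ k := by
  induction n using Nat.strong_induction_on with
  | _ n ih =>
  intro w hn hc
  rcases hL : w.toList with _ | ⟨p, L1⟩
  · -- no `t`-letter
    have hw : w.prod (MulEquiv.refl A) = of w.head := by
      simp [ReducedWord.prod, hL]
    let W1 : ReducedWord H A A :=
      { head := 1, toList := [(1, w.head)], chain := by simp }
    let W2 : ReducedWord H A A :=
      { head := w.head, toList := [(1, 1)], chain := by simp }
    have e3 : W1.prod (MulEquiv.refl A) = W2.prod (MulEquiv.refl A) := by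
      have : (t : HNNid A) * of w.head = of w.head * t := by
        rw [← hw]; exact hc.symm.eq
      simpa [ReducedWord.prod, W1, W2] using this
    have := (ReducedWord.map_fst_eq_and_of_prod_eq (MulEquiv.refl A) e3).2 1 (by simp [W1])
    rw [toSubgroup_self] at this
    refine ⟨w.head, by simpa [W1, W2] using this, 0, by simp [hw]⟩
  · have hchain : (p :: L1).IsChain (fun a b => a.2 ∈ toSubgroup A A a.1 → a.1 = b.1) :=
      hL ▸ w.chain
    rcases head_or_last_mem w p L1 hL hc with h0 | hq
    · let w' : ReducedWord H A A :=
        { head := p.2, toList := L1, chain := hchain.tail }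
      have hw : w.prod (MulEquiv.refl A) =
          of w.head * t ^ (p.1 : ℤ) * w'.prod (MulEquiv.refl A) := by
        simp only [ReducedWord.prod, w', hL, List.map_cons, List.prod_cons, mul_assoc]
      have hc0 : Commute (of w.head * t ^ (p.1 : ℤ) : HNNid A) t :=
        ((commute_t_of h0).symm).mul_left ((Commute.refl t).zpow_left _)
      have hc' : Commute (w'.prod (MulEquiv.refl A)) t := by
        rw [hw] at hc
        exact commute_cancel_left hc0 hc
      have hlen : w'.toList.length < n := by
        rw [← hn, hL]; simp [w']
      rw [hw]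
      exact mem_target_mul_left h0 _ (ih _ hlen w' rfl hc')
    · set q := (p :: L1).getLast (List.cons_ne_nil _ _) with hqdef
      let w' : ReducedWord H A A :=
        { head := w.head, toList := (p :: L1).dropLast, chain := hchain.dropLast }
      have hsplit : (p :: L1) = (p :: L1).dropLast ++ [q] :=
        (List.dropLast_append_getLast (List.cons_ne_nil _ _)).symm
      have hw : w.prod (MulEquiv.refl A) =
          w'.prod (MulEquiv.refl A) * (t ^ (q.1 : ℤ) * of q.2) := by
        simp only [ReducedWord.prod, w', hL]
        conv_lhs => rw [hsplit]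
        simp only [List.map_append, List.prod_append, List.map_cons, List.map_nil,
          List.prod_cons, List.prod_nil, mul_one, mul_assoc]
      have hc0 : Commute (t ^ (q.1 : ℤ) * of q.2 : HNNid A) t :=
        ((Commute.refl t).zpow_left _).mul_left ((commute_t_of hq).symm)
      have hc' : Commute (w'.prod (MulEquiv.refl A)) t := by
        rw [hw] at hc
        exact commute_cancel_right hc0 hc
      have hlen : w'.toList.length < n := by
        rw [← hn, hL]; simp [w']
      rw [hw]
      exact mem_target_mul_right hq _ (ih _ hlen w' rfl hc')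

/-- **Centraliser of the stable letter** in `H *_{A, id}`. -/
theorem centralizer_t {g : HNNid A} (hc : Commute g t) :
    ∃ a ∈ A, ∃ k : ℤ, g = of a * t ^ k := by
  obtain ⟨d⟩ := TransversalPair.nonempty H A A
  set w : NormalWord d := NormalWord.equiv (MulEquiv.refl A) d g with hw
  have hprod : w.toReducedWord.prod (MulEquiv.refl A) = g :=
    (NormalWord.equiv (MulEquiv.refl A) d).symm_apply_apply g
  have := centralizer_aux _ w.toReducedWord rfl (by rw [hprod]; exact hc)
  rwa [hprod] at this

end Claimed.Agent.R156.H819
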