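import Claimed.Agent.R156.Defs
import Claimed.Agent.R156.HNNCent819

/-! Row 156 / S0327: centraliser of the stable letter in `HNNExtension H A A refl`. -/

set_option autoImplicit false

namespace Claimed.Agent.R156

/-- Britton's lemma + induction on the number of stable letters of a reduced word
(`HNNExtension.ReducedWord`, `map_fst_eq_and_of_prod_eq`, `toList_eq_nil_of_mem_of_range`,
`exists_normalWord_prod_eq`, ...). -/
theorem HNN_centralizer_t {H : Type*} [Group H] (A : Subgroup H)
    (g : HNNExtension H A A (MulEquiv.refl A)) (h : Commute HNNExtension.t g) :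
    ∃ a ∈ A, ∃ k : ℤ, g = HNNExtension.of a * HNNExtension.t ^ k :=
  H819.centralizer_t h.symm

end Claimed.Agent.R156
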