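import Claimed.Agent.R156.IotaT
import Claimed.Agent.R156.HNNGeneral
import Claimed.Agent.R156.FreeLemmas

/-! Row 156 / S0327: the common centraliser of the two sentinels is `⟨x0,x1,x2⟩`. -/

set_option autoImplicit false

namespace Claimed.Agent.R156

open Claims.C0279.ArtinCAT0

/-- letters different from the sentinel `4`. -/
abbrev Letters' : Type := {s : Letters // s ≠ 4}

/-- Artin group on the letters `≠ 4`. -/
abbrev H1 : Type := ArtinGroup (fun s t : Letters' => explicitMatrix s.1 t.1)

/-- the triangle generators in `H1`. -/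
noncomputable def xH (i : Fin 3) : H1 :=
  PresentedGroup.of ⟨⟨i.val, by omega⟩, by
    intro h; have := congrArg Fin.val h; simp at this; omega⟩

/-- the associated subgroup. -/
noncomputable def A1 : Subgroup H1 := Subgroup.closure (Set.range xH)

/-- alternating product in a group. -/
def sentAlt {Γ : Type*} [Group Γ] (a b : Γ) : ℕ → Γ
  | 0 => 1
  | n + 1 => a * sentAlt b a n

theorem sent_lift_alternating {S Γ : Type*} [Group Γ] (f : S → Γ) (n : ℕ) :
    ∀ s t : S, FreeGroup.lift f (alternating s t n) = sentAlt (f s) (f t) n := by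
  induction n with
  | zero => intro s t; simp [alternating, sentAlt]
  | succ n ih => intro s t; simp [alternating, sentAlt, ih]

theorem sent_map_alt {Γ Γ' : Type*} [Group Γ] [Group Γ'] (φ : Γ →* Γ') (n : ℕ) :
    ∀ a b : Γ, φ (sentAlt a b n) = sentAlt (φ a) (φ b) n := by
  induction n with
  | zero => intro a b; simp [sentAlt]
  | succ n ih => intro a b; simp [sentAlt, ih]

theorem sent_artin_rel {S : Type*} (M : S → S → Label) (s t : S) (n : ℕ)
    (h : M s t = (n : Label)) :
    sentAlt (PresentedGroup.of (rels := artinRelators M) s) (PresentedGroup.of t) n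
      = sentAlt (PresentedGroup.of (rels := artinRelators M) t) (PresentedGroup.of s) n := by
  have hmem : alternating s t n * (alternating t s n)⁻¹ ∈ artinRelators M := ⟨s, t, n, h, rfl⟩
  have h1 : PresentedGroup.mk (artinRelators M) (alternating s t n * (alternating t s n)⁻¹) = 1 :=
    PresentedGroup.one_of_mem hmem
  rw [map_mul, map_inv, mul_inv_eq_one] at h1
  have key : ∀ w : FreeGroup S, PresentedGroup.mk (artinRelators M) w
      = FreeGroup.lift (fun s => PresentedGroup.of (rels := artinRelators M) s) w := by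
    intro w
    have : PresentedGroup.mk (artinRelators M)
        = FreeGroup.lift (fun s => PresentedGroup.of (rels := artinRelators M) s) := by
      ext s
      simp [PresentedGroup.of]
    rw [this]
  rw [key, key, sent_lift_alternating, sent_lift_alternating] at h1
  exact h1

/-- a hom out of an Artin group from alternating relations. -/
theorem sent_rel_ok {S Γ : Type*} [Group Γ] (M : S → S → Label) (f : S → Γ)
    (h : ∀ (s t : S) (n : ℕ), M s t = (n : Label) → sentAlt (f s) (f t) n = sentAlt (f t) (f s) n) :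
    ∀ r ∈ artinRelators M, FreeGroup.lift f r = 1 := by
  rintro r ⟨s, t, n, hM, rfl⟩
  rw [map_mul, map_inv, mul_inv_eq_one, sent_lift_alternating, sent_lift_alternating]
  exact h s t n hM

/-- the obvious map `H1 → GA`. -/
noncomputable def sentJ : H1 →* GA :=
  PresentedGroup.toGroup (f := fun s : Letters' => gen s.1)
    (sent_rel_ok _ _ (fun s t n h => sent_artin_rel explicitMatrix s.1 t.1 n h))

theorem sentJ_of (s : Letters') : sentJ (PresentedGroup.of s) = gen s.1 := by
  simp [sentJ]

theorem sentJ_xH (i : Fin 3) : sentJ (xH i) = xG i := by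
  simp [xH, xG, sentJ_of]

theorem sent_commute_gen4_xG (i : Fin 3) : Commute (gen 4) (xG i) :=
  gen_sentinel 4 ⟨i.val, by omega⟩ (Or.inr rfl) i.isLt

theorem sent_commute_gen3_xG (i : Fin 3) : Commute (gen 3) (xG i) :=
  gen_sentinel 3 ⟨i.val, by omega⟩ (Or.inl rfl) i.isLt

theorem sentJ_A1_commute (a : H1) (ha : a ∈ A1) : Commute (gen 4) (sentJ a) := by
  unfold A1 at ha
  induction ha using Subgroup.closure_induction with
  | mem x hx =>
    obtain ⟨i, rfl⟩ := hx
    rw [sentJ_xH]
    exact sent_commute_gen4_xG i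
  | one => simp
  | mul x y _ _ hx hy => rw [map_mul]; exact hx.mul_right hy
  | inv x _ hx => rw [map_inv]; exact hx.inv_right

/-- the images of the letters in the HNN extension. -/
noncomputable def sentF (s : Letters) : HNNExtension H1 A1 A1 (MulEquiv.refl A1) :=
  if h : s = 4 then HNNExtension.t else HNNExtension.of (PresentedGroup.of ⟨s, h⟩)

theorem sentF_four : sentF 4 = HNNExtension.t := by simp [sentF]

theorem sentF_ne (s : Letters') : sentF s.1 = HNNExtension.of (PresentedGroup.of s) := by
  simp [sentF, s.2]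

theorem sentF_comm (t : Letters) (ht : t.val < 3) :
    sentF 4 * sentF t = sentF t * sentF 4 := by
  have hne : t ≠ 4 := by
    intro h; rw [h] at ht; simp at ht
  have hmem : (PresentedGroup.of ⟨t, hne⟩ : H1) ∈ A1 := by
    apply Subgroup.subset_closure
    exact ⟨⟨t.val, ht⟩, rfl⟩
  rw [sentF_four, sentF_ne ⟨t, hne⟩]
  exact HNNExtension.t_mul_of (φ := MulEquiv.refl A1) ⟨_, hmem⟩

theorem sentF_rel (s t : Letters) (n : ℕ) (h : explicitMatrix s t = (n : Label)) :
    sentAlt (sentF s) (sentF t) n = sentAlt (sentF t) (sentF s) n := by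
  by_cases hs : s = 4
  · subst hs
    rcases matrix_four t n h with ⟨rfl, _⟩ | ⟨ht, rfl⟩
    · rfl
    · simp only [sentAlt, mul_one]
      exact sentF_comm t ht
  · by_cases ht : t = 4
    · subst ht
      rw [matrix_symm] at h
      rcases matrix_four s n h with ⟨rfl, _⟩ | ⟨hs', rfl⟩
      · rfl
      · simp only [sentAlt, mul_one]
        exact (sentF_comm s hs').symm
    · rw [sentF_ne ⟨s, hs⟩, sentF_ne ⟨t, ht⟩, ← sent_map_alt, ← sent_map_alt]
      congr 1
      exact sent_artin_rel (fun s t : Letters' => explicitMatrix s.1 t.1) ⟨s, hs⟩ ⟨t, ht⟩ n h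

/-- the map `GA → HNN`. -/
noncomputable def sentTheta : GA →* HNNExtension H1 A1 A1 (MulEquiv.refl A1) :=
  PresentedGroup.toGroup (f := sentF) (sent_rel_ok _ _ sentF_rel)

theorem sentTheta_gen (s : Letters) : sentTheta (gen s) = sentF s := by
  simp [sentTheta, gen]

/-- the left inverse. -/
noncomputable def sentPsi : HNNExtension H1 A1 A1 (MulEquiv.refl A1) →* GA :=
  HNNExtension.lift sentJ (gen 4) (fun a => (sentJ_A1_commute a.1 a.2).eq)

theorem sentPsi_Theta (g : GA) : sentPsi (sentTheta g) = g := by
  have : sentPsi.comp sentTheta = MonoidHom.id GA := by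
    apply GA_hom_ext
    intro s
    rw [MonoidHom.comp_apply, sentTheta_gen, MonoidHom.id_apply]
    by_cases hs : s = 4
    · subst hs
      rw [sentF_four]
      exact HNNExtension.lift_t _ _ _
    · rw [sentF_ne ⟨s, hs⟩]
      exact (HNNExtension.lift_of _ _ _ _).trans (sentJ_of ⟨s, hs⟩)
  exact DFunLike.congr_fun this g

/-- `GA` embeds in the HNN extension (it is isomorphic to it, but injectivity suffices:
the left inverse is `HNNExtension.lift` of the obvious map `H1 → GA` and `gen 4`). -/
theorem exists_Theta : ∃ Θ : GA →* HNNExtension H1 A1 A1 (MulEquiv.refl A1),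
    Function.Injective Θ ∧ Θ (gen 4) = HNNExtension.t ∧
    (∀ s : Letters', Θ (gen s.1) = HNNExtension.of (PresentedGroup.of s)) := by
  refine ⟨sentTheta, Function.LeftInverse.injective sentPsi_Theta, ?_, ?_⟩
  · rw [sentTheta_gen, sentF_four]
  · intro s
    rw [sentTheta_gen, sentF_ne]

theorem sentTheta_J (a : H1) : sentTheta (sentJ a) = HNNExtension.of a := by
  have : sentTheta.comp sentJ = HNNExtension.of := by
    apply PresentedGroup.ext
    intro s
    rw [MonoidHom.comp_apply, sentJ_of, sentTheta_gen, sentF_ne]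
  exact DFunLike.congr_fun this a

theorem sentJ_A1_mem (a : H1) (ha : a ∈ A1) : sentJ a ∈ Subgroup.closure (Set.range xG) := by
  unfold A1 at ha
  induction ha using Subgroup.closure_induction with
  | mem x hx =>
    obtain ⟨i, rfl⟩ := hx
    rw [sentJ_xH]
    exact Subgroup.subset_closure ⟨i, rfl⟩
  | one => rw [map_one]; exact Subgroup.one_mem _
  | mul x y _ _ hx hy => rw [map_mul]; exact Subgroup.mul_mem _ hx hy
  | inv x _ hx => rw [map_inv]; exact Subgroup.inv_mem _ hx

theorem commute_gen4 (g : GA) (h : Commute (gen 4) g) :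
    ∃ a ∈ Subgroup.closure (Set.range xG), ∃ k : ℤ, g = a * gen 4 ^ k := by
  have hc : Commute (HNNExtension.t : HNNExtension H1 A1 A1 (MulEquiv.refl A1)) (sentTheta g) := by
    have := h.map sentTheta
    rwa [sentTheta_gen, sentF_four] at this
  obtain ⟨a, ha, k, hk⟩ := HNN_centralizer_t A1 (sentTheta g) hc
  refine ⟨sentJ a, sentJ_A1_mem a ha, k, ?_⟩
  apply Function.LeftInverse.injective sentPsi_Theta
  rw [hk, map_mul, map_zpow, sentTheta_J, sentTheta_gen, sentF_four]

theorem sent_blockLetter_val (b : Fin 3) (i : Fin 39) :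
    (blockLetter b i).val ≠ 3 ∧ (blockLetter b i).val ≠ 4 := by
  unfold blockLetter
  split_ifs <;> simp <;> omega

/-- images of the letters in the free group of rank two. -/
def sentR (s : Letters) : FreeGroup (Fin 2) :=
  if s.val = 3 then FreeGroup.of 0 else if s.val = 4 then FreeGroup.of 1 else 1

theorem sentR_block (b : Fin 3) (i : Fin 39) : sentR (blockLetter b i) = 1 := by
  have := sent_blockLetter_val b i
  simp [sentR, this.1, this.2]

theorem sentR_lt (t : Letters) (ht : t.val < 3) : sentR t = 1 := by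
  have h1 : t.val ≠ 3 := by omega
  have h2 : t.val ≠ 4 := by omega
  simp [sentR, h1, h2]

theorem exists_retract_F2 : ∃ r : GA →* FreeGroup (Fin 2),
    r (gen 3) = FreeGroup.of 0 ∧ r (gen 4) = FreeGroup.of 1 ∧ ∀ i, r (xG i) = 1 := by
  obtain ⟨F, hF⟩ := GA_exists_hom sentR
    (fun b i j _ => by rw [sentR_block, sentR_block]; rfl)
    (fun b i j _ => by rw [sentR_block, sentR_block]; exact Commute.one_left _)
    (fun s t _ ht => by rw [sentR_lt t ht]; exact Commute.one_right _)
  refine ⟨F, ?_, ?_, ?_⟩
  · rw [hF]; rfl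
  · rw [hF]; rfl
  · intro i
    unfold xG
    rw [hF]
    exact sentR_lt _ i.isLt

/-- (A1). -/
theorem centralizer_sentinels (g : GA) (h3 : Commute (gen 3) g) (h4 : Commute (gen 4) g) :
    g ∈ Subgroup.closure (Set.range xG) := by
  obtain ⟨a, ha, k, rfl⟩ := commute_gen4 g h4
  obtain ⟨r, hr3, hr4, hrx⟩ := exists_retract_F2
  have hra : r a = 1 := by
    have hle : Subgroup.closure (Set.range xG) ≤ r.ker := by
      rw [Subgroup.closure_le]
      rintro _ ⟨i, rfl⟩
      exact hrx i
    exact hle ha
  have hc := h3.map r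
  rw [hr3, map_mul, map_zpow, hra, hr4, one_mul] at hc
  obtain ⟨m, hm⟩ := Subgroup.mem_zpowers_iff.mp (free_commute_of (0 : Fin 2) _ hc)
  -- exponent sum of the second generator
  let e : FreeGroup (Fin 2) →* Multiplicative ℤ :=
    FreeGroup.lift (fun i : Fin 2 => if i = 1 then Multiplicative.ofAdd (1 : ℤ) else 1)
  have he := congrArg e hm
  simp only [e, map_zpow, FreeGroup.lift_apply_of] at he
  have hk : k = 0 := by
    have h1 : (Multiplicative.ofAdd (1 : ℤ)) ^ k = 1 := by
      simpa using he.symm
    have h2 := congrArg Multiplicative.toAdd h1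
    simpa using h2
  subst hk
  simpa using ha

end Claimed.Agent.R156
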