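import Claimed.Agent.R156.Psi
import Claimed.Agent.R156.Sentinels
import Claimed.Agent.R156.ModelBN1
import Claimed.Agent.R156.ModelBN2

/-! Row 156 / S0327: the algebraic configuration in `GA`. -/

set_option autoImplicit false

namespace Claimed.Agent.R156

open Claims.C0279.ArtinCAT0

/-- elements of `GA` commuting with both sentinels and with `iotaT g0` come from the
centraliser of `g0` in `TG`. -/
theorem centralizer_pullback (g0 : TG) (g' : GA)
    (h : g' ∈ Subgroup.centralizer (({gen 3, gen 4} : Set GA) ∪ {iotaT g0})) :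
    ∃ g ∈ Subgroup.centralizer ({g0} : Set TG), iotaT g = g' := by
  rw [Subgroup.mem_centralizer_iff] at h
  have h3 : Commute (gen 3) g' := h (gen 3) (by simp)
  have h4 : Commute (gen 4) g' := h (gen 4) (by simp)
  have h0 : iotaT g0 * g' = g' * iotaT g0 := h (iotaT g0) (by simp)
  have hmem : g' ∈ iotaT.range := by
    rw [iotaT_range]
    exact centralizer_sentinels g' h3 h4
  obtain ⟨g, rfl⟩ := hmem
  refine ⟨g, ?_, rfl⟩
  rw [Subgroup.mem_centralizer_iff]
  intro k hk
  rw [Set.mem_singleton_iff] at hk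
  subst hk
  apply iotaT_injective
  rw [map_mul, map_mul]
  exact h0

theorem GA_chain (i : Fin 3) : ∃ σ : ℕ → GA, σ 0 = xG i ∧ σ 1 = xG (i + 1) ∧
    (∀ j, j + 1 < 39 → Br (σ j) (σ (j + 1))) ∧
    (∀ j k, j + 2 ≤ k → k < 39 → Commute (σ j) (σ k)) := by
  refine ⟨fun j => if h : j < 39 then gen (blockLetter i ⟨j, h⟩) else 1, ?_, ?_, ?_, ?_⟩
  · simp only [show (0 : ℕ) < 39 by norm_num, dif_pos]
    exact (xG_eq_block0 i).symm
  · simp only [show (1 : ℕ) < 39 by norm_num, dif_pos]
    exact (xG_eq_block1 i).symm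
  · intro j hj
    have hj' : j < 39 := by omega
    simp only [hj, hj', dif_pos]
    exact gen_braid i ⟨j, hj'⟩ ⟨j + 1, hj⟩ rfl
  · intro j k hjk hk
    have hj' : j < 39 := by omega
    simp only [hk, hj', dif_pos]
    exact gen_comm i ⟨j, hj'⟩ ⟨k, hk⟩ hjk

theorem fin3_add (i : Fin 3) : i + 2 + 1 = i := by
  fin_cases i <;> rfl

open Classical in
theorem coe_sentinels : ((({gen 3, gen 4} : Finset GA) : Set GA)) = {gen 3, gen 4} := by
  simp

open Classical in
/-- THE CONFIGURATION. -/
noncomputable def configG : Config GA where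
  x := xG
  S := {gen 3, gen 4}
  chain := GA_chain
  comm := by
    intro s hs i
    simp only [Finset.mem_insert, Finset.mem_singleton] at hs
    rcases hs with rfl | rfl
    · exact gen_sentinel 3 _ (Or.inl rfl) i.isLt
    · exact gen_sentinel 4 _ (Or.inr rfl) i.isLt
  bn1 := by
    intro i
    rw [coe_sentinels, ← iotaT_z, ← iotaT_x, ← iotaT_x]
    exact Bottleneck.map iotaT iotaT_injective (centralizer_pullback (TG.z i)) (TG_bn1 i)
  bn2 := by
    intro i
    have h2 : (xG (i + 2) * xG i) ^ 3 = iotaT (TG.z (i + 2)) := by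
      rw [iotaT_z, fin3_add]
    rw [coe_sentinels, h2, ← iotaT_z, ← iotaT_x]
    exact Bottleneck.map iotaT iotaT_injective (centralizer_pullback (TG.x i)) (TG_bn2 i)
  infOrder := by
    intro i
    rw [← iotaT_z, ← iotaT_x, ← map_inv, ← map_pow, ← map_mul]
    rw [iotaT_injective.isOfFinOrder_iff]
    exact TG_infOrder i

end Claimed.Agent.R156
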