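import Claimed.Prelude.Def_0279

/-!
Row 156, statement S0327: common definitions of the skeleton.
Everything lives in `namespace Claimed.Agent.R156`.
-/

set_option autoImplicit false

namespace Claimed.Agent.R156

open Claims.C0279.ArtinCAT0

/-- The group of the statement. -/
abbrev GA : Type := ArtinGroup explicitMatrix

/-- The standard generators of `GA`. -/
noncomputable def gen (s : Letters) : GA := PresentedGroup.of s

/-- Braid relation. -/
def Br {Γ : Type*} [Mul Γ] (x y : Γ) : Prop := x * y * x = y * x * y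

/-- `Bottleneck H u v w`: every coarse path inside the subgroup `H` from `u ^ n` to `v ^ n`
passes uniformly close to a power of `w`. -/
def Bottleneck {Γ : Type*} [Group Γ] (H : Subgroup Γ) (u v w : Γ) : Prop :=
  ∀ Sg : Set Γ, Sg.Finite → ∃ Φ : Set Γ, Φ.Finite ∧
    ∀ (n N : ℕ) (p : ℕ → Γ), p 0 = u ^ n → p N = v ^ n → (∀ j ≤ N, p j ∈ H) →
      (∀ j < N, (p j)⁻¹ * p (j + 1) ∈ Sg) →
        ∃ j ≤ N, ∃ k : ℤ, ∃ φ ∈ Φ, p j = w ^ k * φ

/-- Abstract translation length data on a group. -/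
structure LenData (Γ : Type*) [Group Γ] where
  τ : Γ → ℝ
  nonneg : ∀ g, 0 ≤ τ g
  inv : ∀ g, τ g⁻¹ = τ g
  conj : ∀ g h, τ (h * g * h⁻¹) = τ g
  pow : ∀ g (n : ℕ), τ (g ^ n) = n * τ g
  para : ∀ g h, Commute g h →
    τ (g * h) ^ 2 + τ (g * h⁻¹) ^ 2 = 2 * τ g ^ 2 + 2 * τ h ^ 2
  char : ∀ z, ∃ φ : Γ → ℝ,
    (∀ g h, Commute z g → Commute z h → φ (g * h) = φ g + φ h) ∧
    φ z = τ z ∧ ∀ g, Commute z g → φ g ≤ τ g
  finOrder : ∀ g, τ g = 0 → IsOfFinOrder g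

/-- The algebraic configuration which is incompatible with a geometric action on a
proper CAT(0) space. `x i` are the three triangle generators, `S` the sentinels. -/
structure Config (Γ : Type*) [Group Γ] where
  x : Fin 3 → Γ
  S : Finset Γ
  chain : ∀ i : Fin 3, ∃ σ : ℕ → Γ, σ 0 = x i ∧ σ 1 = x (i + 1) ∧
    (∀ j, j + 1 < 39 → Br (σ j) (σ (j + 1))) ∧
    (∀ j k, j + 2 ≤ k → k < 39 → Commute (σ j) (σ k))
  comm : ∀ s ∈ S, ∀ i, Commute s (x i)
  bn1 : ∀ i : Fin 3, Bottleneck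
    (Subgroup.centralizer ((S : Set Γ) ∪ {(x i * x (i + 1)) ^ 3}))
    (x i) (x (i + 1)) ((x i * x (i + 1)) ^ 3)
  bn2 : ∀ i : Fin 3, Bottleneck
    (Subgroup.centralizer ((S : Set Γ) ∪ {x i}))
    ((x i * x (i + 1)) ^ 3) ((x (i + 2) * x i) ^ 3) (x i)
  infOrder : ∀ i : Fin 3, ¬ IsOfFinOrder (x i ^ 6 * ((x i * x (i + 1)) ^ 3)⁻¹)

end Claimed.Agent.R156
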