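import Claimed.Agent.R156.Defs

/-! Row 156 / S0327: consequences of the abstract `LenData` interface (pure algebra). -/

set_option autoImplicit false

namespace Claimed.Agent.R156

variable {Γ : Type*} [Group Γ] (L : LenData Γ)

namespace LenData

/-- the "inner product" attached to the translation length. -/
noncomputable def ip (g h : Γ) : ℝ := (L.τ (g * h) ^ 2 - L.τ g ^ 2 - L.τ h ^ 2) / 2

theorem tau_one : L.τ 1 = 0 := by
  have h := L.pow 1 0
  simpa using h

theorem tau_zpow (g : Γ) (n : ℤ) : L.τ (g ^ n) = |(n : ℝ)| * L.τ g := by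
  cases n with
  | ofNat k =>
    have h := L.pow g k
    simp only [Int.ofNat_eq_natCast, zpow_natCast, Int.cast_natCast, Nat.abs_cast]
    exact h
  | negSucc k =>
    have h := L.pow g (k + 1)
    rw [zpow_negSucc, L.inv, h]
    congr 1
    rw [Int.cast_negSucc, abs_neg, Nat.abs_cast]

theorem tau_mul_comm (g h : Γ) : L.τ (g * h) = L.τ (h * g) := by
  have := L.conj (g * h) h
  rw [← this]
  congr 1
  group

theorem ip_comm (g h : Γ) : L.ip g h = L.ip h g := by
  unfold ip
  rw [L.tau_mul_comm g h]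
  ring

theorem ip_self (g : Γ) : L.ip g g = L.τ g ^ 2 := by
  unfold ip
  have h := L.pow g 2
  rw [pow_two] at h
  rw [h]
  push_cast
  ring

theorem ip_conj (k g h : Γ) : L.ip (k * g * k⁻¹) (k * h * k⁻¹) = L.ip g h := by
  unfold ip
  have e : k * g * k⁻¹ * (k * h * k⁻¹) = k * (g * h) * k⁻¹ := by group
  rw [e, L.conj, L.conj, L.conj]

/-- one-variable quadratic formula, from the parallelogram law only (two-step induction). -/
theorem tau_pow_mul_sq (z h : Γ) (hc : Commute z h) (n : ℕ) :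
    L.τ (z ^ n * h) ^ 2 = n ^ 2 * L.τ z ^ 2 + 2 * n * L.ip z h + L.τ h ^ 2 := by
  induction n using Nat.twoStepInduction with
  | zero => simp
  | one =>
    unfold ip
    simp only [pow_one, Nat.cast_one]
    ring
  | more n ih0 ih1 =>
    have hcomm : Commute (z ^ (n + 1) * h) z :=
      ((Commute.refl z).pow_left _).mul_left hc.symm
    have hp := L.para (z ^ (n + 1) * h) z hcomm
    have e1 : z ^ (n + 1) * h * z = z ^ (n + 2) * h := by
      rw [mul_assoc, ← hc.eq, ← mul_assoc, ← pow_succ]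
    have e2 : z ^ (n + 1) * h * z⁻¹ = z ^ n * h := by
      rw [mul_assoc, ← (hc.inv_left).eq, pow_succ]
      group
    rw [e1, e2] at hp
    rw [ih0, ih1] at hp
    push_cast at hp ⊢
    linarith

theorem ip_inv_right (z h : Γ) (hc : Commute z h) : L.ip z h⁻¹ = - L.ip z h := by
  unfold ip
  have hp := L.para z h hc
  rw [L.inv]
  linarith

/-- auxiliary one-sided bound for `ip_eq_char`. -/
theorem lenTheory_char_le_ip (z : Γ) (φ : Γ → ℝ)
    (hadd : ∀ g h, Commute z g → Commute z h → φ (g * h) = φ g + φ h)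
    (hz : φ z = L.τ z) (hle : ∀ g, Commute z g → φ g ≤ L.τ g) (h : Γ) (hc : Commute z h) :
    L.τ z * φ h ≤ L.ip z h := by
  by_contra hcon
  push Not at hcon
  have hτ := L.nonneg z
  -- φ (z^n * h) = n τ z + φ h
  have hpow : ∀ n : ℕ, φ (z ^ n * h) = n * L.τ z + φ h := by
    intro n
    induction n with
    | zero => simp
    | succ n ih =>
      have : z ^ (n + 1) * h = z * (z ^ n * h) := by rw [pow_succ', mul_assoc]
      rw [this, hadd z (z ^ n * h) (Commute.refl z)
        (((Commute.refl z).pow_right n).mul_right hc), ih, hz]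
      push_cast
      ring
  have hF := L.tau_pow_mul_sq z h hc
  rcases hτ.eq_or_lt with h0 | hpos
  · -- τ z = 0
    rw [← h0] at hcon hF
    simp only [zero_mul] at hcon
    obtain ⟨n, hn⟩ := exists_nat_gt (L.τ h ^ 2 / (2 * (- L.ip z h)))
    have hnn := hF n
    have hsq : 0 ≤ L.τ (z ^ n * h) ^ 2 := sq_nonneg _
    have hpos' : 0 < 2 * (- L.ip z h) := by linarith
    rw [div_lt_iff₀ hpos'] at hn
    rw [hnn] at hsq
    nlinarith
  · set δ := L.τ z * φ h - L.ip z h with hδ
    have hδpos : 0 < δ := by linarith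
    obtain ⟨n1, hn1⟩ := exists_nat_gt ((- φ h) / L.τ z)
    obtain ⟨n2, hn2⟩ := exists_nat_gt ((L.τ h ^ 2 - φ h ^ 2) / (2 * δ))
    set n := max n1 n2 with hn
    have hn1' : ((- φ h) / L.τ z) < (n : ℝ) :=
      lt_of_lt_of_le hn1 (by exact_mod_cast le_max_left n1 n2)
    have hn2' : ((L.τ h ^ 2 - φ h ^ 2) / (2 * δ)) < (n : ℝ) :=
      lt_of_lt_of_le hn2 (by exact_mod_cast le_max_right n1 n2)
    rw [div_lt_iff₀ hpos] at hn1'
    rw [div_lt_iff₀ (by linarith)] at hn2'
    have hnonneg : 0 ≤ n * L.τ z + φ h := by linarith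
    have hle' : (n : ℝ) * L.τ z + φ h ≤ L.τ (z ^ n * h) := by
      rw [← hpow n]
      exact hle _ (((Commute.refl z).pow_right n).mul_right hc)
    have hsq : ((n : ℝ) * L.τ z + φ h) ^ 2 ≤ L.τ (z ^ n * h) ^ 2 :=
      pow_le_pow_left₀ hnonneg hle' 2
    rw [hF n] at hsq
    nlinarith

/-- `φ 1 = 0`, `φ h⁻¹ = - φ h`. -/
theorem lenTheory_char_inv (z : Γ) (φ : Γ → ℝ)
    (hadd : ∀ g h, Commute z g → Commute z h → φ (g * h) = φ g + φ h)
    (h : Γ) (hc : Commute z h) : φ h⁻¹ = - φ h := by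
  have h1 : φ 1 = 0 := by
    have := hadd 1 1 (Commute.one_right z) (Commute.one_right z)
    rw [mul_one] at this
    linarith
  have h2 := hadd h h⁻¹ hc hc.inv_right
  rw [mul_inv_cancel, h1] at h2
  linarith

/-- `ip z h = τ z * φ h` for any character `φ` as in `LenData.char` (asymptotic squeeze). -/
theorem ip_eq_char (z : Γ) (φ : Γ → ℝ)
    (hadd : ∀ g h, Commute z g → Commute z h → φ (g * h) = φ g + φ h)
    (hz : φ z = L.τ z) (hle : ∀ g, Commute z g → φ g ≤ L.τ g) (h : Γ) (hc : Commute z h) :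
    L.ip z h = L.τ z * φ h := by
  apply le_antisymm
  · have h1 := L.lenTheory_char_le_ip z φ hadd hz hle h⁻¹ hc.inv_right
    rw [L.ip_inv_right z h hc, lenTheory_char_inv z φ hadd h hc] at h1
    linarith
  · exact L.lenTheory_char_le_ip z φ hadd hz hle h hc

/-- Additivity of `ip z ·` on the centraliser of `z` (the two arguments need not commute). -/
theorem ip_mul_right (z g h : Γ) (hg : Commute z g) (hh : Commute z h) :
    L.ip z (g * h) = L.ip z g + L.ip z h := by
  obtain ⟨φ, hadd, hz, hle⟩ := L.char z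
  rw [L.ip_eq_char z φ hadd hz hle _ (hg.mul_right hh), L.ip_eq_char z φ hadd hz hle _ hg,
    L.ip_eq_char z φ hadd hz hle _ hh, hadd g h hg hh]
  ring

theorem ip_mul_left (z g h : Γ) (hg : Commute z g) (hh : Commute z h) :
    L.ip (g * h) z = L.ip g z + L.ip h z := by
  rw [L.ip_comm (g * h) z, L.ip_comm g z, L.ip_comm h z]
  exact L.ip_mul_right z g h hg hh

theorem ip_one_right (z : Γ) : L.ip z 1 = 0 := by
  unfold ip
  rw [mul_one, L.tau_one]
  ring

theorem ip_pow_right (z h : Γ) (hc : Commute z h) (n : ℕ) : L.ip z (h ^ n) = n * L.ip z h := by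
  induction n with
  | zero => simp [L.ip_one_right]
  | succ n ih =>
    rw [pow_succ, L.ip_mul_right z _ _ (hc.pow_right n) hc, ih]
    push_cast
    ring

theorem ip_zpow_right (z h : Γ) (hc : Commute z h) (n : ℤ) : L.ip z (h ^ n) = n * L.ip z h := by
  cases n with
  | ofNat k =>
    simp only [Int.ofNat_eq_natCast, zpow_natCast, Int.cast_natCast]
    exact L.ip_pow_right z h hc k
  | negSucc k =>
    rw [zpow_negSucc, L.ip_inv_right z _ (hc.pow_right _), L.ip_pow_right z h hc, Int.cast_negSucc]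
    ring

/-- Two-variable quadratic formula. -/
theorem tau_zpow_mul_zpow_sq (g h : Γ) (hc : Commute g h) (m n : ℤ) :
    L.τ (g ^ m * h ^ n) ^ 2 = m ^ 2 * L.τ g ^ 2 + 2 * m * n * L.ip g h + n ^ 2 * L.τ h ^ 2 := by
  have h1 : L.τ (g ^ m * h ^ n) ^ 2
      = L.τ (g ^ m) ^ 2 + 2 * L.ip (g ^ m) (h ^ n) + L.τ (h ^ n) ^ 2 := by
    unfold ip
    ring
  have h2 : L.ip (g ^ m) (h ^ n) = m * n * L.ip g h := by
    rw [L.ip_zpow_right (g ^ m) h (hc.zpow_left m) n, L.ip_comm (g ^ m) h,
      L.ip_zpow_right h g hc.symm m, L.ip_comm h g]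
    ring
  rw [h1, h2, L.tau_zpow, L.tau_zpow, mul_pow, mul_pow, sq_abs, sq_abs]
  ring

/-- Cauchy-Schwarz. -/
theorem ip_sq_le (g h : Γ) (hc : Commute g h) : L.ip g h ^ 2 ≤ L.τ g ^ 2 * L.τ h ^ 2 := by
  obtain ⟨φ, hadd, hz, hle⟩ := L.char g
  rw [L.ip_eq_char g φ hadd hz hle h hc, mul_pow]
  apply mul_le_mul_of_nonneg_left _ (sq_nonneg _)
  have h1 := hle h hc
  have h2 := hle h⁻¹ hc.inv_right
  rw [lenTheory_char_inv g φ hadd h hc, L.inv] at h2
  apply sq_le_sq'
  · linarith
  · exact h1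

/-- conjugation by an element commuting with `z`. -/
theorem ip_conj_right (z k h : Γ) (hk : Commute z k) : L.ip z (k * h * k⁻¹) = L.ip z h := by
  have e : k * z * k⁻¹ = z := by
    rw [← hk.eq, mul_assoc, mul_inv_cancel, mul_one]
  have := L.ip_conj k z h
  rwa [e] at this

/-- braid-related elements are conjugate (explicit form). -/
theorem lenTheory_br_conj {x y : Γ} (h : Br x y) : (x * y) * x * (x * y)⁻¹ = y := by
  unfold Br at h
  rw [h]
  group

/-- braid-related elements are conjugate. -/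
theorem tau_eq_of_br {x y : Γ} (h : Br x y) : L.τ x = L.τ y := by
  have := L.conj x (x * y)
  rw [lenTheory_br_conj h] at this
  exact this.symm

/-- braid-related elements commuting with `z` have the same `ip` with `z`. -/
theorem ip_eq_of_br {z x y : Γ} (h : Br x y) (hx : Commute z x) (hy : Commute z y) :
    L.ip z x = L.ip z y := by
  have := L.ip_conj_right z (x * y) x (hx.mul_right hy)
  rw [lenTheory_br_conj h] at this
  exact this.symm

end LenData

end Claimed.Agent.R156
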