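import Claimed.Agent.R156.ToolP

/-! Row 156 / S0327: coarse paths in centralisers, bottleneck lower bound. -/

set_option autoImplicit false

namespace Claimed.Agent.R156

open Claims.C0279.ArtinCAT0

variable {Γ : Type*} [Group Γ] {X : Type*} [MetricSpace X] [MulAction Γ X]

/-- displacement of an orbit point `g • y0` by an element commuting with `g`. -/
theorem lowerBound_disp_comm (hGA : GeometricAction Γ X) (y0 : X) {s g : Γ} (h : Commute s g) :
    dist (g • y0) (s • g • y0) = dist y0 (s • y0) := by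
  rw [smul_smul, h.eq, mul_smul, dist_smul_smul hGA]

/-- distance of orbit points as a displacement. -/
theorem lowerBound_dist_inv_mul (hGA : GeometricAction Γ X) (y0 : X) (a b : Γ) :
    dist y0 ((a⁻¹ * b) • y0) = dist (a • y0) (b • y0) := by
  rw [← dist_smul_smul hGA a y0 ((a⁻¹ * b) • y0), smul_smul, mul_inv_cancel_left]

/-- Coarse path in the centraliser following a geodesic between two orbit points. -/
theorem exists_coarse_path [ProperSpace X] (hGA : GeometricAction Γ X) (y0 : X) (S : Finset Γ) :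
    ∃ D : ℝ, ∃ Sg : Set Γ, Sg.Finite ∧ ∀ g g' : Γ, (∀ s ∈ S, Commute s g) →
      (∀ s ∈ S, Commute s g') → ∃ (N : ℕ) (p : ℕ → Γ), p 0 = g ∧ p N = g' ∧
        (∀ j ≤ N, ∀ s ∈ S, Commute s (p j)) ∧ (∀ j < N, (p j)⁻¹ * p (j + 1) ∈ Sg) ∧
        ∀ j ≤ N, dist (g • y0) (p j • y0) + dist (p j • y0) (g' • y0)
          ≤ dist (g • y0) (g' • y0) + D := by
  classical
  set R : ℝ := ∑ s ∈ S, dist y0 (s • y0) with hR
  have hRs : ∀ s ∈ S, dist y0 (s • y0) ≤ R := fun s hs =>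
    Finset.single_le_sum (f := fun s => dist y0 (s • y0)) (fun _ _ => dist_nonneg) hs
  obtain ⟨D0, hD0⟩ := toolP hGA y0 S R
  have hD0nn : 0 ≤ D0 := by
    obtain ⟨g, -, hg⟩ := hD0 y0 hRs
    exact le_trans dist_nonneg hg
  refine ⟨2 * D0, {h : Γ | dist y0 (h • y0) ≤ 2 * D0 + 1}, finite_displacement hGA y0 _, ?_⟩
  intro g g' hg hg'
  obtain ⟨γ, hγ⟩ := hGA.1.1 (g • y0) (g' • y0)
  set d : ℝ := dist (g • y0) (g' • y0) with hd
  set N : ℕ := ⌈d⌉₊ + 1 with hN
  have hNpos : (0 : ℝ) < N := by rw [hN]; positivity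
  have hdN : d ≤ N := by
    have := Nat.le_ceil d
    rw [hN]; push_cast; linarith
  have htmem : ∀ j : ℕ, j ≤ N → ((j : ℝ) / N) ∈ Set.Icc (0 : ℝ) 1 := by
    intro j hj
    refine ⟨by positivity, ?_⟩
    rw [div_le_one hNpos]
    exact_mod_cast hj
  -- the approximating elements
  have hex : ∀ j : ℕ, j ≤ N → ∃ q : Γ, (∀ s ∈ S, Commute s q) ∧
      dist (γ ((j : ℝ) / N)) (q • y0) ≤ D0 := by
    intro j hj
    apply hD0
    intro s hs
    refine displacement_convex hGA s hγ ?_ ?_ (htmem j hj)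
    · rw [lowerBound_disp_comm hGA y0 (hg s hs)]; exact hRs s hs
    · rw [lowerBound_disp_comm hGA y0 (hg' s hs)]; exact hRs s hs
  let p : ℕ → Γ := fun j =>
    if j = 0 then g else if j = N then g' else
      if hj : j ≤ N then Classical.choose (hex j hj) else 1
  have hN0 : N ≠ 0 := by rw [hN]; omega
  have hp0 : p 0 = g := by simp [p]
  have hpN : p N = g' := by simp [p, hN0]
  have hp : ∀ j : ℕ, j ≤ N → (∀ s ∈ S, Commute s (p j)) ∧
      dist (γ ((j : ℝ) / N)) (p j • y0) ≤ D0 := by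
    intro j hj
    by_cases h0 : j = 0
    · subst h0
      rw [hp0]
      refine ⟨hg, ?_⟩
      simp only [Nat.cast_zero, zero_div]
      rw [hγ.1, dist_self]
      exact hD0nn
    · by_cases h1 : j = N
      · rw [h1, hpN]
        refine ⟨hg', ?_⟩
        rw [div_self hNpos.ne', hγ.2.1, dist_self]
        exact hD0nn
      · have : p j = Classical.choose (hex j hj) := by simp [p, h0, h1, hj]
        rw [this]
        exact Classical.choose_spec (hex j hj)
  refine ⟨N, p, hp0, hpN, fun j hj => (hp j hj).1, ?_, ?_⟩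
  · intro j hj
    show dist y0 (((p j)⁻¹ * p (j + 1)) • y0) ≤ 2 * D0 + 1
    rw [lowerBound_dist_inv_mul hGA]
    have h1 := (hp j hj.le).2
    have h2 := (hp (j + 1) hj).2
    have h3 : dist (γ ((j : ℝ) / N)) (γ (((j + 1 : ℕ) : ℝ) / N)) ≤ 1 := by
      rw [hγ.2.2 _ (htmem j hj.le) _ (htmem (j + 1) hj)]
      have : |(j : ℝ) / N - ((j + 1 : ℕ) : ℝ) / N| = 1 / N := by
        rw [← sub_div]
        push_cast
        rw [show (j : ℝ) - (j + 1) = -1 by ring, abs_div, abs_neg, abs_one, abs_of_pos hNpos]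
      rw [this, one_div, inv_mul_le_iff₀ hNpos, mul_one]
      exact hdN
    calc dist (p j • y0) (p (j + 1) • y0)
        ≤ dist (p j • y0) (γ ((j : ℝ) / N)) + dist (γ ((j : ℝ) / N)) (γ (((j + 1 : ℕ) : ℝ) / N))
          + dist (γ (((j + 1 : ℕ) : ℝ) / N)) (p (j + 1) • y0) := dist_triangle4 _ _ _ _
      _ ≤ D0 + 1 + D0 := by
          rw [dist_comm (p j • y0)]
          gcongr
      _ = 2 * D0 + 1 := by ring
  · intro j hj
    have h1 := (hp j hj).2
    have hl := Segment.dist_left hγ (htmem j hj)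
    have hr := Segment.dist_right hγ (htmem j hj)
    have a1 : dist (g • y0) (p j • y0) ≤ dist (g • y0) (γ ((j : ℝ) / N)) + D0 :=
      le_trans (dist_triangle _ (γ ((j : ℝ) / N)) _) (by gcongr)
    have a2 : dist (p j • y0) (g' • y0) ≤ D0 + dist (γ ((j : ℝ) / N)) (g' • y0) :=
      le_trans (dist_triangle _ (γ ((j : ℝ) / N)) _) (by rw [dist_comm (p j • y0)]; gcongr)
    rw [hl] at a1
    rw [hr] at a2
    have : (j : ℝ) / N * d + (1 - (j : ℝ) / N) * d = d := by ring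
    linarith

/-- Lower bound from a bottleneck. -/
theorem lower_bound [ProperSpace X] (hGA : GeometricAction Γ X) (y0 : X) (S : Finset Γ)
    (u v w : Γ) (hu : ∀ s ∈ S, Commute s u) (hv : ∀ s ∈ S, Commute s v)
    (hB : Bottleneck (Subgroup.centralizer (S : Set Γ)) u v w) :
    ∃ C : ℝ, ∀ n : ℕ, ∃ k : ℤ,
      dist (u ^ n • y0) (w ^ k • y0) + dist (w ^ k • y0) (v ^ n • y0)
        ≤ dist (u ^ n • y0) (v ^ n • y0) + C := by
  obtain ⟨D, Sg, hSg, hpath⟩ := exists_coarse_path hGA y0 S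
  obtain ⟨Φ, hΦ, hbn⟩ := hB Sg hSg
  obtain ⟨M, hM⟩ : ∃ M : ℝ, ∀ φ ∈ Φ, dist y0 (φ • y0) ≤ M := by
    have := (hΦ.image (fun φ : Γ => dist y0 (φ • y0))).bddAbove
    obtain ⟨M, hM⟩ := this
    exact ⟨M, fun φ hφ => hM ⟨φ, hφ, rfl⟩⟩
  refine ⟨D + 2 * M, fun n => ?_⟩
  obtain ⟨N, p, hp0, hpN, hpc, hps, hpd⟩ :=
    hpath (u ^ n) (v ^ n) (fun s hs => (hu s hs).pow_right n) (fun s hs => (hv s hs).pow_right n)
  obtain ⟨j, hj, k, φ, hφ, hpj⟩ := hbn n N p hp0 hpN
    (fun j hj => by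
      rw [Subgroup.mem_centralizer_iff]
      intro h hh
      exact (hpc j hj h (by exact_mod_cast hh)).eq) hps
  refine ⟨k, ?_⟩
  have hclose : dist (p j • y0) (w ^ k • y0) ≤ M := by
    rw [hpj, mul_smul, dist_smul_smul hGA, dist_comm]
    exact hM φ hφ
  have h1 : dist (u ^ n • y0) (w ^ k • y0) ≤ dist (u ^ n • y0) (p j • y0) + M :=
    le_trans (dist_triangle _ (p j • y0) _) (by gcongr)
  have h2 : dist (w ^ k • y0) (v ^ n • y0) ≤ M + dist (p j • y0) (v ^ n • y0) :=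
    le_trans (dist_triangle _ (p j • y0) _) (by rw [dist_comm (w ^ k • y0)]; gcongr)
  have h3 := hpd j hj
  linarith

/-- Lower bound in terms of translation lengths. -/
theorem lower_bound_tl [ProperSpace X] (hGA : GeometricAction Γ X) (y0 : X) (S : Finset Γ)
    (u v w : Γ) (hu : ∀ s ∈ S, Commute s u) (hv : ∀ s ∈ S, Commute s v)
    (hB : Bottleneck (Subgroup.centralizer (S : Set Γ)) u v w) :
    ∃ C : ℝ, ∀ n : ℕ, ∃ k : ℤ,
      tl X ((u ^ n)⁻¹ * w ^ k) + tl X ((w ^ k)⁻¹ * v ^ n) ≤ dist (u ^ n • y0) (v ^ n • y0) + C := by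
  obtain ⟨C, hC⟩ := lower_bound hGA y0 S u v w hu hv hB
  refine ⟨C, fun n => ?_⟩
  obtain ⟨k, hk⟩ := hC n
  refine ⟨k, le_trans ?_ hk⟩
  have h1 := tl_le (X := X) ((u ^ n)⁻¹ * w ^ k) y0
  have h2 := tl_le (X := X) ((w ^ k)⁻¹ * v ^ n) y0
  rw [lowerBound_dist_inv_mul hGA] at h1 h2
  exact add_le_add h1 h2

end Claimed.Agent.R156
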