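import Claimed.Agent.R156.Busemann
import Claimed.Agent.R156.LowerBound
import Claimed.Agent.R156.LenTheory

/-! Row 156 / S0327: Facts I, II and the upper bound. -/

set_option autoImplicit false

namespace Claimed.Agent.R156

open Claims.C0279.ArtinCAT0

variable {Γ : Type*} [Group Γ] {X : Type*} [MetricSpace X] [MulAction Γ X]

/-- Upper bound (G9): `d(u^k y0, v^k y0) ≤ k τ(u⁻¹ v) + C` for commuting `u, v`. -/
theorem upper_bound [ProperSpace X] [Nonempty X] (hGA : GeometricAction Γ X) (y0 : X) (u v : Γ)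
    (hc : Commute u v) :
    ∃ C : ℝ, ∀ k : ℕ, dist (u ^ k • y0) (v ^ k • y0) ≤ k * tl X (u⁻¹ * v) + C := by
  obtain ⟨C, -, hC⟩ := exists_orbit_bound hGA (u⁻¹ * v) y0
  refine ⟨C, fun k => ?_⟩
  have h1 : (u⁻¹ * v) ^ k = (u ^ k)⁻¹ * v ^ k := by
    rw [(hc.inv_left).mul_pow k, inv_pow]
  have h2 := (abs_le.1 (hC k)).2
  rw [h1, lowerBound_dist_inv_mul hGA] at h2
  linarith

/-- quadratic formula for `tl`, in the shape in which `lower_bound_tl` produces it. -/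
theorem facts_tl_sq [ProperSpace X] [Nonempty X] (hGA : GeometricAction Γ X) (g h : Γ)
    (hc : Commute g h) (m n : ℤ) :
    tl X ((g ^ m)⁻¹ * h ^ n) ^ 2
      = m ^ 2 * tl X g ^ 2 - 2 * m * n * (lenDataOfAction hGA).ip g h + n ^ 2 * tl X h ^ 2 := by
  have := (lenDataOfAction hGA).tau_zpow_mul_zpow_sq g h hc (-m) n
  rw [zpow_neg] at this
  have e : (lenDataOfAction hGA).τ = tl X := rfl
  rw [e] at this
  rw [this]
  push_cast
  ring

/-- comparison of a nonnegative number with a multiple of a square root. -/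
theorem facts_le_of_sq {a t D : ℝ} (ha : 0 ≤ a) (ht : 0 ≤ t)
    (h : 0 ≤ D → a ^ 2 * D ≤ t ^ 2) : a * Real.sqrt D ≤ t := by
  rcases le_or_gt 0 D with hD | hD
  · have h1 : (a * Real.sqrt D) ^ 2 ≤ t ^ 2 := by
      rw [mul_pow, Real.sq_sqrt hD]; exact h hD
    exact (pow_le_pow_iff_left₀ (by positivity) ht (two_ne_zero)).1 h1
  · rw [Real.sqrt_eq_zero_of_nonpos hD.le, mul_zero]; exact ht

theorem facts_centralizer_eq [DecidableEq Γ] (S : Finset Γ) (z : Γ) :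
    Subgroup.centralizer ((S : Set Γ) ∪ {z})
      = Subgroup.centralizer ((insert z S : Finset Γ) : Set Γ) := by
  rw [Finset.coe_insert, Set.union_singleton]

/-- FACT I in general form. `l = τ x = τ x'`, `τ z = 6 c`, `ip x z = ip x' z = 6 c^2`. -/
theorem fact_one [ProperSpace X] [Nonempty X] (hGA : GeometricAction Γ X) (y0 : X)
    (S : Finset Γ) (x x' z : Γ) (l c : ℝ)
    (hSx : ∀ s ∈ S, Commute s x) (hSx' : ∀ s ∈ S, Commute s x')
    (hxz : Commute x z) (hx'z : Commute x' z)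
    (hl : tl X x = l) (hl' : tl X x' = l) (hz : tl X z = 6 * c)
    (hip : (lenDataOfAction hGA).ip x z = 6 * c ^ 2)
    (hip' : (lenDataOfAction hGA).ip x' z = 6 * c ^ 2)
    (hB : Bottleneck (Subgroup.centralizer ((S : Set Γ) ∪ {z})) x x' z) :
    ∃ C : ℝ, ∀ n : ℕ, 2 * n * Real.sqrt (l ^ 2 - c ^ 2) - C ≤ dist (x ^ n • y0) (x' ^ n • y0) := by
  classical
  rw [facts_centralizer_eq] at hB
  obtain ⟨C, hC⟩ := lower_bound_tl hGA y0 (insert z S) x x' z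
    (by
      intro s hs
      rcases Finset.mem_insert.1 hs with rfl | hs
      · exact hxz.symm
      · exact hSx s hs)
    (by
      intro s hs
      rcases Finset.mem_insert.1 hs with rfl | hs
      · exact hx'z.symm
      · exact hSx' s hs) hB
  refine ⟨C, fun n => ?_⟩
  obtain ⟨k, hk⟩ := hC n
  have e1 : tl X ((x ^ n)⁻¹ * z ^ k) ^ 2
      = (n : ℝ) ^ 2 * l ^ 2 - 2 * n * k * (6 * c ^ 2) + (k : ℝ) ^ 2 * (6 * c) ^ 2 := by
    have := facts_tl_sq hGA x z hxz (n : ℤ) k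
    rw [zpow_natCast, hl, hz, hip] at this
    rw [this]; push_cast; ring
  have e2 : tl X ((z ^ k)⁻¹ * x' ^ n) ^ 2
      = (n : ℝ) ^ 2 * l ^ 2 - 2 * n * k * (6 * c ^ 2) + (k : ℝ) ^ 2 * (6 * c) ^ 2 := by
    have := facts_tl_sq hGA z x' hx'z.symm k (n : ℤ)
    rw [zpow_natCast, hl', hz, (lenDataOfAction hGA).ip_comm, hip'] at this
    rw [this]; push_cast; ring
  have b1 : (n : ℝ) * Real.sqrt (l ^ 2 - c ^ 2) ≤ tl X ((x ^ n)⁻¹ * z ^ k) := by
    refine facts_le_of_sq (Nat.cast_nonneg n) (tl_nonneg _) (fun _ => ?_)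
    rw [e1]
    nlinarith [sq_nonneg (6 * c * k - n * c)]
  have b2 : (n : ℝ) * Real.sqrt (l ^ 2 - c ^ 2) ≤ tl X ((z ^ k)⁻¹ * x' ^ n) := by
    refine facts_le_of_sq (Nat.cast_nonneg n) (tl_nonneg _) (fun _ => ?_)
    rw [e2]
    nlinarith [sq_nonneg (6 * c * k - n * c)]
  linarith

/-- the key estimate of Fact II. -/
theorem facts_two_aux {l c t : ℝ} (hlpos : 0 < l) (hc0 : 0 ≤ c) (ht : 0 ≤ t) (k : ℕ) (j : ℤ)
    (e : t ^ 2 = (k : ℝ) ^ 2 * (6 * c) ^ 2 - 2 * k * j * (6 * c ^ 2) + (j : ℝ) ^ 2 * l ^ 2) :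
    (k : ℝ) * (6 * (c * Real.sqrt (l ^ 2 - c ^ 2) / l)) ≤ t := by
  have h : (k : ℝ) * (6 * (c * Real.sqrt (l ^ 2 - c ^ 2) / l))
      = ((k : ℝ) * 6 * c / l) * Real.sqrt (l ^ 2 - c ^ 2) := by ring
  rw [h]
  refine facts_le_of_sq (by positivity) ht (fun _ => ?_)
  rw [e]
  have h2 : ((k : ℝ) * 6 * c / l) ^ 2 * (l ^ 2 - c ^ 2)
      = (k : ℝ) ^ 2 * (6 * c) ^ 2 - (6 * k * c ^ 2 / l) ^ 2 := by
    field_simp
  have h3 : (2 : ℝ) * k * j * (6 * c ^ 2) = 2 * (j * l) * (6 * k * c ^ 2 / l) := by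
    field_simp
  rw [h2, h3]
  nlinarith [sq_nonneg ((j : ℝ) * l - 6 * k * c ^ 2 / l)]

/-- FACT II in general form. -/
theorem fact_two [ProperSpace X] [Nonempty X] (hGA : GeometricAction Γ X) (y0 : X)
    (S : Finset Γ) (x z z' : Γ) (l c c' : ℝ) (hlpos : 0 < l) (hc0 : 0 ≤ c) (hc0' : 0 ≤ c')
    (hSz : ∀ s ∈ S, Commute s z) (hSz' : ∀ s ∈ S, Commute s z')
    (hxz : Commute x z) (hxz' : Commute x z')
    (hl : tl X x = l) (hz : tl X z = 6 * c) (hz' : tl X z' = 6 * c')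
    (hip : (lenDataOfAction hGA).ip x z = 6 * c ^ 2)
    (hip' : (lenDataOfAction hGA).ip x z' = 6 * c' ^ 2)
    (hB : Bottleneck (Subgroup.centralizer ((S : Set Γ) ∪ {x})) z z' x) :
    ∃ C : ℝ, ∀ k : ℕ,
      k * (6 * (c * Real.sqrt (l ^ 2 - c ^ 2) / l + c' * Real.sqrt (l ^ 2 - c' ^ 2) / l)) - C
        ≤ dist (z ^ k • y0) (z' ^ k • y0) := by
  classical
  rw [facts_centralizer_eq] at hB
  obtain ⟨C, hC⟩ := lower_bound_tl hGA y0 (insert x S) z z' x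
    (by
      intro s hs
      rcases Finset.mem_insert.1 hs with rfl | hs
      · exact hxz
      · exact hSz s hs)
    (by
      intro s hs
      rcases Finset.mem_insert.1 hs with rfl | hs
      · exact hxz'
      · exact hSz' s hs) hB
  refine ⟨C, fun k => ?_⟩
  obtain ⟨j, hj⟩ := hC k
  have e1 : tl X ((z ^ k)⁻¹ * x ^ j) ^ 2
      = (k : ℝ) ^ 2 * (6 * c) ^ 2 - 2 * k * j * (6 * c ^ 2) + (j : ℝ) ^ 2 * l ^ 2 := by
    have := facts_tl_sq hGA z x hxz.symm (k : ℤ) j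
    rw [zpow_natCast, hl, hz, (lenDataOfAction hGA).ip_comm, hip] at this
    rw [this]; push_cast; ring
  have e2 : tl X ((x ^ j)⁻¹ * z' ^ k) ^ 2
      = (k : ℝ) ^ 2 * (6 * c') ^ 2 - 2 * k * j * (6 * c' ^ 2) + (j : ℝ) ^ 2 * l ^ 2 := by
    have := facts_tl_sq hGA x z' hxz' j (k : ℤ)
    rw [zpow_natCast, hl, hz', hip'] at this
    rw [this]; push_cast; ring
  have b1 := facts_two_aux hlpos hc0 (tl_nonneg _) k j e1
  have b2 := facts_two_aux hlpos hc0' (tl_nonneg _) k j e2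
  have : (k : ℝ) * (6 * (c * Real.sqrt (l ^ 2 - c ^ 2) / l + c' * Real.sqrt (l ^ 2 - c' ^ 2) / l))
      = (k : ℝ) * (6 * (c * Real.sqrt (l ^ 2 - c ^ 2) / l))
        + (k : ℝ) * (6 * (c' * Real.sqrt (l ^ 2 - c' ^ 2) / l)) := by ring
  rw [this]
  linarith

/-- `τ (x⁻⁶ z) = 6 μ`. -/
theorem tl_x6z [ProperSpace X] [Nonempty X] (hGA : GeometricAction Γ X) (x z : Γ) (l c : ℝ)
    (hxz : Commute x z) (hl : tl X x = l) (hz : tl X z = 6 * c)
    (hip : (lenDataOfAction hGA).ip x z = 6 * c ^ 2) :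
    tl X ((x ^ 6)⁻¹ * z) = 6 * Real.sqrt (l ^ 2 - c ^ 2) := by
  have e : tl X ((x ^ 6)⁻¹ * z) ^ 2 = 6 ^ 2 * (l ^ 2 - c ^ 2) := by
    have := facts_tl_sq hGA x z hxz 6 1
    rw [zpow_one, hl, hz, hip] at this
    have h6 : x ^ (6 : ℤ) = x ^ 6 := by
      exact_mod_cast zpow_natCast x 6
    rw [h6] at this
    rw [this]; push_cast; ring
  have h0 : 0 ≤ tl X ((x ^ 6)⁻¹ * z) := tl_nonneg _
  rw [← Real.sqrt_sq h0, e, Real.sqrt_mul (by positivity), Real.sqrt_sq (by norm_num)]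

end Claimed.Agent.R156
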