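import Claimed.Agent.R156.Cat0Basic

/-! Row 156 / S0327: the analytic lemmas of the final step. -/

set_option autoImplicit false

namespace Claimed.Agent.R156

open Claims.C0279.ArtinCAT0

variable {X : Type*} [MetricSpace X]

/-- auxiliary: the distance from the apex of a nearly degenerate isosceles triangle to the
midpoint of its base. -/
theorem hexagon_aux {A C a b c x : ℝ} (hC0 : 0 ≤ C) (hA : 0 ≤ A) (ha0 : 0 ≤ a) (hb0 : 0 ≤ b)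
    
    (ha : a ≤ A + C) (hb : b ≤ A + C) (hc : 2 * A - C ≤ c)
    (hx : x ^ 2 ≤ (a ^ 2 + b ^ 2) / 2 - c ^ 2 / 4) : x ≤ Real.sqrt (3 * C * (A + C)) := by
  apply Real.le_sqrt_of_sq_le
  have h1 : a ^ 2 ≤ (A + C) ^ 2 := pow_le_pow_left₀ ha0 ha 2
  have h2 : b ^ 2 ≤ (A + C) ^ 2 := pow_le_pow_left₀ hb0 hb 2
  by_cases hh : 0 ≤ 2 * A - C
  · have h3 : (2 * A - C) ^ 2 ≤ c ^ 2 := pow_le_pow_left₀ hh hc 2
    nlinarith [mul_nonneg hC0 hA, mul_nonneg hC0 hC0]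
  · push Not at hh
    have h3 : 0 ≤ c ^ 2 := by positivity
    nlinarith [mul_nonneg hC0 hA, mul_nonneg hC0 hC0]

/-- (G10) for fixed `k`: pure CAT(0) geometry of six points. -/
theorem hexagon_step (hC : CAT0 X) (P Q R U V W : X) (A1 A2 A3 C : ℝ) (hC0 : 0 ≤ C)
    (hA1 : 0 ≤ A1) (hA3 : 0 ≤ A3)
    (hPU : dist P U ≤ A1 + C) (hQU : dist Q U ≤ A1 + C) (hPQ : 2 * A1 - C ≤ dist P Q)
    (hPV : dist P V ≤ A3 + C) (hRV : dist R V ≤ A3 + C) (hPR : 2 * A3 - C ≤ dist P R)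
    (hQW : dist Q W ≤ A2 + C) (hRW : dist R W ≤ A2 + C) :
    dist U V ≤ A2 + C + Real.sqrt (3 * C * (A1 + C)) + Real.sqrt (3 * C * (A3 + C)) := by
  obtain ⟨m, m', hm, hm', hmm⟩ := exists_two_mid hC P Q R
  have h1 : dist U m ≤ Real.sqrt (3 * C * (A1 + C)) :=
    hexagon_aux hC0 hA1 dist_nonneg dist_nonneg
      (by rw [dist_comm]; exact hPU) (by rw [dist_comm]; exact hQU) hPQ (hm U)
  have h2 : dist V m' ≤ Real.sqrt (3 * C * (A3 + C)) :=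
    hexagon_aux hC0 hA3 dist_nonneg dist_nonneg
      (by rw [dist_comm]; exact hPV) (by rw [dist_comm]; exact hRV) hPR (hm' V)
  have h3 : dist Q R ≤ dist Q W + dist R W := by
    have := dist_triangle Q W R
    rwa [dist_comm W R] at this
  have h4 : dist U V ≤ dist U m + dist m m' + dist V m' := by
    have a1 := dist_triangle U m V
    have a2 := dist_triangle m m' V
    rw [dist_comm m' V] at a2
    linarith
  linarith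

theorem asymptotic_aux (C m : ℝ) (n : ℕ) (hn : 1 ≤ n) :
    Real.sqrt (3 * C * (((n ^ 2 : ℕ) : ℝ) * m + C)) ≤ n * Real.sqrt (3 * |C| * (|m| + |C|)) := by
  have hn1 : (1 : ℝ) ≤ n := by exact_mod_cast hn
  have hn2 : (1 : ℝ) ≤ (n : ℝ) ^ 2 := by nlinarith
  have e : (n : ℝ) * Real.sqrt (3 * |C| * (|m| + |C|))
      = Real.sqrt ((n : ℝ) ^ 2 * (3 * |C| * (|m| + |C|))) := by
    rw [Real.sqrt_mul (by positivity) (3 * |C| * (|m| + |C|)), Real.sqrt_sq (by positivity)]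
  rw [e]
  apply Real.sqrt_le_sqrt
  push_cast
  have h1 : C * ((n : ℝ) ^ 2 * m + C) ≤ |C| * |(n : ℝ) ^ 2 * m + C| := by
    rw [← abs_mul]; exact le_abs_self _
  have h2 : |(n : ℝ) ^ 2 * m + C| ≤ (n : ℝ) ^ 2 * |m| + |C| := by
    calc |(n : ℝ) ^ 2 * m + C| ≤ |(n : ℝ) ^ 2 * m| + |C| := abs_add_le _ _
      _ = (n : ℝ) ^ 2 * |m| + |C| := by rw [abs_mul, abs_of_nonneg (by positivity)]
  have h3 : (n : ℝ) ^ 2 * |m| + |C| ≤ (n : ℝ) ^ 2 * (|m| + |C|) := by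
    nlinarith [abs_nonneg C]
  have h4 : |C| * |(n : ℝ) ^ 2 * m + C| ≤ |C| * ((n : ℝ) ^ 2 * (|m| + |C|)) :=
    mul_le_mul_of_nonneg_left (h2.trans h3) (abs_nonneg _)
  nlinarith

/-- linear growth beats square roots. -/
theorem asymptotic_le {α β C m1 m3 : ℝ}
    (h : ∀ k : ℕ, k * α - C ≤ k * β + C + Real.sqrt (3 * C * (k * m1 + C))
      + Real.sqrt (3 * C * (k * m3 + C))) : α ≤ β := by
  by_contra hcon
  push Not at hcon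
  obtain ⟨δ, hδ⟩ : ∃ δ : ℝ, δ = α - β := ⟨_, rfl⟩
  have hδ0 : 0 < δ := by rw [hδ]; linarith
  obtain ⟨K, hK⟩ : ∃ K : ℝ, K = Real.sqrt (3 * |C| * (|m1| + |C|))
      + Real.sqrt (3 * |C| * (|m3| + |C|)) := ⟨_, rfl⟩
  have hK0 : 0 ≤ K := by rw [hK]; positivity
  obtain ⟨n, hn⟩ := exists_nat_ge ((K + 2 * |C| + 1) / δ + 1)
  have hpos : 0 ≤ (K + 2 * |C| + 1) / δ := by positivity
  have hn1R : (1 : ℝ) ≤ n := by linarith
  have hn1 : 1 ≤ n := by exact_mod_cast hn1R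
  have hnδ : K + 2 * |C| + 1 ≤ n * δ := by
    have : (K + 2 * |C| + 1) / δ ≤ n := by linarith
    rwa [div_le_iff₀ hδ0] at this
  have h1 := h (n ^ 2)
  have a1 := asymptotic_aux C m1 n hn1
  have a3 := asymptotic_aux C m3 n hn1
  have h2 : ((n ^ 2 : ℕ) : ℝ) * δ ≤ 2 * C + n * K := by
    rw [hK, hδ]; linarith
  push_cast at h2
  have h3 : (n : ℝ) * (K + 2 * |C| + 1) ≤ n * (n * δ) :=
    mul_le_mul_of_nonneg_left hnδ (by positivity)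
  have h4 : 2 * |C| + 1 ≤ (n : ℝ) * (2 * |C| + 1) := by
    nlinarith [abs_nonneg C]
  have h5 : C ≤ |C| := le_abs_self C
  nlinarith

/-- final arithmetic. -/
theorem final_arith (l c0 c1 c2 : ℝ) (hl : 0 < l) (h0 : 0 ≤ c0) (h1 : 0 ≤ c1) (h2 : 0 ≤ c2)
    (b0 : 6 * l ^ 2 ≤ 19 * c0 ^ 2) (b1 : 6 * l ^ 2 ≤ 19 * c1 ^ 2) (b2 : 6 * l ^ 2 ≤ 19 * c2 ^ 2)
    (m0 : 0 < Real.sqrt (l ^ 2 - c0 ^ 2))
    (r0 : c0 * Real.sqrt (l ^ 2 - c0 ^ 2) / l + c2 * Real.sqrt (l ^ 2 - c2 ^ 2) / l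
      ≤ Real.sqrt (l ^ 2 - c1 ^ 2))
    (r1 : c1 * Real.sqrt (l ^ 2 - c1 ^ 2) / l + c0 * Real.sqrt (l ^ 2 - c0 ^ 2) / l
      ≤ Real.sqrt (l ^ 2 - c2 ^ 2))
    (r2 : c2 * Real.sqrt (l ^ 2 - c2 ^ 2) / l + c1 * Real.sqrt (l ^ 2 - c1 ^ 2) / l
      ≤ Real.sqrt (l ^ 2 - c0 ^ 2)) : False := by
  have key : ∀ c : ℝ, 0 ≤ c → 6 * l ^ 2 ≤ 19 * c ^ 2 → l < 2 * c := by
    intro c hc hb
    by_contra hcon
    push Not at hcon
    have : (2 * c) ^ 2 ≤ l ^ 2 := pow_le_pow_left₀ (by positivity) hcon 2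
    nlinarith [pow_pos hl 2]
  obtain ⟨s0, hs0⟩ : ∃ s : ℝ, s = Real.sqrt (l ^ 2 - c0 ^ 2) := ⟨_, rfl⟩
  obtain ⟨s1, hs1⟩ : ∃ s : ℝ, s = Real.sqrt (l ^ 2 - c1 ^ 2) := ⟨_, rfl⟩
  obtain ⟨s2, hs2⟩ : ∃ s : ℝ, s = Real.sqrt (l ^ 2 - c2 ^ 2) := ⟨_, rfl⟩
  have p1 : 0 ≤ s1 := by rw [hs1]; positivity
  have p2 : 0 ≤ s2 := by rw [hs2]; positivity
  rw [← hs0, ← hs1, ← hs2] at r0 r1 r2
  rw [← hs0] at m0
  have k0 := key c0 h0 b0
  have k1 := key c1 h1 b1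
  have k2 := key c2 h2 b2
  rw [← add_div, div_le_iff₀ hl] at r0 r1 r2
  nlinarith [mul_pos m0 (sub_pos.mpr k0), mul_nonneg p1 (sub_pos.mpr k1).le,
    mul_nonneg p2 (sub_pos.mpr k2).le]

end Claimed.Agent.R156
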