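import Claimed.Agent.R156.Facts
import Claimed.Agent.R156.FinalArith
import Claimed.Agent.R156.BlockBound

/-! Row 156 / S0327: a `Config` is incompatible with a geometric action. -/

set_option autoImplicit false

namespace Claimed.Agent.R156

open Claims.C0279.ArtinCAT0

variable {Γ : Type*} [Group Γ] {X : Type*} [MetricSpace X] [MulAction Γ X]

/-- upper bound in the form used in `rot_ineq`. -/
theorem final_upper [ProperSpace X] [Nonempty X] (hGA : GeometricAction Γ X) (y0 : X)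
    (x z : Γ) (l c : ℝ) (hxz : Commute x z) (hl : tl X x = l) (hz : tl X z = 6 * c)
    (hip : (lenDataOfAction hGA).ip x z = 6 * c ^ 2) :
    ∃ C : ℝ, ∀ k : ℕ, dist (x ^ (6 * k) • y0) (z ^ k • y0)
      ≤ k * (6 * Real.sqrt (l ^ 2 - c ^ 2)) + C := by
  obtain ⟨C, hC⟩ := upper_bound hGA y0 (x ^ 6) z (hxz.pow_left 6)
  refine ⟨C, fun k => ?_⟩
  have := hC k
  rw [tl_x6z hGA x z l c hxz hl hz hip, ← pow_mul] at this
  exact this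

/-- One rotation of the hexagon inequality: `h_0 + h_2 ≤ μ_1`.
`x0,x1,x2` = triangle generators, `z0=(x0x1)^3, z1=(x1x2)^3, z2=(x2x0)^3`. -/
theorem rot_ineq [ProperSpace X] [Nonempty X] (hGA : GeometricAction Γ X)
    (S : Finset Γ) (x0 x1 x2 z0 z1 z2 : Γ) (l c0 c1 c2 : ℝ) (hlpos : 0 < l)
    (hc0 : 0 ≤ c0) (hc2 : 0 ≤ c2)
    (hS0 : ∀ s ∈ S, Commute s x0) (hS1 : ∀ s ∈ S, Commute s x1) (hS2 : ∀ s ∈ S, Commute s x2)
    (hSz0 : ∀ s ∈ S, Commute s z0) (hSz2 : ∀ s ∈ S, Commute s z2)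
    (h00 : Commute x0 z0) (h10 : Commute x1 z0) (h11 : Commute x1 z1) (h21 : Commute x2 z1)
    (h22 : Commute x2 z2) (h02 : Commute x0 z2)
    (hl0 : tl X x0 = l) (hl1 : tl X x1 = l) (hl2 : tl X x2 = l)
    (hz0 : tl X z0 = 6 * c0) (hz1 : tl X z1 = 6 * c1) (hz2 : tl X z2 = 6 * c2)
    (i00 : (lenDataOfAction hGA).ip x0 z0 = 6 * c0 ^ 2)
    (i10 : (lenDataOfAction hGA).ip x1 z0 = 6 * c0 ^ 2)
    (i11 : (lenDataOfAction hGA).ip x1 z1 = 6 * c1 ^ 2)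
    (i21 : (lenDataOfAction hGA).ip x2 z1 = 6 * c1 ^ 2)
    (i22 : (lenDataOfAction hGA).ip x2 z2 = 6 * c2 ^ 2)
    (i02 : (lenDataOfAction hGA).ip x0 z2 = 6 * c2 ^ 2)
    (hB0 : Bottleneck (Subgroup.centralizer ((S : Set Γ) ∪ {z0})) x0 x1 z0)
    (hB2 : Bottleneck (Subgroup.centralizer ((S : Set Γ) ∪ {z2})) x2 x0 z2)
    (hBx : Bottleneck (Subgroup.centralizer ((S : Set Γ) ∪ {x0})) z0 z2 x0) :
    c0 * Real.sqrt (l ^ 2 - c0 ^ 2) / l + c2 * Real.sqrt (l ^ 2 - c2 ^ 2) / l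
      ≤ Real.sqrt (l ^ 2 - c1 ^ 2) := by
  obtain ⟨y0⟩ := (inferInstance : Nonempty X)
  obtain ⟨C1, hPU⟩ := final_upper hGA y0 x0 z0 l c0 h00 hl0 hz0 i00
  obtain ⟨C2, hQU⟩ := final_upper hGA y0 x1 z0 l c0 h10 hl1 hz0 i10
  obtain ⟨C3, hPV⟩ := final_upper hGA y0 x0 z2 l c2 h02 hl0 hz2 i02
  obtain ⟨C4, hRV⟩ := final_upper hGA y0 x2 z2 l c2 h22 hl2 hz2 i22
  obtain ⟨C5, hQW⟩ := final_upper hGA y0 x1 z1 l c1 h11 hl1 hz1 i11
  obtain ⟨C6, hRW⟩ := final_upper hGA y0 x2 z1 l c1 h21 hl2 hz1 i21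
  obtain ⟨C7, hPQ⟩ := fact_one hGA y0 S x0 x1 z0 l c0 hS0 hS1 h00 h10 hl0 hl1 hz0 i00 i10 hB0
  obtain ⟨C8, hRP⟩ := fact_one hGA y0 S x2 x0 z2 l c2 hS2 hS0 h22 h02 hl2 hl0 hz2 i22 i02 hB2
  obtain ⟨C9, hUV⟩ := fact_two hGA y0 S x0 z0 z2 l c0 c2 hlpos hc0 hc2 hSz0 hSz2 h00 h02
    hl0 hz0 hz2 i00 i02 hBx
  obtain ⟨C, hCdef⟩ : ∃ C : ℝ, C = |C1| + |C2| + |C3| + |C4| + |C5| + |C6| + |C7| + |C8| + |C9| :=
    ⟨_, rfl⟩
  have a1 := abs_nonneg C1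
  have a2 := abs_nonneg C2
  have a3 := abs_nonneg C3
  have a4 := abs_nonneg C4
  have a5 := abs_nonneg C5
  have a6 := abs_nonneg C6
  have a7 := abs_nonneg C7
  have a8 := abs_nonneg C8
  have a9 := abs_nonneg C9
  have b1 := le_abs_self C1
  have b2 := le_abs_self C2
  have b3 := le_abs_self C3
  have b4 := le_abs_self C4
  have b5 := le_abs_self C5
  have b6 := le_abs_self C6
  have b7 := le_abs_self C7
  have b8 := le_abs_self C8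
  have b9 := le_abs_self C9
  have hC0 : 0 ≤ C := by rw [hCdef]; positivity
  have key : 6 * (c0 * Real.sqrt (l ^ 2 - c0 ^ 2) / l + c2 * Real.sqrt (l ^ 2 - c2 ^ 2) / l)
      ≤ 6 * Real.sqrt (l ^ 2 - c1 ^ 2) := by
    apply asymptotic_le (C := C) (m1 := 6 * Real.sqrt (l ^ 2 - c0 ^ 2))
      (m3 := 6 * Real.sqrt (l ^ 2 - c2 ^ 2))
    intro k
    have hk : (0 : ℝ) ≤ k := Nat.cast_nonneg k
    have hstep := hexagon_step hGA.1 (x0 ^ (6 * k) • y0) (x1 ^ (6 * k) • y0) (x2 ^ (6 * k) • y0)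
      (z0 ^ k • y0) (z2 ^ k • y0) (z1 ^ k • y0)
      (k * (6 * Real.sqrt (l ^ 2 - c0 ^ 2))) (k * (6 * Real.sqrt (l ^ 2 - c1 ^ 2)))
      (k * (6 * Real.sqrt (l ^ 2 - c2 ^ 2))) C hC0 (by positivity) (by positivity)
      (by have := hPU k; linarith) (by have := hQU k; linarith)
      (by have := hPQ (6 * k); push_cast at this; linarith)
      (by have := hPV k; linarith) (by have := hRV k; linarith)
      (by have := hRP (6 * k); rw [dist_comm] at this; push_cast at this; linarith)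
      (by have := hQW k; linarith) (by have := hRW k; linarith)
    have := hUV k
    linarith
  linarith

/-- the three-element form of `Config.false`. -/
theorem final_core [ProperSpace X] [Nonempty X] (hGA : GeometricAction Γ X)
    (S : Finset Γ) (x0 x1 x2 : Γ)
    (ch0 : ∃ σ : ℕ → Γ, σ 0 = x0 ∧ σ 1 = x1 ∧ BraidRel σ 39)
    (ch1 : ∃ σ : ℕ → Γ, σ 0 = x1 ∧ σ 1 = x2 ∧ BraidRel σ 39)
    (ch2 : ∃ σ : ℕ → Γ, σ 0 = x2 ∧ σ 1 = x0 ∧ BraidRel σ 39)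
    (hS0 : ∀ s ∈ S, Commute s x0) (hS1 : ∀ s ∈ S, Commute s x1) (hS2 : ∀ s ∈ S, Commute s x2)
    (hB0 : Bottleneck (Subgroup.centralizer ((S : Set Γ) ∪ {(x0 * x1) ^ 3})) x0 x1 ((x0 * x1) ^ 3))
    (hB1 : Bottleneck (Subgroup.centralizer ((S : Set Γ) ∪ {(x1 * x2) ^ 3})) x1 x2 ((x1 * x2) ^ 3))
    (hB2 : Bottleneck (Subgroup.centralizer ((S : Set Γ) ∪ {(x2 * x0) ^ 3})) x2 x0 ((x2 * x0) ^ 3))
    (hX0 : Bottleneck (Subgroup.centralizer ((S : Set Γ) ∪ {x0})) ((x0 * x1) ^ 3)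
      ((x2 * x0) ^ 3) x0)
    (hX1 : Bottleneck (Subgroup.centralizer ((S : Set Γ) ∪ {x1})) ((x1 * x2) ^ 3)
      ((x0 * x1) ^ 3) x1)
    (hX2 : Bottleneck (Subgroup.centralizer ((S : Set Γ) ∪ {x2})) ((x2 * x0) ^ 3)
      ((x1 * x2) ^ 3) x2)
    (hinf : ¬ IsOfFinOrder (x0 ^ 6 * ((x0 * x1) ^ 3)⁻¹)) : False := by
  obtain ⟨σ0, e00, e01, hσ0⟩ := ch0
  obtain ⟨σ1, e10, e11, hσ1⟩ := ch1
  obtain ⟨σ2, e20, e21, hσ2⟩ := ch2
  have bb0 := block_bound (lenDataOfAction hGA) hσ0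
  have bb1 := block_bound (lenDataOfAction hGA) hσ1
  have bb2 := block_bound (lenDataOfAction hGA) hσ2
  have br0 : Br (σ0 0) (σ0 1) := hσ0.br 0 (by norm_num)
  have br1 : Br (σ1 0) (σ1 1) := hσ1.br 0 (by norm_num)
  have br2 : Br (σ2 0) (σ2 1) := hσ2.br 0 (by norm_num)
  rw [e00, e01] at bb0 br0
  rw [e10, e11] at bb1 br1
  rw [e20, e21] at bb2 br2
  obtain ⟨b0, i00, i10⟩ := bb0
  obtain ⟨b1, i11, i21⟩ := bb1
  obtain ⟨b2, i22, i02⟩ := bb2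
  have hτ : ∀ g : Γ, (lenDataOfAction hGA).τ g = tl X g := fun _ => rfl
  rw [hτ, hτ] at b0 b1 b2
  rw [hτ] at i00 i10 i11 i21 i22 i02
  obtain ⟨l, hl0⟩ : ∃ l, tl X x0 = l := ⟨_, rfl⟩
  have hl1 : tl X x1 = l := by
    rw [← hl0]; exact ((lenDataOfAction hGA).tau_eq_of_br br0).symm
  have hl2 : tl X x2 = l := by
    rw [← hl1]; exact ((lenDataOfAction hGA).tau_eq_of_br br1).symm
  obtain ⟨c0, hc0⟩ : ∃ c, c = tl X ((x0 * x1) ^ 3) / 6 := ⟨_, rfl⟩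
  obtain ⟨c1, hc1⟩ : ∃ c, c = tl X ((x1 * x2) ^ 3) / 6 := ⟨_, rfl⟩
  obtain ⟨c2, hc2⟩ : ∃ c, c = tl X ((x2 * x0) ^ 3) / 6 := ⟨_, rfl⟩
  rw [← hc0] at b0 i00 i10
  rw [← hc1] at b1 i11 i21
  rw [← hc2] at b2 i22 i02
  rw [hl0] at b0
  rw [hl1] at b1
  rw [hl2] at b2
  have hz0 : tl X ((x0 * x1) ^ 3) = 6 * c0 := by rw [hc0]; ring
  have hz1 : tl X ((x1 * x2) ^ 3) = 6 * c1 := by rw [hc1]; ring
  have hz2 : tl X ((x2 * x0) ^ 3) = 6 * c2 := by rw [hc2]; ring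
  have n0 : 0 ≤ c0 := by rw [hc0]; exact div_nonneg (tl_nonneg _) (by norm_num)
  have n1 : 0 ≤ c1 := by rw [hc1]; exact div_nonneg (tl_nonneg _) (by norm_num)
  have n2 : 0 ≤ c2 := by rw [hc2]; exact div_nonneg (tl_nonneg _) (by norm_num)
  have h00 : Commute x0 ((x0 * x1) ^ 3) := commute_cube_left br0
  have h10 : Commute x1 ((x0 * x1) ^ 3) := commute_cube_right br0
  have h11 : Commute x1 ((x1 * x2) ^ 3) := commute_cube_left br1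
  have h21 : Commute x2 ((x1 * x2) ^ 3) := commute_cube_right br1
  have h22 : Commute x2 ((x2 * x0) ^ 3) := commute_cube_left br2
  have h02 : Commute x0 ((x2 * x0) ^ 3) := commute_cube_right br2
  have hSz0 : ∀ s ∈ S, Commute s ((x0 * x1) ^ 3) := fun s hs =>
    ((hS0 s hs).mul_right (hS1 s hs)).pow_right 3
  have hSz1 : ∀ s ∈ S, Commute s ((x1 * x2) ^ 3) := fun s hs =>
    ((hS1 s hs).mul_right (hS2 s hs)).pow_right 3
  have hSz2 : ∀ s ∈ S, Commute s ((x2 * x0) ^ 3) := fun s hs =>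
    ((hS2 s hs).mul_right (hS0 s hs)).pow_right 3
  -- positivity of `μ_0`
  have hm := tl_x6z hGA x0 ((x0 * x1) ^ 3) l c0 h00 hl0 hz0 i00
  have m0 : 0 < Real.sqrt (l ^ 2 - c0 ^ 2) := by
    rcases (Real.sqrt_nonneg (l ^ 2 - c0 ^ 2)).lt_or_eq with h | h
    · exact h
    · exfalso
      rw [← h, mul_zero] at hm
      have hfin := tl_eq_zero hGA hm
      apply hinf
      have e : x0 ^ 6 * ((x0 * x1) ^ 3)⁻¹ = ((x0 ^ 6)⁻¹ * (x0 * x1) ^ 3)⁻¹ := by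
        rw [mul_inv_rev, inv_inv]
        exact ((h00.pow_left 6).inv_right).eq
      rw [e]
      exact hfin.inv
  have hlpos : 0 < l := by
    have h1 : 0 < l ^ 2 - c0 ^ 2 := Real.sqrt_pos.1 m0
    have h2 : 0 ≤ l := by rw [← hl0]; exact tl_nonneg _
    rcases h2.lt_or_eq with h | h
    · exact h
    · exfalso
      rw [← h] at h1
      nlinarith [sq_nonneg c0]
  have r0 := rot_ineq hGA S x0 x1 x2 _ _ _ l c0 c1 c2 hlpos n0 n2 hS0 hS1 hS2 hSz0 hSz2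
    h00 h10 h11 h21 h22 h02 hl0 hl1 hl2 hz0 hz1 hz2 i00 i10 i11 i21 i22 i02 hB0 hB2 hX0
  have r1 := rot_ineq hGA S x1 x2 x0 _ _ _ l c1 c2 c0 hlpos n1 n0 hS1 hS2 hS0 hSz1 hSz0
    h11 h21 h22 h02 h00 h10 hl1 hl2 hl0 hz1 hz2 hz0 i11 i21 i22 i02 i00 i10 hB1 hB0 hX1
  have r2 := rot_ineq hGA S x2 x0 x1 _ _ _ l c2 c0 c1 hlpos n2 n1 hS2 hS0 hS1 hSz2 hSz1
    h22 h02 h00 h10 h11 h21 hl2 hl0 hl1 hz2 hz0 hz1 i22 i02 i00 i10 i11 i21 hB2 hB1 hX2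
  exact final_arith l c0 c1 c2 hlpos n0 n1 n2 b0 b1 b2 m0 r0 r1 r2

/-- MAIN GEOMETRIC THEOREM. -/
theorem Config.false [ProperSpace X] [Nonempty X] (cfg : Config Γ)
    (hGA : GeometricAction Γ X) : False := by
  have ch : ∀ i : Fin 3, ∃ σ : ℕ → Γ, σ 0 = cfg.x i ∧ σ 1 = cfg.x (i + 1) ∧ BraidRel σ 39 := by
    intro i
    obtain ⟨σ, h0, h1, hbr, hcm⟩ := cfg.chain i
    exact ⟨σ, h0, h1, ⟨hbr, hcm⟩⟩
  exact final_core hGA cfg.S (cfg.x 0) (cfg.x 1) (cfg.x 2) (ch 0) (ch 1) (ch 2)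
    (fun s hs => cfg.comm s hs 0) (fun s hs => cfg.comm s hs 1) (fun s hs => cfg.comm s hs 2)
    (cfg.bn1 0) (cfg.bn1 1) (cfg.bn1 2) (cfg.bn2 0) (cfg.bn2 1) (cfg.bn2 2) (cfg.infOrder 0)

end Claimed.Agent.R156
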