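import Claimed.Agent.R156.Defs

/-! Row 156 / S0327: the auxiliary presented groups `B3` (3-strand braid group) and
`TG` (Artin group of the triangle), with their universal properties. -/

set_option autoImplicit false

namespace Claimed.Agent.R156

/-- relator of the braid relation. -/
def brRel {α : Type*} (i j : α) : FreeGroup α :=
  FreeGroup.of i * FreeGroup.of j * FreeGroup.of i *
    (FreeGroup.of j * FreeGroup.of i * FreeGroup.of j)⁻¹

theorem br_of_mem {α : Type*} {rels : Set (FreeGroup α)} {i j : α} (h : brRel i j ∈ rels) :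
    Br (PresentedGroup.of (rels := rels) i) (PresentedGroup.of j) := by
  have h1 : PresentedGroup.mk rels (brRel i j) = 1 := PresentedGroup.one_of_mem h
  unfold brRel at h1
  rw [map_mul, map_inv, mul_inv_eq_one] at h1
  simpa [Br, PresentedGroup.of] using h1

/-- three strand braid group. -/
abbrev B3 : Type := PresentedGroup ({brRel (0 : Fin 2) 1} : Set (FreeGroup (Fin 2)))

namespace B3

/-- generators. -/
def s (i : Fin 2) : B3 := PresentedGroup.of i

theorem br : Br (s 0) (s 1) := br_of_mem (Set.mem_singleton _)

/-- universal property. -/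
def lift {Γ : Type*} [Group Γ] (a b : Γ) (h : Br a b) : B3 →* Γ :=
  PresentedGroup.toGroup (f := ![a, b]) (by
    intro r hr
    rw [Set.mem_singleton_iff] at hr
    subst hr
    simp only [brRel, map_mul, map_inv, FreeGroup.lift_apply_of, Matrix.cons_val_zero,
      Matrix.cons_val_one, mul_inv_eq_one]
    exact h)

@[simp] theorem lift_s0 {Γ : Type*} [Group Γ] (a b : Γ) (h : Br a b) : lift a b h (s 0) = a := by
  simp [lift, s]

@[simp] theorem lift_s1 {Γ : Type*} [Group Γ] (a b : Γ) (h : Br a b) : lift a b h (s 1) = b := by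
  simp [lift, s]

theorem hom_ext {Γ : Type*} [Group Γ] {f g : B3 →* Γ} (h0 : f (s 0) = g (s 0))
    (h1 : f (s 1) = g (s 1)) : f = g := by
  apply PresentedGroup.ext
  intro i
  fin_cases i
  · exact h0
  · exact h1

/-- induction principle: a subgroup containing the generators is everything. -/
theorem closure_s : Subgroup.closure ({s 0, s 1} : Set B3) = ⊤ := by
  have := PresentedGroup.closure_range_of ({brRel (0 : Fin 2) 1} : Set (FreeGroup (Fin 2)))
  rw [← this]
  congr 1
  ext g
  constructor
  · rintro (rfl | rfl)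
    · exact ⟨0, rfl⟩
    · exact ⟨1, rfl⟩
  · rintro ⟨i, rfl⟩
    fin_cases i
    · left; rfl
    · right; rfl

/-- the generator of the centre. -/
def z : B3 := (s 0 * s 1) ^ 3

end B3

/-- Artin group of the triangle with labels 3 (type `A~_2`). -/
abbrev TG : Type :=
  PresentedGroup (Set.range (fun i : Fin 3 => brRel i (i + 1)) : Set (FreeGroup (Fin 3)))

namespace TG

/-- generators. -/
def x (i : Fin 3) : TG := PresentedGroup.of i

theorem br (i : Fin 3) : Br (x i) (x (i + 1)) := br_of_mem (Set.mem_range_self i)

/-- universal property. -/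
def lift {Γ : Type*} [Group Γ] (f : Fin 3 → Γ) (h : ∀ i, Br (f i) (f (i + 1))) : TG →* Γ :=
  PresentedGroup.toGroup (f := f) (by
    rintro r ⟨i, rfl⟩
    simp only [brRel, map_mul, map_inv, FreeGroup.lift_apply_of, mul_inv_eq_one]
    exact h i)

@[simp] theorem lift_x {Γ : Type*} [Group Γ] (f : Fin 3 → Γ) (h : ∀ i, Br (f i) (f (i + 1)))
    (i : Fin 3) : lift f h (x i) = f i := by
  simp [lift, x]

theorem hom_ext {Γ : Type*} [Group Γ] {f g : TG →* Γ} (h : ∀ i, f (x i) = g (x i)) : f = g :=
  PresentedGroup.ext h

theorem closure_x : Subgroup.closure (Set.range x) = ⊤ :=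
  PresentedGroup.closure_range_of _

/-- `z i = (x i * x (i+1))^3`. -/
def z (i : Fin 3) : TG := (x i * x (i + 1)) ^ 3

/-- the rotation endomorphism `x i ↦ x (i+1)`. -/
def rot : TG →* TG := lift (fun i => x (i + 1)) (fun i => br (i + 1))

@[simp] theorem rot_x (i : Fin 3) : rot (x i) = x (i + 1) := by simp [rot]

theorem rot_rot_rot (g : TG) : rot (rot (rot g)) = g := by
  have : (rot.comp (rot.comp rot)) = MonoidHom.id TG := by
    apply hom_ext
    intro i
    simp only [MonoidHom.comp_apply, rot_x, MonoidHom.id_apply]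
    congr 1
    fin_cases i <;> rfl
  exact DFunLike.congr_fun this g

theorem rot_injective : Function.Injective rot := by
  intro g h hgh
  rw [← rot_rot_rot g, ← rot_rot_rot h, hgh]

theorem rot_surjective : Function.Surjective rot := fun g => ⟨rot (rot g), rot_rot_rot g⟩

@[simp] theorem rot_z (i : Fin 3) : rot (z i) = z (i + 1) := by simp [z]

end TG

end Claimed.Agent.R156
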