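import Claimed.Agent.R156.MatrixLemmas
import Claimed.Agent.R156.Groups

/-! Row 156 / S0327: the map `iotaT : TG → GA`. -/

set_option autoImplicit false

namespace Claimed.Agent.R156

open Claims.C0279.ArtinCAT0

/-- the three triangle generators of `GA`. -/
noncomputable def xG (i : Fin 3) : GA := gen ⟨i.val, by omega⟩

theorem xG_eq_block0 (i : Fin 3) : xG i = gen (blockLetter i 0) := by
  rw [blockLetter_zero]; rfl

theorem xG_eq_block1 (i : Fin 3) : xG (i + 1) = gen (blockLetter i 1) := by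
  rw [blockLetter_one]; rfl

theorem br_xG (i : Fin 3) : Br (xG i) (xG (i + 1)) := by
  rw [xG_eq_block0, xG_eq_block1]
  exact gen_braid i 0 1 rfl

noncomputable def iotaT : TG →* GA := TG.lift xG br_xG

@[simp] theorem iotaT_x (i : Fin 3) : iotaT (TG.x i) = xG i := by simp [iotaT]

theorem iotaT_z (i : Fin 3) : iotaT (TG.z i) = (xG i * xG (i + 1)) ^ 3 := by
  simp [TG.z]

theorem iotaT_range : iotaT.range = Subgroup.closure (Set.range xG) := by
  rw [MonoidHom.range_eq_map, ← TG.closure_x, MonoidHom.map_closure]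
  congr 1
  ext g
  constructor
  · rintro ⟨_, ⟨i, rfl⟩, rfl⟩
    exact ⟨i, (iotaT_x i).symm⟩
  · rintro ⟨i, rfl⟩
    exact ⟨TG.x i, ⟨i, rfl⟩, iotaT_x i⟩

end Claimed.Agent.R156
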