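import Claimed.Agent.R156.Defs

/-! Row 156 / S0327: the explicit matrix: first three conjuncts, relations in `GA`,
universal property of `GA`. -/

set_option autoImplicit false

namespace Claimed.Agent.R156

open Claims.C0279.ArtinCAT0

theorem blockLetter_val (b : Fin 3) (i : Fin 39) :
    (blockLetter b i).val = if i.val = 0 then b.val else if i.val = 1 then (b.val + 1) % 3
      else 5 + 37 * b.val + (i.val - 2) := by
  unfold blockLetter
  split_ifs <;> rfl

theorem adjacent_comm (s t : Letters) : Adjacent s t ↔ Adjacent t s := by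
  constructor <;> rintro ⟨b, i, j, h1, h2, h3⟩ <;> exact ⟨b, j, i, h2, h1, h3.symm⟩

theorem distant_comm (s t : Letters) : Distant s t ↔ Distant t s := by
  constructor <;> rintro ⟨b, i, j, h1, h2, h3⟩ <;> exact ⟨b, j, i, h2, h1, h3.symm⟩

theorem sentinel_comm (s t : Letters) : Sentinel s t ↔ Sentinel t s := by
  unfold Sentinel
  exact or_comm

theorem matrix_symm (s t : Letters) : explicitMatrix s t = explicitMatrix t s := by
  unfold explicitMatrix
  have ha := adjacent_comm s t
  have hd : (Distant s t ∨ Sentinel s t) ↔ (Distant t s ∨ Sentinel t s) :=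
    or_congr (distant_comm s t) (sentinel_comm s t)
  by_cases h1 : s = t
  · subst h1; rfl
  · rw [if_neg h1, if_neg (Ne.symm h1)]
    by_cases h2 : Adjacent s t
    · rw [if_pos h2, if_pos (ha.1 h2)]
    · rw [if_neg h2, if_neg (mt ha.2 h2)]
      by_cases h3 : Distant s t ∨ Sentinel s t
      · rw [if_pos h3, if_pos (hd.1 h3)]
      · rw [if_neg h3, if_neg (mt hd.2 h3)]

theorem matrix_diag (s : Letters) : explicitMatrix s s = 1 := by
  unfold explicitMatrix
  simp

theorem matrix_labels (s t : Letters) (h : s ≠ t) :
    explicitMatrix s t = 2 ∨ explicitMatrix s t = 3 ∨ explicitMatrix s t = ⊤ := by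
  unfold explicitMatrix
  split_ifs <;> simp_all

theorem blockLetter_zero (b : Fin 3) : blockLetter b 0 = ⟨b.val, by omega⟩ := by
  apply Fin.ext
  rw [blockLetter_val]
  simp

theorem blockLetter_one (b : Fin 3) : blockLetter b 1 = ⟨(b + 1 : Fin 3).val, by omega⟩ := by
  apply Fin.ext
  rw [blockLetter_val]
  simp [Fin.val_add]

theorem blockLetter_injective (b : Fin 3) : Function.Injective (blockLetter b) := by
  intro i j h
  have h' := congrArg Fin.val h
  rw [blockLetter_val, blockLetter_val] at h'
  apply Fin.ext
  have := b.isLt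
  have := i.isLt
  have := j.isLt
  split_ifs at h' <;> omega

/-- A pair which is distant in some block is not adjacent in any block. -/
theorem not_adjacent_of_distant {s t : Letters} (h : Distant s t) : ¬ Adjacent s t := by
  rintro ⟨b', i', j', hs', ht', h'⟩
  obtain ⟨b, i, j, hs, ht, h⟩ := h
  have e1 := congrArg Fin.val (hs.symm.trans hs')
  have e2 := congrArg Fin.val (ht.symm.trans ht')
  simp only [blockLetter_val] at e1 e2
  have := b.isLt
  have := b'.isLt
  have := i.isLt
  have := j.isLt
  have := i'.isLt
  have := j'.isLt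
  split_ifs at e1 e2 <;> omega

theorem blockLetter_val_ne (b : Fin 3) (i : Fin 39) :
    (blockLetter b i).val ≠ 3 ∧ (blockLetter b i).val ≠ 4 := by
  rw [blockLetter_val]
  have := b.isLt
  have := i.isLt
  split_ifs <;> omega

theorem not_adjacent_of_sentinel {s t : Letters} (h : Sentinel s t) : ¬ Adjacent s t := by
  rintro ⟨b, i, j, hs, ht, -⟩
  have h1 := blockLetter_val_ne b i
  have h2 := blockLetter_val_ne b j
  rw [← hs] at h1
  rw [← ht] at h2
  unfold Sentinel at h
  omega

theorem mk_alternating_two (s t : Letters) :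
    PresentedGroup.mk (artinRelators explicitMatrix) (alternating s t 2) = gen s * gen t := by
  simp [alternating, gen, PresentedGroup.of]

theorem mk_alternating_three (s t : Letters) :
    PresentedGroup.mk (artinRelators explicitMatrix) (alternating s t 3) =
      gen s * gen t * gen s := by
  simp [alternating, gen, PresentedGroup.of, mul_assoc]

theorem gen_rel (s t : Letters) (n : ℕ) (h : explicitMatrix s t = (n : Label)) :
    PresentedGroup.mk (artinRelators explicitMatrix) (alternating s t n) =
      PresentedGroup.mk (artinRelators explicitMatrix) (alternating t s n) :=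
  PresentedGroup.mk_eq_mk_of_mul_inv_mem ⟨s, t, n, h, rfl⟩

theorem matrix_of_adjacent {s t : Letters} (hne : s ≠ t) (h : Adjacent s t) :
    explicitMatrix s t = ((3 : ℕ) : Label) := by
  unfold explicitMatrix
  rw [if_neg hne, if_pos h]
  rfl

theorem matrix_of_distant {s t : Letters} (hne : s ≠ t) (h : Distant s t) :
    explicitMatrix s t = ((2 : ℕ) : Label) := by
  unfold explicitMatrix
  rw [if_neg hne, if_neg (not_adjacent_of_distant h), if_pos (Or.inl h)]
  rfl

theorem matrix_of_sentinel {s t : Letters} (hne : s ≠ t) (h : Sentinel s t) :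
    explicitMatrix s t = ((2 : ℕ) : Label) := by
  unfold explicitMatrix
  rw [if_neg hne, if_neg (not_adjacent_of_sentinel h), if_pos (Or.inr h)]
  rfl

theorem gen_braid (b : Fin 3) (i j : Fin 39) (h : i.val + 1 = j.val) :
    Br (gen (blockLetter b i)) (gen (blockLetter b j)) := by
  have hne : blockLetter b i ≠ blockLetter b j := by
    intro e
    have := blockLetter_injective b e
    rw [this] at h
    omega
  have := gen_rel _ _ 3 (matrix_of_adjacent hne ⟨b, i, j, rfl, rfl, Or.inl h⟩)
  rwa [mk_alternating_three, mk_alternating_three] at this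

theorem gen_comm (b : Fin 3) (i j : Fin 39) (h : i.val + 2 ≤ j.val) :
    Commute (gen (blockLetter b i)) (gen (blockLetter b j)) := by
  have hne : blockLetter b i ≠ blockLetter b j := by
    intro e
    have := blockLetter_injective b e
    rw [this] at h
    omega
  have := gen_rel _ _ 2 (matrix_of_distant hne ⟨b, i, j, rfl, rfl, Or.inl h⟩)
  rwa [mk_alternating_two, mk_alternating_two] at this

theorem gen_sentinel (s t : Letters) (hs : s.val = 3 ∨ s.val = 4) (ht : t.val < 3) :
    Commute (gen s) (gen t) := by
  have hne : s ≠ t := by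
    intro e
    rw [e] at hs
    omega
  have := gen_rel _ _ 2 (matrix_of_sentinel hne (Or.inl ⟨hs, ht⟩))
  rwa [mk_alternating_two, mk_alternating_two] at this

/-- Universal property of `GA` in block coordinates. -/
theorem GA_exists_hom {Γ : Type*} [Group Γ] (f : Letters → Γ)
    (hbr : ∀ (b : Fin 3) (i j : Fin 39), i.val + 1 = j.val →
      Br (f (blockLetter b i)) (f (blockLetter b j)))
    (hcomm : ∀ (b : Fin 3) (i j : Fin 39), i.val + 2 ≤ j.val →
      Commute (f (blockLetter b i)) (f (blockLetter b j)))
    (hsent : ∀ s t : Letters, (s.val = 3 ∨ s.val = 4) → t.val < 3 → Commute (f s) (f t)) :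
    ∃ F : GA →* Γ, ∀ s, F (gen s) = f s := by
  have key : ∀ r ∈ artinRelators explicitMatrix, FreeGroup.lift f r = 1 := by
    rintro _ ⟨s, t, n, hn, rfl⟩
    rw [map_mul, map_inv, mul_inv_eq_one]
    unfold explicitMatrix at hn
    split_ifs at hn with h1 h2 h3
    · rw [h1]
    · have hn3 : n = 3 := by exact_mod_cast hn.symm
      subst hn3
      obtain ⟨b, i, j, rfl, rfl, h | h⟩ := h2
      · have := hbr b i j h
        simpa [alternating, mul_assoc, Br] using this
      · have := hbr b j i h
        simpa [alternating, mul_assoc, Br] using this.symm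
    · have hn2 : n = 2 := by exact_mod_cast hn.symm
      subst hn2
      have hc : Commute (f s) (f t) := by
        rcases h3 with ⟨b, i, j, rfl, rfl, h | h⟩ | ⟨hs, ht⟩ | ⟨ht, hs⟩
        · exact hcomm b i j h
        · exact (hcomm b j i h).symm
        · exact hsent s t hs ht
        · exact (hsent t s ht hs).symm
      simpa [alternating] using hc.eq
    · exact absurd hn (by simp)
  exact ⟨PresentedGroup.toGroup key, fun s => PresentedGroup.toGroup.of key⟩

theorem GA_hom_ext {Γ : Type*} [Group Γ] {F F' : GA →* Γ} (h : ∀ s, F (gen s) = F' (gen s)) :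
    F = F' := PresentedGroup.ext h

theorem GA_closure_gen : Subgroup.closure (Set.range gen) = ⊤ :=
  PresentedGroup.closure_range_of _

/-- Every finite label of a sentinel: `explicitMatrix 4 t = n` forces `t = 4` or `t < 3 ∧ n = 2`. -/
theorem matrix_four (t : Letters) (n : ℕ) (h : explicitMatrix 4 t = (n : Label)) :
    (t = 4 ∧ n = 1) ∨ (t.val < 3 ∧ n = 2) := by
  unfold explicitMatrix at h
  split_ifs at h with h1 h2 h3
  · left
    exact ⟨h1.symm, by exact_mod_cast h.symm⟩
  · exfalso
    obtain ⟨b, i, j, hs, -, -⟩ := h2
    have := (blockLetter_val_ne b i).2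
    rw [← hs] at this
    exact this rfl
  · right
    refine ⟨?_, by exact_mod_cast h.symm⟩
    rcases h3 with ⟨b, i, j, hs, -, -⟩ | ⟨-, ht⟩ | ⟨-, hs⟩
    · exfalso
      have := (blockLetter_val_ne b i).2
      rw [← hs] at this
      exact this rfl
    · exact ht
    · exfalso
      have : (4 : Letters).val = 4 := rfl
      omega
  · exact absurd h (by simp)

end Claimed.Agent.R156
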