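import Claimed.Agent.R156.ModelDefs
import Claimed.Agent.R156.B3Defs

/-! Row 156 / S0327: basic computations in the model `MM = F3 ⋊ B3`, the map `Lam : TG → MM`. -/

set_option autoImplicit false

namespace Claimed.Agent.R156

/-- induction over `B3` for subgroup-like predicates. -/
theorem B3_mem_of_gens (H : Subgroup B3) (h0 : B3.s 0 ∈ H) (h1 : B3.s 1 ∈ H) (β : B3) : β ∈ H := by
  have : (⊤ : Subgroup B3) ≤ H := by
    rw [← B3.closure_s, Subgroup.closure_le]
    rintro g (rfl | rfl)
    · exact h0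
    · exact h1
  exact this (Subgroup.mem_top β)

theorem actB_c3 (β : B3) : actB β c3 = c3 := by
  let H : Subgroup B3 :=
    { carrier := {β | actB β c3 = c3}
      one_mem' := by simp
      mul_mem' := by
        intro a b ha hb
        simp only [Set.mem_ofPred_eq] at ha hb ⊢
        rw [map_mul, MulAut.mul_apply, hb, ha]
      inv_mem' := by
        intro a ha
        simp only [Set.mem_ofPred_eq] at ha ⊢
        rw [map_inv]
        calc (actB a)⁻¹ c3 = (actB a)⁻¹ (actB a c3) := by rw [ha]
          _ = c3 := MulAut.inv_apply_self _ _ _ }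
  refine B3_mem_of_gens H ?_ ?_ β
  · show actB (B3.s 0) c3 = c3
    simp [c3, mul_assoc]
  · show actB (B3.s 1) c3 = c3
    simp [c3, mul_assoc]

theorem actB_z_eq : actB B3.z = MulAut.conj c3 := by
  apply MulEquiv.toMonoidHom_injective
  apply F3_hom_ext
  intro i
  fin_cases i <;>
    simp [B3.z, pow_succ, MulAut.mul_apply, c3, mul_assoc]

/-- `z` acts as conjugation by `c3`. -/
theorem actB_z (f : F3) : actB B3.z f = c3 * f * c3⁻¹ := by
  rw [actB_z_eq, MulAut.conj_apply]

theorem actB_z_zpow (k : ℤ) (f : F3) : actB (B3.z ^ k) f = c3 ^ k * f * (c3 ^ k)⁻¹ := by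
  rw [map_zpow, actB_z_eq, ← map_zpow, MulAut.conj_apply]

theorem rho_mul_a : rhoM * aM = bM * rhoM := by
  apply SemidirectProduct.ext
  · simp [rhoM, aM, bM]
  · simp only [rhoM, aM, bM, SemidirectProduct.mul_right, SemidirectProduct.right_inr]
    have := B3.br
    unfold Br at this
    rw [this, mul_assoc]

theorem rho_a : rhoM * aM * rhoM⁻¹ = bM := by
  rw [rho_mul_a, mul_inv_cancel_right]

theorem rho_cube : rhoM ^ 3 = ⟨c3⁻¹, B3.z⟩ := by
  apply SemidirectProduct.ext
  · simp [rhoM, pow_succ, c3, mul_assoc]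
  · simp [rhoM, pow_succ, B3.z]

theorem rho_cube_central (g : MM) : Commute (rhoM ^ 3) g := by
  rw [rho_cube]
  apply SemidirectProduct.ext
  · simp only [SemidirectProduct.mul_left, actB_z, map_inv, actB_c3]
    group
  · simp only [SemidirectProduct.mul_right]
    exact B3.z_central g.right

theorem rho_c : rhoM * cM * rhoM⁻¹ = aM := by
  have h := rho_cube_central aM
  have h1 : cM = rhoM ^ 2 * aM * (rhoM ^ 2)⁻¹ := by
    unfold cM
    rw [← rho_a, pow_two, mul_inv_rev]
    simp only [mul_assoc]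
  rw [h1]
  have h2 : rhoM * (rhoM ^ 2 * aM * (rhoM ^ 2)⁻¹) * rhoM⁻¹ = rhoM ^ 3 * aM * (rhoM ^ 3)⁻¹ := by
    group
  rw [h2, h.eq, mul_inv_cancel_right]

/-- the images of the three generators. -/
def xM : Fin 3 → MM := ![aM, bM, cM]

theorem rho_xM (i : Fin 3) : rhoM * xM i * rhoM⁻¹ = xM (i + 1) := by
  fin_cases i
  · exact rho_a
  · rfl
  · exact rho_c

theorem Br_conj {Γ : Type*} [Group Γ] {x y : Γ} (h : Br x y) (r : Γ) :
    Br (r * x * r⁻¹) (r * y * r⁻¹) := by
  unfold Br at h ⊢
  have e1 : r * x * r⁻¹ * (r * y * r⁻¹) * (r * x * r⁻¹) = r * (x * y * x) * r⁻¹ := by group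
  have e2 : r * y * r⁻¹ * (r * x * r⁻¹) * (r * y * r⁻¹) = r * (y * x * y) * r⁻¹ := by group
  rw [e1, e2, h]

theorem br_xM (i : Fin 3) : Br (xM i) (xM (i + 1)) := by
  have h0 : Br (xM 0) (xM 1) := by
    show Br aM bM
    unfold Br aM bM
    rw [← map_mul, ← map_mul, ← map_mul, ← map_mul]
    exact congrArg _ B3.br
  have h1 : Br (xM 1) (xM 2) := by
    have := Br_conj h0 rhoM
    rwa [rho_xM, rho_xM] at this
  have h2 : Br (xM 2) (xM 0) := by
    have := Br_conj h1 rhoM
    rwa [rho_xM, rho_xM] at this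
  fin_cases i
  · exact h0
  · exact h1
  · exact h2

/-- the model map. -/
def Lam : TG →* MM := TG.lift xM br_xM

@[simp] theorem Lam_x (i : Fin 3) : Lam (TG.x i) = xM i := by simp [Lam]

/-- `Lam` intertwines `rot` and conjugation by `rhoM`. -/
theorem Lam_rot (g : TG) : Lam (TG.rot g) = rhoM * Lam g * rhoM⁻¹ := by
  have : Lam.comp TG.rot = (MulAut.conj rhoM).toMonoidHom.comp Lam := by
    apply TG.hom_ext
    intro i
    simp [rho_xM]
  exact DFunLike.congr_fun this g

/-- exponent sum on the free group. -/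
def wF : F3 →* Multiplicative ℤ := FreeGroup.lift (fun _ => Multiplicative.ofAdd 1)

@[simp] theorem wF_u (i : Fin 3) : wF (uF i) = Multiplicative.ofAdd 1 := by simp [wF, uF]

theorem wF_actB (β : B3) : wF.comp (actB β).toMonoidHom = wF := by
  let H : Subgroup B3 :=
    { carrier := {β | wF.comp (actB β).toMonoidHom = wF}
      one_mem' := by
        simp only [Set.mem_ofPred_eq, map_one]
        rfl
      mul_mem' := by
        intro a b ha hb
        simp only [Set.mem_ofPred_eq] at ha hb ⊢
        ext f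
        have h1 := DFunLike.congr_fun ha (actB b (FreeGroup.of f))
        have h2 := DFunLike.congr_fun hb (FreeGroup.of f)
        simp only [MonoidHom.comp_apply, MulEquiv.coe_toMonoidHom] at h1 h2 ⊢
        rw [map_mul, MulAut.mul_apply, h1, h2]
      inv_mem' := by
        intro a ha
        simp only [Set.mem_ofPred_eq] at ha ⊢
        ext f
        have h1 := DFunLike.congr_fun ha ((actB a)⁻¹ (FreeGroup.of f))
        simp only [MonoidHom.comp_apply, MulEquiv.coe_toMonoidHom, MulAut.apply_inv_self] at h1 ⊢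
        rw [map_inv, h1] }
  refine B3_mem_of_gens H ?_ ?_ β
  · show wF.comp (actB (B3.s 0)).toMonoidHom = wF
    apply F3_hom_ext
    intro i
    fin_cases i <;> simp
  · show wF.comp (actB (B3.s 1)).toMonoidHom = wF
    apply F3_hom_ext
    intro i
    fin_cases i <;> simp

/-- exponent sum of the free part. -/
theorem exists_wM : ∃ w : MM →* Multiplicative ℤ,
    (∀ i, w (SemidirectProduct.inl (uF i)) = Multiplicative.ofAdd 1) ∧
    (∀ β, w (SemidirectProduct.inr β) = 1) ∧ ∀ g : TG, w (Lam g) = 1 := by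
  let w : MM →* Multiplicative ℤ := SemidirectProduct.lift wF 1 (by
    intro β
    rw [wF_actB]
    ext f
    simp)
  have hr : ∀ β, w (SemidirectProduct.inr β) = 1 := fun β => by simp [w]
  refine ⟨w, fun i => by simp [w], hr, ?_⟩
  intro g
  have : w.comp Lam = 1 := by
    apply TG.hom_ext
    intro i
    simp only [MonoidHom.comp_apply, Lam_x, MonoidHom.one_apply]
    fin_cases i
    · exact hr _
    · exact hr _
    · show w cM = 1
      unfold cM
      rw [map_mul, map_mul, map_inv]
      have : w bM = 1 := hr _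
      rw [this, mul_one, mul_inv_cancel]
  exact DFunLike.congr_fun this g

/-- consequence: if the free part of `Lam g` is a power of `c3`, it is trivial. -/
theorem Lam_left_c3 (g : TG) (m : ℤ) (h : (Lam g).left = c3 ^ m) : m = 0 := by
  obtain ⟨w, h1, h2, h3⟩ := exists_wM
  have e := h3 g
  rw [← SemidirectProduct.inl_left_mul_inr_right (Lam g), map_mul, h2, mul_one, h, map_zpow,
    map_zpow] at e
  have hc : w (SemidirectProduct.inl c3) = Multiplicative.ofAdd 3 := by
    unfold c3
    rw [map_mul, map_mul, map_mul, map_mul, h1, h1, h1]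
    rfl
  rw [hc] at e
  have e' : m * 3 = 0 := by
    have := congrArg Multiplicative.toAdd e
    simpa using this
  omega

theorem Lam_z0 : Lam (TG.z 0) = SemidirectProduct.inr B3.z := by
  unfold TG.z B3.z
  rw [map_pow, map_mul, Lam_x, Lam_x, map_pow, map_mul]
  rfl

theorem Lam_z2 : Lam (TG.z 2) = ⟨uF 2 * uF 0 * uF 1 * c3⁻¹, B3.z⟩ := by
  have e : TG.z 2 = TG.rot (TG.rot (TG.z 0)) := by
    rw [TG.rot_z, TG.rot_z]
    rfl
  rw [e, Lam_rot, Lam_rot, Lam_z0]
  have key : (⟨uF 2 * uF 0 * uF 1 * c3⁻¹, B3.z⟩ : MM) * (rhoM * rhoM) =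
      (rhoM * rhoM) * SemidirectProduct.inr B3.z := by
    apply SemidirectProduct.ext
    · simp [rhoM, actB_z, c3, mul_assoc]
    · simp only [SemidirectProduct.mul_right, SemidirectProduct.right_inr]
      exact B3.z_central _
  have : rhoM * (rhoM * SemidirectProduct.inr B3.z * rhoM⁻¹) * rhoM⁻¹ =
      (rhoM * rhoM) * SemidirectProduct.inr B3.z * (rhoM * rhoM)⁻¹ := by group
  rw [this, ← key, mul_inv_cancel_right]

end Claimed.Agent.R156
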