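import Claimed.Agent.R156.Groups

/-! Row 156 / S0327: the model `MM = F3 ⋊ B3` (Artin action) of the annular braid group. -/

set_option autoImplicit false

namespace Claimed.Agent.R156

/-- free group of rank 3. -/
abbrev F3 : Type := FreeGroup (Fin 3)

/-- free generators. -/
def uF (i : Fin 3) : F3 := FreeGroup.of i

/-- `u0 u1 u2`. -/
def c3 : F3 := uF 0 * uF 1 * uF 2

/-- endomorphisms underlying the Artin action and their inverses. -/
def actFun0 : F3 →* F3 := FreeGroup.lift ![uF 0 * uF 1 * (uF 0)⁻¹, uF 0, uF 2]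
def actInv0 : F3 →* F3 := FreeGroup.lift ![uF 1, (uF 1)⁻¹ * uF 0 * uF 1, uF 2]
def actFun1 : F3 →* F3 := FreeGroup.lift ![uF 0, uF 1 * uF 2 * (uF 1)⁻¹, uF 1]
def actInv1 : F3 →* F3 := FreeGroup.lift ![uF 0, uF 2, (uF 2)⁻¹ * uF 1 * uF 2]

theorem F3_hom_ext {Γ : Type*} [Group Γ] {f g : F3 →* Γ} (h : ∀ i, f (uF i) = g (uF i)) :
    f = g := FreeGroup.ext_hom _ _ h

@[simp] theorem actFun0_u0 : actFun0 (uF 0) = uF 0 * uF 1 * (uF 0)⁻¹ := by simp [actFun0, uF]
@[simp] theorem actFun0_u1 : actFun0 (uF 1) = uF 0 := by simp [actFun0, uF]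
@[simp] theorem actFun0_u2 : actFun0 (uF 2) = uF 2 := by simp [actFun0, uF]
@[simp] theorem actInv0_u0 : actInv0 (uF 0) = uF 1 := by simp [actInv0, uF]
@[simp] theorem actInv0_u1 : actInv0 (uF 1) = (uF 1)⁻¹ * uF 0 * uF 1 := by simp [actInv0, uF]
@[simp] theorem actInv0_u2 : actInv0 (uF 2) = uF 2 := by simp [actInv0, uF]
@[simp] theorem actFun1_u0 : actFun1 (uF 0) = uF 0 := by simp [actFun1, uF]
@[simp] theorem actFun1_u1 : actFun1 (uF 1) = uF 1 * uF 2 * (uF 1)⁻¹ := by simp [actFun1, uF]
@[simp] theorem actFun1_u2 : actFun1 (uF 2) = uF 1 := by simp [actFun1, uF]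
@[simp] theorem actInv1_u0 : actInv1 (uF 0) = uF 0 := by simp [actInv1, uF]
@[simp] theorem actInv1_u1 : actInv1 (uF 1) = uF 2 := by simp [actInv1, uF]
@[simp] theorem actInv1_u2 : actInv1 (uF 2) = (uF 2)⁻¹ * uF 1 * uF 2 := by simp [actInv1, uF]

theorem actInv0_actFun0 (f : F3) : actInv0 (actFun0 f) = f := by
  have : actInv0.comp actFun0 = MonoidHom.id F3 := by
    apply F3_hom_ext
    intro i
    fin_cases i <;> simp [mul_assoc]
  exact DFunLike.congr_fun this f

theorem actFun0_actInv0 (f : F3) : actFun0 (actInv0 f) = f := by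
  have : actFun0.comp actInv0 = MonoidHom.id F3 := by
    apply F3_hom_ext
    intro i
    fin_cases i <;> simp [mul_assoc]
  exact DFunLike.congr_fun this f

theorem actInv1_actFun1 (f : F3) : actInv1 (actFun1 f) = f := by
  have : actInv1.comp actFun1 = MonoidHom.id F3 := by
    apply F3_hom_ext
    intro i
    fin_cases i <;> simp [mul_assoc]
  exact DFunLike.congr_fun this f

theorem actFun1_actInv1 (f : F3) : actFun1 (actInv1 f) = f := by
  have : actFun1.comp actInv1 = MonoidHom.id F3 := by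
    apply F3_hom_ext
    intro i
    fin_cases i <;> simp [mul_assoc]
  exact DFunLike.congr_fun this f

/-- the automorphism `σ_1`. -/
def act0 : MulAut F3 :=
  { toFun := actFun0, invFun := actInv0, left_inv := actInv0_actFun0,
    right_inv := actFun0_actInv0, map_mul' := map_mul actFun0 }

/-- the automorphism `σ_2`. -/
def act1 : MulAut F3 :=
  { toFun := actFun1, invFun := actInv1, left_inv := actInv1_actFun1,
    right_inv := actFun1_actInv1, map_mul' := map_mul actFun1 }

@[simp] theorem act0_apply (f : F3) : act0 f = actFun0 f := rfl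
@[simp] theorem act1_apply (f : F3) : act1 f = actFun1 f := rfl
@[simp] theorem act0_inv_apply (f : F3) : act0⁻¹ f = actInv0 f := rfl
@[simp] theorem act1_inv_apply (f : F3) : act1⁻¹ f = actInv1 f := rfl

theorem br_act : Br act0 act1 := by
  unfold Br
  apply MulEquiv.toMonoidHom_injective
  apply F3_hom_ext
  intro i
  fin_cases i <;> simp [MulAut.mul_apply, mul_assoc]

/-- the Artin action of `B3` on `F3`. -/
def actB : B3 →* MulAut F3 := B3.lift act0 act1 br_act

@[simp] theorem actB_s0 : actB (B3.s 0) = act0 := by simp [actB]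
@[simp] theorem actB_s1 : actB (B3.s 1) = act1 := by simp [actB]

/-- the model group. -/
abbrev MM : Type := F3 ⋊[actB] B3

/-- images of the generators, and the rotation element. -/
def aM : MM := SemidirectProduct.inr (B3.s 0)
def bM : MM := SemidirectProduct.inr (B3.s 1)
def rhoM : MM := ⟨(uF 0)⁻¹, B3.s 0 * B3.s 1⟩
def cM : MM := rhoM * bM * rhoM⁻¹

end Claimed.Agent.R156
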