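import Claimed.Agent.R156.ModelBasic

/-! Row 156 / S0327: `Lam : TG → MM` is injective. -/

set_option autoImplicit false
set_option linter.unusedSimpArgs false

namespace Claimed.Agent.R156

namespace ModelInjAux

variable {Γ : Type*} [Group Γ]

/-- the six compatibility identities. -/
theorem compat {a b c r : Γ} (hab : Br a b)
    (ra : r * a * r⁻¹ = b) (rb : r * b * r⁻¹ = c) (rc : r * c * r⁻¹ = a) :
    (a * (a * b * r⁻¹) * a⁻¹ = (a * b * r⁻¹) * (b * r⁻¹ * a) * (a * b * r⁻¹)⁻¹) ∧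
    (a * (b * r⁻¹ * a) * a⁻¹ = a * b * r⁻¹) ∧
    (a * (r⁻¹ * a * b) * a⁻¹ = r⁻¹ * a * b) ∧
    (b * (a * b * r⁻¹) * b⁻¹ = a * b * r⁻¹) ∧
    (b * (b * r⁻¹ * a) * b⁻¹ = (b * r⁻¹ * a) * (r⁻¹ * a * b) * (b * r⁻¹ * a)⁻¹) ∧
    (b * (r⁻¹ * a * b) * b⁻¹ = b * r⁻¹ * a) := by
  unfold Br at hab
  -- commutation rules
  have h1 : a * r⁻¹ = r⁻¹ * b := by rw [← ra]; group
  have h2 : b * r⁻¹ = r⁻¹ * c := by rw [← rb]; group
  have h3 : c * r⁻¹ = r⁻¹ * a := by rw [← rc]; group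
  have h1' : r⁻¹ * b⁻¹ = a⁻¹ * r⁻¹ := by rw [← ra]; group
  have h3' : r⁻¹ * a⁻¹ = c⁻¹ * r⁻¹ := by rw [← rc]; group
  have h4 : b * r = r * a := by rw [← ra]; group
  have h5 : r⁻¹ * a * r = c := by rw [← rc]; group
  have hbab : b * a * b * a⁻¹ = a * b := by rw [← hab]; group
  refine ⟨?_, by group, ?_, ?_, ?_, by group⟩
  · -- a U0 a⁻¹ = U0 U1 U0⁻¹
    have L : a * (a * b * r⁻¹) * a⁻¹ = a * a * b * c⁻¹ * r⁻¹ := by
      calc a * (a * b * r⁻¹) * a⁻¹ = a * a * b * (r⁻¹ * a⁻¹) := by group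
        _ = a * a * b * c⁻¹ * r⁻¹ := by rw [h3']; group
    have R : (a * b * r⁻¹) * (b * r⁻¹ * a) * (a * b * r⁻¹)⁻¹ = a * a * b * c⁻¹ * r⁻¹ := by
      calc (a * b * r⁻¹) * (b * r⁻¹ * a) * (a * b * r⁻¹)⁻¹
          = a * b * (r⁻¹ * b) * r⁻¹ * a * r * b⁻¹ * a⁻¹ := by group
        _ = a * b * (a * r⁻¹) * r⁻¹ * a * r * b⁻¹ * a⁻¹ := by rw [h1]
        _ = a * b * a * r⁻¹ * (r⁻¹ * a * r) * b⁻¹ * a⁻¹ := by group
        _ = a * b * a * (r⁻¹ * c) * b⁻¹ * a⁻¹ := by rw [h5]; group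
        _ = a * b * a * (b * r⁻¹) * b⁻¹ * a⁻¹ := by rw [h2]
        _ = a * b * a * b * (r⁻¹ * b⁻¹) * a⁻¹ := by group
        _ = a * b * a * b * (a⁻¹ * r⁻¹) * a⁻¹ := by rw [h1']
        _ = a * (b * a * b * a⁻¹) * (r⁻¹ * a⁻¹) := by group
        _ = a * (a * b) * (c⁻¹ * r⁻¹) := by rw [hbab, h3']
        _ = a * a * b * c⁻¹ * r⁻¹ := by group
    rw [L, R]
  · -- a U2 a⁻¹ = U2
    calc a * (r⁻¹ * a * b) * a⁻¹ = (a * r⁻¹) * a * b * a⁻¹ := by group
      _ = (r⁻¹ * b) * a * b * a⁻¹ := by rw [h1]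
      _ = r⁻¹ * (b * a * b * a⁻¹) := by group
      _ = r⁻¹ * (a * b) := by rw [hbab]
      _ = r⁻¹ * a * b := by group
  · -- b U0 b⁻¹ = U0
    calc b * (a * b * r⁻¹) * b⁻¹ = b * a * b * (r⁻¹ * b⁻¹) := by group
      _ = b * a * b * (a⁻¹ * r⁻¹) := by rw [h1']
      _ = (b * a * b * a⁻¹) * r⁻¹ := by group
      _ = a * b * r⁻¹ := by rw [hbab]
  · -- b U1 b⁻¹ = U1 U2 U1⁻¹
    symm
    calc (b * r⁻¹ * a) * (r⁻¹ * a * b) * (b * r⁻¹ * a)⁻¹
        = b * r⁻¹ * (a * r⁻¹) * a * b * a⁻¹ * r * b⁻¹ := by group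
      _ = b * r⁻¹ * (r⁻¹ * b) * a * b * a⁻¹ * r * b⁻¹ := by rw [h1]
      _ = b * r⁻¹ * r⁻¹ * (b * a * b * a⁻¹) * r * b⁻¹ := by group
      _ = b * r⁻¹ * r⁻¹ * (a * b) * r * b⁻¹ := by rw [hbab]
      _ = b * r⁻¹ * r⁻¹ * a * (b * r) * b⁻¹ := by group
      _ = b * r⁻¹ * r⁻¹ * a * (r * a) * b⁻¹ := by rw [h4]
      _ = b * r⁻¹ * (r⁻¹ * a * r) * a * b⁻¹ := by group
      _ = b * (r⁻¹ * c) * a * b⁻¹ := by rw [h5]; group
      _ = b * (b * r⁻¹) * a * b⁻¹ := by rw [h2]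
      _ = b * (b * r⁻¹ * a) * b⁻¹ := by group

end ModelInjAux

/-- Abstract form of the inverse map: in any group with elements `a b c r` such that
`a,b,c` satisfy the braid relations and `r` rotates them, there is a hom from `MM`.
`U2 = r⁻¹ab, U1 = b r⁻¹ a, U0 = a b r⁻¹`.  Compatibility identities to check
(each is a two line computation, see proof message A4):
`a U0 a⁻¹ = U0 U1 U0⁻¹`, `a U1 a⁻¹ = U0`, `a U2 a⁻¹ = U2`,
`b U0 b⁻¹ = U0`, `b U1 b⁻¹ = U1 U2 U1⁻¹`, `b U2 b⁻¹ = U1`.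
Use `SemidirectProduct.lift`. -/
theorem exists_Xi {Γ : Type*} [Group Γ] (a b c r : Γ) (hab : Br a b)
    (ra : r * a * r⁻¹ = b) (rb : r * b * r⁻¹ = c) (rc : r * c * r⁻¹ = a) :
    ∃ Xi : MM →* Γ, Xi aM = a ∧ Xi bM = b ∧ Xi rhoM = r := by
  obtain ⟨c1, c2, c3', c4, c5, c6⟩ := ModelInjAux.compat hab ra rb rc
  set φ1 : F3 →* Γ := FreeGroup.lift ![a * b * r⁻¹, b * r⁻¹ * a, r⁻¹ * a * b] with hφ1
  set φ2 : B3 →* Γ := B3.lift a b hab with hφ2
  have u0 : φ1 (uF 0) = a * b * r⁻¹ := by simp [hφ1, uF]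
  have u1 : φ1 (uF 1) = b * r⁻¹ * a := by simp [hφ1, uF]
  have u2 : φ1 (uF 2) = r⁻¹ * a * b := by simp [hφ1, uF]
  have s0 : φ2 (B3.s 0) = a := by simp [hφ2]
  have s1 : φ2 (B3.s 1) = b := by simp [hφ2]
  have key : ∀ g : B3, ∀ f : F3, φ1 (actB g f) = φ2 g * φ1 f * (φ2 g)⁻¹ := by
    intro g
    have hg : g ∈ Subgroup.closure ({B3.s 0, B3.s 1} : Set B3) := by
      rw [B3.closure_s]; trivial
    induction hg using Subgroup.closure_induction with
    | mem x hx =>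
      have hom : φ1.comp (actB x).toMonoidHom = (MulAut.conj (φ2 x)).toMonoidHom.comp φ1 := by
        rcases hx with rfl | rfl
        · apply F3_hom_ext
          intro i
          fin_cases i
          · simp [u0, u1, u2, s0, c1]
          · simp [u0, u1, u2, s0, c2]
          · simp [u0, u1, u2, s0, c3']
        · apply F3_hom_ext
          intro i
          fin_cases i
          · simp [u0, u1, u2, s1, c4]
          · simp [u0, u1, u2, s1, c5]
          · simp [u0, u1, u2, s1, c6]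
      intro f
      simpa using DFunLike.congr_fun hom f
    | one => intro f; simp
    | mul x y _ _ hx hy =>
      intro f
      rw [map_mul, MulAut.mul_apply, hx, hy, map_mul]
      group
    | inv x _ hx =>
      intro f
      have := hx ((actB x)⁻¹ f)
      rw [MulAut.apply_inv_self] at this
      rw [map_inv, map_inv, this]
      group
  refine ⟨SemidirectProduct.lift φ1 φ2 ?_, ?_, ?_, ?_⟩
  · intro g
    ext f
    simpa using key g (FreeGroup.of f)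
  · simp [aM, s0]
  · simp [bM, s1]
  · have : rhoM = SemidirectProduct.inl (uF 0)⁻¹ * SemidirectProduct.inr (B3.s 0 * B3.s 1) := by
      simp [rhoM, SemidirectProduct.ext_iff]
    rw [this, map_mul, SemidirectProduct.lift_inl, SemidirectProduct.lift_inr, map_inv, u0,
      map_mul, s0, s1]
    group

/-- `rot` as an automorphism. -/
def ModelInjAux.rotAut : MulAut TG :=
  { toFun := TG.rot
    invFun := fun g => TG.rot (TG.rot g)
    left_inv := fun g => TG.rot_rot_rot g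
    right_inv := fun g => TG.rot_rot_rot g
    map_mul' := map_mul TG.rot }

/-- a group containing `TG` in which `rot` is inner: `TG ⋊ ℤ`. -/
theorem exists_rot_extension : ∃ (Γ : Type) (_ : Group Γ) (j : TG →* Γ) (r : Γ),
    Function.Injective j ∧ ∀ g : TG, r * j g * r⁻¹ = j (TG.rot g) := by
  refine ⟨TG ⋊[zpowersHom (MulAut TG) ModelInjAux.rotAut] Multiplicative ℤ, inferInstance,
    SemidirectProduct.inl, SemidirectProduct.inr (Multiplicative.ofAdd 1),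
    SemidirectProduct.inl_injective, ?_⟩
  intro g
  rw [← map_inv, ← SemidirectProduct.inl_aut]
  congr 1

theorem Lam_injective : Function.Injective Lam := by
  obtain ⟨Γ, _, j, r, hj, hr⟩ := exists_rot_extension
  have hab : Br (j (TG.x 0)) (j (TG.x 1)) := by
    have := TG.br 0
    unfold Br at this ⊢
    rw [← map_mul, ← map_mul, ← map_mul, ← map_mul]
    exact congrArg j this
  obtain ⟨Xi, ha, hb, hrho⟩ := exists_Xi (j (TG.x 0)) (j (TG.x 1)) (j (TG.x 2)) r hab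
    (by rw [hr, TG.rot_x]; rfl) (by rw [hr, TG.rot_x]; rfl) (by rw [hr, TG.rot_x]; rfl)
  have hcomp : Xi.comp Lam = j := by
    apply TG.hom_ext
    intro i
    fin_cases i
    · simpa [xM] using ha
    · simpa [xM] using hb
    · have h2 : r * j (TG.x 1) * r⁻¹ = j (TG.x 2) := by rw [hr, TG.rot_x]; rfl
      simp [xM, cM, ha, hb, hrho, h2]
  intro g h hgh
  apply hj
  rw [← hcomp, MonoidHom.comp_apply, MonoidHom.comp_apply, hgh]

end Claimed.Agent.R156
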