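import Claimed.Agent.R156.RepQ
import Claimed.Agent.R156.ModelInj
import Claimed.Agent.R156.IotaT

/-! Row 156 / S0327: `iotaT : TG → GA` is injective. -/

set_option autoImplicit false

namespace Claimed.Agent.R156

open Claims.C0279.ArtinCAT0

/-- the family of two groups indexed by `Bool`. -/
def psiFam (A B : Type) : Bool → Type
  | true => A
  | false => B

instance psiFamGroup (A B : Type) [Group A] [Group B] : ∀ b, Group (psiFam A B b)
  | true => inferInstanceAs (Group A)
  | false => inferInstanceAs (Group B)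

/-- the family of two maps from the base. -/
def psiFamHom {H A B : Type} [Group H] [Group A] [Group B] (f : H →* A) (g : H →* B) :
    ∀ b, H →* psiFam A B b
  | true => f
  | false => g

/-- amalgamated products exist and the factors embed. -/
theorem psi_exists_amalgam {H A B : Type} [Group H] [Group A] [Group B] (f : H →* A) (g : H →* B)
    (hf : Function.Injective f) (hg : Function.Injective g) :
    ∃ (P : Type) (_ : Group P) (jA : A →* P) (jB : B →* P),
      Function.Injective jA ∧ Function.Injective jB ∧ ∀ h, jA (f h) = jB (g h) := by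
  have hinj : ∀ b, Function.Injective (psiFamHom f g b) := by
    intro b
    cases b
    · exact hg
    · exact hf
  refine ⟨Monoid.PushoutI (psiFamHom f g), inferInstance,
    Monoid.PushoutI.of (φ := psiFamHom f g) true, Monoid.PushoutI.of (φ := psiFamHom f g) false,
    Monoid.PushoutI.of_injective hinj true, Monoid.PushoutI.of_injective hinj false, ?_⟩
  intro h
  have h1 := Monoid.PushoutI.of_apply_eq_base (psiFamHom f g) true h
  have h2 := Monoid.PushoutI.of_apply_eq_base (psiFamHom f g) false h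
  exact h1.trans h2.symm

theorem BraidRel.psi_map {Γ Γ' : Type*} [Group Γ] [Group Γ'] {σ : ℕ → Γ} {n : ℕ}
    (h : BraidRel σ n) (F : Γ →* Γ') : BraidRel (fun i => F (σ i)) n where
  br := by
    intro j hj
    have := congrArg F (h.br j hj)
    simpa [Br] using this
  comm := by
    intro j k hjk hk
    exact (h.comm j k hjk hk).map F

/-- amalgam `MM *_{B3} Q` (`Monoid.PushoutI`, `Monoid.PushoutI.of_injective`; the two maps
from the base `B3` are `SemidirectProduct.inr` and `jB`, both injective). -/
theorem exists_P : ∃ (P : Type) (_ : Group P) (jM : MM →* P) (q : ℕ → P),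
    Function.Injective jM ∧ BraidRel q 39 ∧ q 0 = jM aM ∧ q 1 = jM bM := by
  obtain ⟨Q, _, q, jB, hq, h0, h1, hinj⟩ := exists_Q
  obtain ⟨P, _, jA, jQ, hA, _, hAB⟩ := psi_exists_amalgam
    (SemidirectProduct.inr : B3 →* MM) jB SemidirectProduct.inr_injective hinj
  refine ⟨P, inferInstance, jA, fun i => jQ (q i), hA, hq.psi_map jQ, ?_, ?_⟩
  · show jQ (q 0) = jA aM
    rw [← h0, ← hAB]; rfl
  · show jQ (q 1) = jA bM
    rw [← h1, ← hAB]; rfl

theorem psi_br_conj {Γ : Type*} [Group Γ] {x y : Γ} (h : Br x y) (r : Γ) :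
    Br (r * x * r⁻¹) (r * y * r⁻¹) := by
  unfold Br at *
  have : r * x * r⁻¹ * (r * y * r⁻¹) * (r * x * r⁻¹) = r * (x * y * x) * r⁻¹ := by group
  rw [this, h]
  group

theorem psi_comm_conj {Γ : Type*} [Group Γ] {x y : Γ} (h : Commute x y) (r : Γ) :
    Commute (r * x * r⁻¹) (r * y * r⁻¹) := by
  unfold Commute SemiconjBy at *
  have : r * x * r⁻¹ * (r * y * r⁻¹) = r * (x * y) * r⁻¹ := by group
  rw [this, h]
  group

theorem psi_rho_pow_xM (b i : Fin 3) :
    rhoM ^ b.val * xM i * (rhoM ^ b.val)⁻¹ = xM (i + b) := by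
  have h1 : ∀ i, rhoM ^ 1 * xM i * (rhoM ^ 1)⁻¹ = xM (i + 1) := by
    intro i
    rw [pow_one, rho_xM]
  have h2 : ∀ i, rhoM ^ 2 * xM i * (rhoM ^ 2)⁻¹ = xM (i + 2) := by
    intro i
    have : rhoM ^ 2 * xM i * (rhoM ^ 2)⁻¹ = rhoM * (rhoM * xM i * rhoM⁻¹) * rhoM⁻¹ := by
      rw [pow_two]; group
    rw [this, rho_xM, rho_xM]
    congr 1
    fin_cases i <;> rfl
  fin_cases b
  · simp
  · exact h1 i
  · exact h2 i

/-- the images of the letters. -/
noncomputable def psiF {P : Type} [Group P] (jM : MM →* P) (q : ℕ → P) (n : Letters) : P :=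
  if h : n.val < 3 then jM (xM ⟨n.val, h⟩)
  else if n.val < 5 then 1
  else jM rhoM ^ ((n.val - 5) / 37) * q ((n.val - 5) % 37 + 2) * (jM rhoM ^ ((n.val - 5) / 37))⁻¹

theorem psiF_block {P : Type} [Group P] (jM : MM →* P) (q : ℕ → P)
    (h0 : q 0 = jM aM) (h1 : q 1 = jM bM) (b : Fin 3) (i : Fin 39) :
    psiF jM q (blockLetter b i) = jM rhoM ^ b.val * q i.val * (jM rhoM ^ b.val)⁻¹ := by
  by_cases hi0 : i.val = 0
  · have hb : (blockLetter b i).val = b.val := by simp [blockLetter, hi0]
    have hlt : (blockLetter b i).val < 3 := by rw [hb]; exact b.isLt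
    rw [psiF, dif_pos hlt, hi0, h0]
    have := psi_rho_pow_xM b 0
    have h2 : aM = xM 0 := rfl
    rw [h2, ← map_pow, ← map_mul, ← map_inv, ← map_mul, this]
    congr 2
    apply Fin.ext
    simp [hb]
  · by_cases hi1 : i.val = 1
    · have hb : (blockLetter b i).val = (b.val + 1) % 3 := by simp [blockLetter, hi1]
      have hlt : (blockLetter b i).val < 3 := by rw [hb]; omega
      rw [psiF, dif_pos hlt, hi1, h1]
      have := psi_rho_pow_xM b 1
      have h2 : bM = xM 1 := rfl
      rw [h2, ← map_pow, ← map_mul, ← map_inv, ← map_mul, this]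
      congr 2
      apply Fin.ext
      simp only [hb]
      fin_cases b <;> rfl
    · have hb : (blockLetter b i).val = 5 + 37 * b.val + (i.val - 2) := by
        simp [blockLetter, hi0, hi1]
      have hi := i.isLt
      have hn3 : ¬ (blockLetter b i).val < 3 := by rw [hb]; omega
      have hn5 : ¬ (blockLetter b i).val < 5 := by rw [hb]; omega
      rw [psiF, dif_neg hn3, if_neg hn5, hb]
      have e1 : (5 + 37 * b.val + (i.val - 2) - 5) / 37 = b.val := by omega
      have e2 : (5 + 37 * b.val + (i.val - 2) - 5) % 37 + 2 = i.val := by omega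
      rw [e1, e2]

/-- `Psi (blockLetter b i) = ρ^b q_i ρ^{-b}`, sentinels `↦ 1`. -/
theorem exists_Psi {P : Type} [Group P] (jM : MM →* P) (q : ℕ → P) (hq : BraidRel q 39)
    (h0 : q 0 = jM aM) (h1 : q 1 = jM bM) :
    ∃ Psi : GA →* P, ∀ i : Fin 3, Psi (xG i) = jM (xM i) := by
  obtain ⟨F, hF⟩ := GA_exists_hom (psiF jM q)
    (by
      intro b i j hij
      rw [psiF_block jM q h0 h1, psiF_block jM q h0 h1, ← hij]
      exact psi_br_conj (hq.br i.val (by have := j.isLt; omega)) _)
    (by
      intro b i j hij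
      rw [psiF_block jM q h0 h1, psiF_block jM q h0 h1]
      exact psi_comm_conj (hq.comm i.val j.val hij j.isLt) _)
    (by
      intro s t hs _
      have hn3 : ¬ s.val < 3 := by omega
      have hn5 : s.val < 5 := by omega
      rw [psiF, dif_neg hn3, if_pos hn5]
      exact Commute.one_left _)
  refine ⟨F, fun i => ?_⟩
  rw [xG, hF, psiF, dif_pos i.isLt]

/-- (A7). -/
theorem iotaT_injective : Function.Injective iotaT := by
  obtain ⟨P, _, jM, q, hjM, hq, h0, h1⟩ := exists_P
  obtain ⟨Psi, hPsi⟩ := exists_Psi jM q hq h0 h1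
  have hcomp : Psi.comp iotaT = jM.comp Lam := by
    apply TG.hom_ext
    intro i
    simp [hPsi]
  have hinj : Function.Injective (Psi.comp iotaT) := by
    rw [hcomp]
    exact hjM.comp Lam_injective
  exact Function.Injective.of_comp (f := Psi) hinj

end Claimed.Agent.R156
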