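import Claimed.Agent.R156.B3Kernel
import Claimed.Agent.R156.BraidJM

/-! Row 156 / S0327: a group `Q` with `A_39` braid relations in which `B3` embeds. -/

set_option autoImplicit false

namespace Claimed.Agent.R156

/-- the transvection `T_i` on `ℤ → ℤ`. -/
def repQFun (i : ℤ) (v : ℤ → ℤ) : ℤ → ℤ :=
  Function.update v i (v i + v (i + 1) - v (i - 1))

/-- inverse of the transvection `T_i`. -/
def repQInv (i : ℤ) (v : ℤ → ℤ) : ℤ → ℤ :=
  Function.update v i (v i - v (i + 1) + v (i - 1))

theorem repQFun_apply (i : ℤ) (v : ℤ → ℤ) (k : ℤ) :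
    repQFun i v k = if k = i then v i + v (i + 1) - v (i - 1) else v k := by
  simp [repQFun, Function.update_apply]

theorem repQInv_apply (i : ℤ) (v : ℤ → ℤ) (k : ℤ) :
    repQInv i v k = if k = i then v i - v (i + 1) + v (i - 1) else v k := by
  simp [repQInv, Function.update_apply]

theorem repQInv_repQFun (i : ℤ) (v : ℤ → ℤ) : repQInv i (repQFun i v) = v := by
  funext k
  simp only [repQInv_apply, repQFun_apply]
  have h1 : ¬ (i + 1 = i) := by omega
  have h2 : ¬ (i - 1 = i) := by omega
  simp only [h1, h2, if_true, if_false]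
  split_ifs with h
  · subst h; ring
  · rfl

theorem repQFun_repQInv (i : ℤ) (v : ℤ → ℤ) : repQFun i (repQInv i v) = v := by
  funext k
  simp only [repQInv_apply, repQFun_apply]
  have h1 : ¬ (i + 1 = i) := by omega
  have h2 : ¬ (i - 1 = i) := by omega
  simp only [h1, h2, if_true, if_false]
  split_ifs with h
  · subst h; ring
  · rfl

/-- the transvection as a permutation. -/
def repQT (i : ℤ) : Equiv.Perm (ℤ → ℤ) where
  toFun := repQFun i
  invFun := repQInv i
  left_inv := repQInv_repQFun i
  right_inv := repQFun_repQInv i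

@[simp] theorem repQT_apply (i : ℤ) (v : ℤ → ℤ) : repQT i v = repQFun i v := rfl

theorem repQT_br (i : ℤ) : Br (repQT i) (repQT (i + 1)) := by
  unfold Br
  ext v k
  simp only [Equiv.Perm.mul_apply, repQT_apply, repQFun_apply]
  have e1 : i + 1 + 1 = i + 2 := by ring
  have e2 : i + 1 - 1 = i := by ring
  have h1 : ¬ (i + 1 = i) := by omega
  have h2 : ¬ (i - 1 = i) := by omega
  have h3 : ¬ (i = i + 1) := by omega
  have h4 : ¬ (i + 2 = i) := by omega
  have h5 : ¬ (i + 2 = i + 1) := by omega
  have h6 : ¬ (i - 1 = i + 1) := by omega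
  simp only [e1, e2, h1, h2, h3, h4, h5, h6, if_true, if_false]
  by_cases hk : k = i
  · subst hk
    simp only [h3, if_true, if_false]
    ring
  · by_cases hk' : k = i + 1
    · subst hk'
      simp only [h1, if_true, if_false]
      ring
    · simp only [hk, hk', if_false]

theorem repQT_comm (i j : ℤ) (h : i + 2 ≤ j) : Commute (repQT i) (repQT j) := by
  unfold Commute SemiconjBy
  ext v k
  simp only [Equiv.Perm.mul_apply, repQT_apply, repQFun_apply]
  have h1 : ¬ (i = j) := by omega
  have h2 : ¬ (i + 1 = j) := by omega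
  have h3 : ¬ (i - 1 = j) := by omega
  have h4 : ¬ (j = i) := by omega
  have h5 : ¬ (j + 1 = i) := by omega
  have h6 : ¬ (j - 1 = i) := by omega
  simp only [h1, h2, h3, h4, h5, h6, if_false]
  by_cases hk : k = i
  · subst hk
    simp only [h1, if_true, if_false]
  · by_cases hk' : k = j
    · subst hk'
      simp only [h4, if_true, if_false]
    · simp only [hk, hk', if_false]

/-- the group `Q`. -/
abbrev RepQ : Type := Equiv.Perm (ℤ → ℤ) × Multiplicative ℤ

/-- the generators of `Q`. -/
def repQq (i : ℕ) : RepQ := (repQT (i : ℤ), Multiplicative.ofAdd 1)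

theorem repQq_braidRel (n : ℕ) : BraidRel repQq n where
  br := by
    intro j _
    unfold Br
    refine Prod.ext ?_ rfl
    have := repQT_br (j : ℤ)
    simpa [repQq, Br] using this
  comm := by
    intro j k hjk _
    unfold Commute SemiconjBy
    refine Prod.ext ?_ rfl
    have := repQT_comm (j : ℤ) (k : ℤ) (by exact_mod_cast hjk)
    simpa [repQq] using this.eq

/-- the map `B3 → Q`. -/
def repQj : B3 →* RepQ := B3.lift (repQq 0) (repQq 1) ((repQq_braidRel 2).br 0 (by norm_num))

@[simp] theorem repQj_s0 : repQj (B3.s 0) = repQq 0 := by simp [repQj]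
@[simp] theorem repQj_s1 : repQj (B3.s 1) = repQq 1 := by simp [repQj]

theorem repQj_snd (β : B3) : (repQj β).2 = eB β := by
  have : (MonoidHom.snd _ _).comp repQj = eB := by
    apply B3.hom_ext
    · simp [repQq]
    · simp [repQq]
  exact DFunLike.congr_fun this β

/-- the vector `a e_0 + b e_1`. -/
def repQvec (a b : ℤ) : ℤ → ℤ := fun k => if k = 0 then a else if k = 1 then b else 0

theorem repQvec_injective {a b a' b' : ℤ} (h : repQvec a b = repQvec a' b') : a = a' ∧ b = b' := by
  have h0 := congrFun h 0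
  have h1 := congrFun h 1
  simp [repQvec] at h0 h1
  exact ⟨h0, h1⟩

theorem repQFun_zero_vec (a b : ℤ) : repQFun 0 (repQvec a b) = repQvec (a + b) b := by
  funext k
  simp only [repQFun_apply, repQvec]
  by_cases hk : k = 0
  · subst hk; simp
  · simp [hk]

theorem repQFun_one_vec (a b : ℤ) : repQFun 1 (repQvec a b) = repQvec a (b - a) := by
  funext k
  simp only [repQFun_apply, repQvec]
  by_cases hk : k = 1
  · subst hk; simp
  · simp [hk]

/-- the property relating the action on the plane and `piB`. -/
def RepQGood (β : B3) : Prop :=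
  ∀ a b : ℤ, (repQj β).1 (repQvec a b) =
    repQvec ((piB β : Matrix (Fin 2) (Fin 2) ℤ) 0 0 * a + (piB β : Matrix (Fin 2) (Fin 2) ℤ) 0 1 * b)
      ((piB β : Matrix (Fin 2) (Fin 2) ℤ) 1 0 * a + (piB β : Matrix (Fin 2) (Fin 2) ℤ) 1 1 * b)

theorem repQGood_s0 : RepQGood (B3.s 0) := by
  intro a b
  simp [repQq, repQFun_zero_vec, matL]

theorem repQGood_s1 : RepQGood (B3.s 1) := by
  intro a b
  simp [repQq, repQFun_one_vec, matR]
  congr 1
  ring

theorem repQGood_one : RepQGood 1 := by
  intro a b
  simp

theorem repQGood_mul {x y : B3} (hx : RepQGood x) (hy : RepQGood y) : RepQGood (x * y) := by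
  intro a b
  rw [map_mul, Prod.fst_mul, Equiv.Perm.mul_apply, hy, hx, map_mul]
  simp only [Matrix.SpecialLinearGroup.coe_mul, Matrix.mul_apply, Fin.sum_univ_two]
  congr 1 <;> ring

theorem repQGood_inv {x : B3} (hx : RepQGood x) : RepQGood x⁻¹ := by
  intro a b
  rw [map_inv, Prod.fst_inv, Equiv.Perm.inv_eq_iff_eq, hx, map_inv]
  have hdet := (piB x).det_coe
  rw [Matrix.det_fin_two] at hdet
  simp only [Matrix.SpecialLinearGroup.coe_inv, Matrix.adjugate_fin_two, Matrix.of_apply,
    Matrix.cons_val_zero, Matrix.cons_val_one, Matrix.cons_val', Matrix.cons_val_fin_one]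
  congr 1
  · linear_combination (-a) * hdet
  · linear_combination (-b) * hdet

theorem repQGood_all (β : B3) : RepQGood β := by
  have hβ : β ∈ Subgroup.closure ({B3.s 0, B3.s 1} : Set B3) := by
    rw [B3.closure_s]; trivial
  induction hβ using Subgroup.closure_induction with
  | mem x hx =>
    rcases hx with rfl | rfl
    · exact repQGood_s0
    · exact repQGood_s1
  | one => exact repQGood_one
  | mul x y _ _ hx hy => exact repQGood_mul hx hy
  | inv x _ hx => exact repQGood_inv hx

theorem repQj_injective : Function.Injective repQj := by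
  rw [injective_iff_map_eq_one]
  intro β hβ
  apply inj_pi_e
  · have h := repQGood_all β
    rw [RepQGood, hβ] at h
    have h10 := repQvec_injective (h 1 0)
    have h01 := repQvec_injective (h 0 1)
    simp at h10 h01
    ext i j
    fin_cases i <;> fin_cases j <;> simp [← h10.1, ← h10.2, ← h01.1, ← h01.2]
  · rw [← repQj_snd, hβ]; rfl

/-- `Q = (permutations / linear automorphisms of ℕ → ℤ or Fin 39 → ℤ) × Multiplicative ℤ`,
`q i = (transvection T_i, ofAdd 1)`, where `T_i v = v + ω(v, e_i) e_i` for the alternating form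
with `ω(e_i, e_{i+1}) = 1`.  On the span of `e_0, e_1` (invariant under `T_0, T_1`) one recovers
`piB` (up to the choice of signs / transpose), so `inj_pi_e` gives injectivity of `jB`. -/
theorem exists_Q : ∃ (Q : Type) (_ : Group Q) (q : ℕ → Q) (jB : B3 →* Q),
    BraidRel q 39 ∧ jB (B3.s 0) = q 0 ∧ jB (B3.s 1) = q 1 ∧ Function.Injective jB :=
  ⟨RepQ, inferInstance, repQq, repQj, repQq_braidRel 39, repQj_s0, repQj_s1, repQj_injective⟩

end Claimed.Agent.R156
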