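import Claimed.Agent.R156.Cat0Basic
import Claimed.Agent.R156.Cat0Geom819

/-! Row 156 / S0327: translation length, semisimplicity, axes.
(bridged to the `H819` library by helper819) -/

set_option autoImplicit false

namespace Claimed.Agent.R156

open Claims.C0279.ArtinCAT0

variable {Γ : Type*} [Group Γ] {X : Type*} [MetricSpace X] [MulAction Γ X]

/-- translation length = infimum of the displacement function. -/
noncomputable def tl (X : Type*) [MetricSpace X] [MulAction Γ X] (g : Γ) : ℝ :=
  ⨅ x : X, dist x (g • x)

theorem tl_eq_H819 (g : Γ) : tl X g = H819.tl X g := rfl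

theorem dist_smul_smul (hGA : GeometricAction Γ X) (g : Γ) (x y : X) :
    dist (g • x) (g • y) = dist x y :=
  (hGA.2.1 g).dist_eq x y

theorem tl_nonneg (g : Γ) : 0 ≤ tl X g := H819.tl_nonneg g

theorem tl_le (g : Γ) (y : X) : tl X g ≤ dist y (g • y) := H819.tl_le g y

/-- Properness of the action in the form we use. -/
theorem finite_displacement [ProperSpace X] (hGA : GeometricAction Γ X) (y0 : X) (R : ℝ) :
    {g : Γ | dist y0 (g • y0) ≤ R}.Finite := by
  have : Nonempty X := ⟨y0⟩
  exact H819.finite_displacement_pt hGA y0 R

/-- Properness, compact version: finitely many elements move some point of a compact set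
by at most `R`. -/
theorem finite_displacement_compact [ProperSpace X] (hGA : GeometricAction Γ X) (K : Set X)
    (hK : IsCompact K) (R : ℝ) : {g : Γ | ∃ k ∈ K, dist k (g • k) ≤ R}.Finite := by
  rcases isEmpty_or_nonempty X with hE | hN
  · convert Set.finite_empty (α := Γ)
    ext g
    simp only [Set.mem_empty_iff_false, iff_false]
    rintro ⟨k, -, -⟩
    exact hE.elim k
  · exact H819.finite_displacement hGA hK R

/-- Semisimplicity: the displacement function attains its infimum. -/
theorem exists_min_point [ProperSpace X] [Nonempty X] (hGA : GeometricAction Γ X) (g : Γ) :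
    ∃ x : X, ∀ y : X, dist x (g • x) ≤ dist y (g • y) := by
  obtain ⟨x, hx⟩ := H819.exists_isMinPt hGA g
  refine ⟨x, fun y => ?_⟩
  rw [show dist x (g • x) = H819.tl X g from hx]
  exact H819.tl_le g y

end Claimed.Agent.R156
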