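import Claimed.Agent.R156.Semisimple

/-! Row 156 / S0327: centralisers act cocompactly on sublevel sets; bottleneck lower bound.
(bridged to the `H819` library by helper819) -/

set_option autoImplicit false

namespace Claimed.Agent.R156

open Claims.C0279.ArtinCAT0

variable {Γ : Type*} [Group Γ] {X : Type*} [MetricSpace X] [MulAction Γ X]

/-- Convexity of sublevel sets of displacement functions. -/
theorem displacement_convex (hGA : GeometricAction Γ X) (s : Γ) {R : ℝ} {x y : X} {γ : ℝ → X}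
    (hγ : Segment x y γ) (hx : dist x (s • x) ≤ R) (hy : dist y (s • y) ≤ R) {t : ℝ}
    (ht : t ∈ Set.Icc (0 : ℝ) 1) : dist (γ t) (s • γ t) ≤ R := by
  have h1 := H819.dist_convex hGA.1 hγ (H819.segment_map hγ (hGA.2.1 s)) ht
  have h2 : (1 - t) * dist x (s • x) ≤ (1 - t) * R :=
    mul_le_mul_of_nonneg_left hx (by linarith [ht.2])
  have h3 : t * dist y (s • y) ≤ t * R := mul_le_mul_of_nonneg_left hy ht.1
  calc dist (γ t) (s • γ t) ≤ (1 - t) * dist x (s • x) + t * dist y (s • y) := h1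
    _ ≤ (1 - t) * R + t * R := add_le_add h2 h3
    _ = R := by ring

/-- Tool P. -/
theorem toolP [ProperSpace X] (hGA : GeometricAction Γ X) (y0 : X) (S : Finset Γ) (R : ℝ) :
    ∃ D : ℝ, ∀ y : X, (∀ s ∈ S, dist y (s • y) ≤ R) →
      ∃ g : Γ, (∀ s ∈ S, Commute s g) ∧ dist y (g • y0) ≤ D := by
  have : Nonempty X := ⟨y0⟩
  obtain ⟨D, hD⟩ := H819.toolP hGA (fun s : S => (s : Γ)) R y0
  refine ⟨D, fun y hy => ?_⟩
  obtain ⟨g, hg, hd⟩ := hD y (fun i => hy i i.2)
  exact ⟨g, fun s hs => (hg ⟨s, hs⟩).symm, hd⟩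

end Claimed.Agent.R156
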