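import Claimed.Agent.R156.Semisimple

/-! Row 156 / S0327: axes and properties of the translation length.
(bridged to the `H819` library by helper819) -/

set_option autoImplicit false

namespace Claimed.Agent.R156

open Claims.C0279.ArtinCAT0 Filter Topology

variable {Γ : Type*} [Group Γ] {X : Type*} [MetricSpace X] [MulAction Γ X]

/-- doubling: for every `y`, `2 * tl g ≤ d(y, g^2 y)`. -/
theorem two_tl_le (hGA : GeometricAction Γ X) (g : Γ) (y : X) :
    2 * tl X g ≤ dist y ((g ^ 2) • y) := by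
  have := H819.isIsometricSMul_of_geometric hGA
  exact H819.two_mul_tl_le hGA.1 g y

/-- Axis point. -/
theorem exists_axis [ProperSpace X] [Nonempty X] (hGA : GeometricAction Γ X) (g : Γ) :
    ∃ x : X, ∀ n : ℕ, dist x (g ^ n • x) = n * tl X g := by
  have := H819.isIsometricSMul_of_geometric hGA
  obtain ⟨x, hx⟩ := H819.exists_isMinPt hGA g
  exact ⟨x, fun n => hx.dist_pow hGA.1 n⟩

/-- Orbits grow like `n * tl g` up to a bounded error. -/
theorem exists_orbit_bound [ProperSpace X] [Nonempty X] (hGA : GeometricAction Γ X) (g : Γ)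
    (y : X) : ∃ C : ℝ, 0 ≤ C ∧ ∀ n : ℕ, |dist y (g ^ n • y) - n * tl X g| ≤ C := by
  obtain ⟨C, hC⟩ := H819.exists_abs_dist_pow_sub_le hGA g y
  exact ⟨C, (abs_nonneg _).trans (hC 0), hC⟩

/-- Characterisation of `tl`: any linear growth rate of an orbit equals `tl`. -/
theorem tl_unique [ProperSpace X] [Nonempty X] (hGA : GeometricAction Γ X) (g : Γ) (y : X)
    (r C : ℝ) (h : ∀ n : ℕ, |dist y (g ^ n • y) - n * r| ≤ C) : tl X g = r := by
  have := H819.isIsometricSMul_of_geometric hGA
  have h1 := H819.tendsto_dist_pow_div hGA.1 g y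
  refine tendsto_nhds_unique h1 ?_
  have l0 : Tendsto (fun n : ℕ => C / (n : ℝ)) atTop (𝓝 0) :=
    tendsto_const_div_atTop_nhds_zero_nat C
  have lo : Tendsto (fun n : ℕ => r - C / (n : ℝ)) atTop (𝓝 r) := by
    simpa using (tendsto_const_nhds (x := r)).sub l0
  have hi : Tendsto (fun n : ℕ => r + C / (n : ℝ)) atTop (𝓝 r) := by
    simpa using (tendsto_const_nhds (x := r)).add l0
  refine tendsto_of_tendsto_of_tendsto_of_le_of_le' lo hi ?_ ?_
  · filter_upwards [eventually_gt_atTop 0] with n hn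
    have hn' : (0 : ℝ) < n := by exact_mod_cast hn
    have := (abs_le.1 (h n)).1
    rw [le_div_iff₀ hn', sub_mul, div_mul_cancel₀ _ hn'.ne']
    linarith
  · filter_upwards [eventually_gt_atTop 0] with n hn
    have hn' : (0 : ℝ) < n := by exact_mod_cast hn
    have := (abs_le.1 (h n)).2
    rw [div_le_iff₀ hn', add_mul, div_mul_cancel₀ _ hn'.ne']
    linarith

theorem tl_eq_zero [ProperSpace X] [Nonempty X] (hGA : GeometricAction Γ X) {g : Γ}
    (h : tl X g = 0) : IsOfFinOrder g := by
  by_contra hg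
  have := H819.tl_pos_of_not_isOfFinOrder hGA hg
  rw [← tl_eq_H819, h] at this
  exact lt_irrefl _ this

theorem tl_inv [ProperSpace X] [Nonempty X] (hGA : GeometricAction Γ X) (g : Γ) :
    tl X g⁻¹ = tl X g := by
  have := H819.isIsometricSMul_of_geometric hGA
  exact H819.tl_inv g

theorem tl_conj [ProperSpace X] [Nonempty X] (hGA : GeometricAction Γ X) (g h : Γ) :
    tl X (h * g * h⁻¹) = tl X g := by
  have := H819.isIsometricSMul_of_geometric hGA
  exact H819.tl_conj g h

theorem tl_pow [ProperSpace X] [Nonempty X] (hGA : GeometricAction Γ X) (g : Γ) (n : ℕ) :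
    tl X (g ^ n) = n * tl X g := by
  have := H819.isIsometricSMul_of_geometric hGA
  exact H819.tl_pow hGA.1 g n

/-- Parallelogram law for commuting elements. -/
theorem tl_para [ProperSpace X] [Nonempty X] (hGA : GeometricAction Γ X) (g h : Γ)
    (hc : Commute g h) :
    tl X (g * h) ^ 2 + tl X (g * h⁻¹) ^ 2 = 2 * tl X g ^ 2 + 2 * tl X h ^ 2 := by
  have := H819.isIsometricSMul_of_geometric hGA
  have h1 := H819.tl_parallelogram hGA.1 hc
  have h2 : H819.tl X (g * h⁻¹) = H819.tl X (g⁻¹ * h) := by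
    rw [← H819.tl_inv (g * h⁻¹), mul_inv_rev, inv_inv, (hc.symm.inv_right).eq]
  rw [tl_eq_H819, tl_eq_H819, tl_eq_H819, tl_eq_H819, h2]
  exact h1

/-- half of the parallelogram law. -/
theorem tl_para_le [ProperSpace X] [Nonempty X] (hGA : GeometricAction Γ X) (g h : Γ)
    (hc : Commute g h) :
    tl X (g * h) ^ 2 + tl X (g * h⁻¹) ^ 2 ≤ 2 * tl X g ^ 2 + 2 * tl X h ^ 2 :=
  (tl_para hGA g h hc).le

end Claimed.Agent.R156
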